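import Vale.Agent.P352X.TPD.Spec2

/-!
# P352X, block TPD: row TEN3 (matrices)
-/

set_option linter.all false

open Filter Topology

namespace Vale.Agent.P352X.TPD

open Vale.Agent.P352 Vale.Agent.P352.GF Vale.Agent.P352.BW Vale.Agent.P352.H246
open Vale.Agent.P352.H496 Vale.Agent.P352.H755 Vale.Agent.P352.H15

namespace Ten3

lemma mext {L L' : Ix → V} (h : ∀ z, sim 1 L 0 z = sim 1 L' 0 z) : L = L' := by
  funext m n
  simpa [sim, bas] using congrFun (h (bas m 1)) n

lemma s_one (z : V) : sim 1 GF.one 0 z = z := by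
  funext n
  simp [sim, GF.one, bas]

lemma det4 (L : Matrix (Fin 4) (Fin 4) ℝ) (h : ∀ i : Fin 3, L 3 i.castSucc = 0) :
    L.det = L 3 3 * (L.submatrix Fin.castSucc Fin.castSucc).det := by
  rw [Matrix.det_succ_row L 3, Fin.sum_univ_castSucc]
  simp only [h, mul_zero, zero_mul, Finset.sum_const_zero, zero_add]
  rw [show (3 : Fin 4) = Fin.last 3 from rfl, Fin.succAbove_last]
  norm_num

lemma s_lg (w : R2) (z : V) : sim 1 (Lg w) 0 z = gap w z := (Grp.lga w).2 z

lemma s_lb (t : ℝ) (z : V) : sim 1 (Lb t) 0 z = scp (Real.exp t) (Real.exp (-t)) z := by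
  have := (Grp.lsc (Real.exp_pos t) (Real.exp_pos (-t))).2 z
  rwa [← Real.exp_add, add_neg_cancel, Real.exp_zero, Real.sqrt_one] at this

lemma s_lb' (t : ℝ) (z : V) :
    sim 1 (Lb t) 0 z = pt (Real.exp t * al z) (Real.exp (-t) * be z) (tx z) := by
  rw [s_lb, scp, ← Real.exp_add, add_neg_cancel, Real.exp_zero, Real.sqrt_one, one_smul]

lemma lrr {r : ℝ} (h : 0 < r) : Lsc r r = GF.one := by
  funext m
  simp [Lsc, bst, div_self h.ne', GF.one]

end Ten3

open Ten3

theorem ten3_row : TEN3 where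
  lcm L L' h h' := ⟨ue_lor h h', fun s s' z => by
    funext k
    simp only [sim, T.cm_apply, Pi.zero_apply, zero_add, Fin.sum_univ_four]
    ring⟩
  inv L h := ⟨linv L, isLor_linv h, mext fun z => by rw [T.sim_cm, sim_linv2 h, s_one],
    mext fun z => by rw [T.sim_cm, H755.sim_linv h, s_one]⟩
  tra L h := ⟨fun m n => by simpa only [GF.mdot] using lor_transpose h m n, h.2.1,
    (Matrix.det_transpose (Matrix.of L)).trans h.2.2⟩
  r1 := by
    refine ⟨⟨fun m n => ?_, by simp [r1, bas, sj, GF.o], ?_⟩, fun z => ?_⟩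
    · rw [gf_mdot]
      fin_cases m <;> fin_cases n <;> simp [r1, sj, bas, GF.eta, GF.o]
    · rw [show r1 = Matrix.diagonal fun m => -sj m from funext fun m => funext fun n => by
        simp [r1, bas, Matrix.diagonal, eq_comm], Matrix.det_diagonal]
      simp [sj, Fin.prod_univ_four]
    · funext n
      fin_cases n <;> simp [sim, r1, bas, sj, jr, pt, al, be, tx, gf_mdot, va, vb] <;> ring
  cyc := by
    have e : cyc = mCyc := by
      funext m n
      fin_cases m <;> fin_cases n <;> simp [cyc, mCyc, bas]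
    refine ⟨e ▸ isLor_cyc, fun z => funext fun n => ?_⟩
    fin_cases n <;> simp [sim, e, mCyc, Fin.sum_univ_four]
  sw := by
    refine ⟨⟨fun m n => ?_, by simp [sw, GF.o], ?_⟩, fun α β x => funext fun n => ?_⟩
    · rw [gf_mdot]
      fin_cases m <;> fin_cases n <;> simp [sw, bas, GF.eta, GF.o] <;> norm_num
    · change Matrix.det (Matrix.of sw) = 1
      rw [det4 (Matrix.of sw) fun i => by fin_cases i <;> simp [sw], Matrix.det_fin_three]
      simp [sw]
      norm_num
    · fin_cases n <;> simp [sim, sw, pt, Fin.sum_univ_four] <;> ring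
  lsc r s hr hs := ⟨(Grp.lsc hr hs).1, (Grp.lsc hr hs).2, lrr hr⟩
  lb t := ⟨(Grp.lsc (Real.exp_pos _) (Real.exp_pos _)).1, s_lb t, fun t' => mext fun z => by
    simp only [T.sim_cm, s_lb', Br.al_pt', Br.be_pt', Br.tx_pt', neg_add, Real.exp_add, mul_assoc],
    fun w => mext fun z => by
      have := Real.exp_pos t
      simp only [T.sim_cm, s_lb', s_lg, gap, Br.al_pt', Br.be_pt', Br.tx_pt', d2,
        Pi.smul_apply, smul_eq_mul, smul_smul, Real.exp_neg]
      congr 1
      · field_simp
      · rw [mul_right_comm, inv_mul_cancel₀ this.ne', one_mul]⟩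
  lb0 := ⟨by rw [Lb, neg_zero]; exact lrr (Real.exp_pos 0), by
    refine continuous_pi fun m => ?_
    simp only [Lb, Lsc, bst, ← Real.exp_sub]
    fun_prop, fun r s hr hs => by
    have := div_pos hr hs
    rw [Lb, Lsc, Lsc, ← Real.exp_sub, ← Real.exp_sub, sub_neg_eq_add, add_halves, ← neg_add',
      add_halves, Real.exp_neg, Real.exp_log this, inv_div]⟩
  lg w := ⟨(Grp.lga w).1, (Grp.lga w).2, fun w' => mext fun z => by
    simp only [T.sim_cm, s_lg, gap, Br.al_pt', Br.be_pt', Br.tx_pt', d2, Pi.smul_apply,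
      Pi.add_apply, smul_eq_mul, smul_add]
    congr 1
    · ring
    · abel⟩
  lg0 := ⟨mext fun z => by
    rw [s_lg, s_one, gap]
    simpa [d2] using Br.pt_self z, by
    have : Continuous fun w : R2 => tv ((1 / 2 : ℝ) • w) :=
      continuous_pi fun n => by fin_cases n <;> simp [tv, pt] <;> fun_prop
    refine continuous_pi fun m => ?_
    simp only [Lg, H746.nrt, GF.mdot]
    fun_prop⟩

end Vale.Agent.P352X.TPD
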