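import Vale.Agent.P352X.Spec
import Vale.Agent.P352X.Api4
import Vale.Agent.P352X.R.GRP.C
import Vale.Agent.P352X.R.KD.D

/-!
# P352X, block TPD: vocabulary (see notes/P352/tpd.md)
-/

set_option linter.all false

open MeasureTheory Filter Topology
open scoped SchwartzMap ComplexConjugate ENNReal ContDiff

namespace Vale.Agent.P352X.TPD

open Vale.Agent.P352 Vale.Agent.P352.GF Vale.Agent.P352.BW Vale.Agent.P352.H246
open Vale.Agent.P352.H496 Vale.Agent.P352.H755 Vale.Agent.P352.H15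
open UniformSpace (Completion)
open Complex (I)

noncomputable section

/-! ## tensors -/

/-- real tensors with lower indices -/
abbrev Tn (ι : Type) := (ι → Ix) → ℝ

/-- pull back by the matrix `L` -/
def pb {ι : Type} [Fintype ι] [DecidableEq ι] (L : Ix → V) : Tn ι →ₗ[ℝ] Tn ι where
  toFun h ν := ∑ μ : ι → Ix, (∏ i, L (ν i) (μ i)) * h μ
  map_add' h h' := funext fun ν => by simp [mul_add, Finset.sum_add_distrib]
  map_smul' a h := funext fun ν => by simp [Finset.mul_sum, mul_left_comm]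

/-- homogeneous polynomial tensor fields of degree `k` -/
def pol {κ : Type} {k : ℕ} (h : Tn (κ ⊕ Fin k)) (u : V) : Tn κ := fun ν =>
  ∑ γ : Fin k → Ix, h (Sum.elim ν γ) * ∏ i, u (γ i)

/-- pull back of tensor fields by `u ↦ s L u` -/
def pf {ι : Type} [Fintype ι] [DecidableEq ι] (s : ℝ) (L : Ix → V) (S : V → Tn ι) (u : V) : Tn ι :=
  pb L (S (sim s L 0 u))

/-- multiplication by a scalar function -/
def cs {ι : Type} (χ : V → ℝ) (S : V → Tn ι) (u : V) : Tn ι := χ u • S u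

/-- the metric -/
def et : Tn (Fin 2) := fun ν => bas (ν 0) (eta (ν 0)) (ν 1)

/-- `n_m n_k`, lower indices -/
def sq (n : V) : Tn (Fin 2) := fun ν => eta (ν 0) * n (ν 0) * (eta (ν 1) * n (ν 1))

/-- the unit tensors -/
def ee (m n : Ix) : Tn (Fin 2) := fun ν => bas m 1 (ν 0) * bas n 1 (ν 1)

/-- the trace -/
def trc (k : Tn (Fin 2)) : ℝ := ∑ m, eta m * k ![m, m]

/-- the symmetric traceless part -/
def tl (k : Tn (Fin 2)) : Tn (Fin 2) := fun ν =>
  (k ν + k ![ν 1, ν 0]) / 2 - trc k / 4 * et ν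

/-- `u^2 η ⊗ k` -/
def h0 (k : Tn (Fin 2)) (u : V) : Tn (Fin 4) := fun ν => mu u * et ![ν 0, ν 1] * k ![ν 2, ν 3]

/-- four times the part that is symmetric in both pairs -/
def sy (t : Tn (Fin 4)) : Tn (Fin 4) := fun ν =>
  t ν + t ![ν 1, ν 0, ν 2, ν 3] + t ![ν 0, ν 1, ν 3, ν 2] + t ![ν 1, ν 0, ν 3, ν 2]

/-- `∂_m X_(n, J)` -/
def d1 (X : V → Tn (Fin 3)) (u : V) : Tn (Fin 4) := fun ν =>
  dr (ν 0) (fun v => X v ![ν 1, ν 2, ν 3]) u

/-- `∂_m χ X_(n, J)` -/
def b1 (χ : V → ℝ) (X : V → Tn (Fin 3)) (u : V) : Tn (Fin 4) := fun ν =>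
  dr (ν 0) χ u * X u ![ν 1, ν 2, ν 3]

/-- `∂_r Y_(I, s)` -/
def d3 (Y : V → Tn (Fin 3)) (u : V) : Tn (Fin 4) := fun ν =>
  dr (ν 2) (fun v => Y v ![ν 0, ν 1, ν 3]) u

/-- `∂_r χ Y_(I, s)` -/
def b3 (χ : V → ℝ) (Y : V → Tn (Fin 3)) (u : V) : Tn (Fin 4) := fun ν =>
  dr (ν 2) χ u * Y u ![ν 0, ν 1, ν 3]

/-- `Y_(I, s)` with the unit covector `r` in the third slot -/
def i3 (r : Ix) (Y : V → Tn (Fin 3)) (u : V) : Tn (Fin 4) := fun ν =>
  bas r 1 (ν 2) * Y u ![ν 0, ν 1, ν 3]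

/-- test tensors that vanish near the origin -/
def Ok (φ : V → Tn (Fin 4)) : Prop :=
  ContDiff ℝ ∞ φ ∧ HasCompactSupport φ ∧ (0 : V) ∉ tsupport φ

/-! ## matrices -/

/-- the rotation by `π` in the transverse plane -/
def r1 : Ix → V := fun m => bas m (-sj m)
/-- the cyclic permutation of the spatial axes -/
def cyc : Ix → V := fun m => bas (![0, 2, 3, 1] m) 1
/-- exchanges `a` and `b` -/
def sw : Ix → V := ![![5 / 4, 3 / 4, 0, 0], ![-(3 / 4), -(5 / 4), 0, 0], ![0, 0, -1, 0], ![0, 0, 0, 1]]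
/-- the Lorentz part of `scp r s` -/
def Lsc (r s : ℝ) : Ix → V := bst va vb (Real.sqrt (r / s) - 1) (Real.sqrt (s / r) - 1)
/-- the boosts -/
def Lb (t : ℝ) : Ix → V := Lsc (Real.exp t) (Real.exp (-t))
/-- the null rotations that fix `a` -/
def Lg (w : R2) : Ix → V := H746.nrt va (tv ((1 / 2 : ℝ) • w))
/-- the null vectors `a + x + |x|^2 b / 2` -/
def na (x : R2) : V := pt 1 (d2 x x / 2) x
/-- the null vectors `b + x + |x|^2 a / 2` -/
def nb (x : R2) : V := pt (d2 x x / 2) 1 x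

/-! ## test functions -/

open Classical in
/-- `f ↦ f (s L x)` -/
def pS (s : ℝ) (L : Ix → V) : Sch →L[ℂ] Sch :=
  if h : 0 < s ∧ IsLor L then Grp.simS h.1 h.2 0 else 1

/-- `f ↦ f (-x)` -/
def ng : Sch →L[ℂ] Sch :=
  SchwartzMap.compCLMOfContinuousLinearEquiv ℂ (ContinuousLinearEquiv.neg ℝ (M := V))

lemma pS_apply {s : ℝ} {L : Ix → V} (hs : 0 < s) (hL : IsLor L) (f : Sch) (z : V) :
    pS s L f z = f (sim s L 0 z) := by
  rw [pS, dif_pos ⟨hs, hL⟩, Grp.simS_apply]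

lemma ng_apply (f : Sch) (z : V) : ng f z = f (-z) := rfl

/-- the wave operator -/
def bx : Sch →L[ℂ] Sch := ∑ m, eta m • (KDa.dS (bas m 1) ∘L KDa.dS (bas m 1))

/-- the support does not meet the diagonal -/
def OffD (F : S2) : Prop := ∀ x, (x, x) ∉ tsupport F

/-- even cutoffs -/
abbrev EC : Type := {η : V → ℝ // Cut η ∧ ∀ u, η (-u) = η u}

lemma cut_sim {s : ℝ} {L : Ix → V} (hs : 0 < s) (hL : IsLor L) (η : EC) :
    Cut (fun u => η.1 (sim s L 0 u)) ∧ ∀ u, η.1 (sim s L 0 (-u)) = η.1 (sim s L 0 u) := by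
  let e := (H755.simE s L hs hL).toContinuousLinearEquiv
  have he : ∀ u, sim s L 0 u = e u := fun u => (H755.simE_apply hs hL u).symm
  simp only [he]
  refine ⟨⟨⟨η.2.1.1.1.comp e.contDiff, η.2.1.1.2.comp_homeomorph e.toHomeomorph⟩, ?_⟩,
    fun u => by rw [map_neg, η.2.2]⟩
  exact (e.continuous.tendsto' 0 0 (map_zero e)).eventually η.2.1.2

open Classical in
/-- `η ↦ η (s L u)` -/
def EC.pull (η : EC) (s : ℝ) (L : Ix → V) : EC :=
  if h : 0 < s ∧ IsLor L then ⟨fun u => η.1 (sim s L 0 u), cut_sim h.1 h.2 η⟩ else η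

lemma EC.pull_apply (η : EC) {s : ℝ} {L : Ix → V} (hs : 0 < s) (hL : IsLor L) (u : V) :
    (η.pull s L).1 u = η.1 (sim s L 0 u) := by
  rw [EC.pull, dif_pos ⟨hs, hL⟩]

/-! ## vector valued distributions -/

variable {D : Type*} [NormedAddCommGroup D] [InnerProductSpace ℂ D]

/-- tempered distributions with values in the Hilbert space -/
abbrev TT (D : Type*) [NormedAddCommGroup D] [InnerProductSpace ℂ D] := Sch →L[ℂ] Completion D

/-- families of distributions that depend on a cutoff -/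
abbrev Fam (D : Type*) [NormedAddCommGroup D] [InnerProductSpace ℂ D] := EC → TT D

/-- families of two point distributions -/
abbrev WW (D : Type*) [NormedAddCommGroup D] [InnerProductSpace ℂ D] :=
  I2 → I2 → S2 →L[ℂ] Completion D

/-- `f ↦ w (φ (x - y) f y)` -/
def psi (w : WW D) (φ : V → Tn (Fin 4)) : TT D := ∑ ν : Fin 4 → Ix,
  w (ν 0, ν 1) (ν 2, ν 3) ∘L Api4.ten2 (sch fun u => (φ u ν : ℂ))

/-- the gauge datum in the first slot -/
def g1 (w : WW D) (X : V → Tn (Fin 3)) : Fam D := fun η => -psi w (b1 η.1 X)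

/-- `∑ η_m n_m (∂_m f)` -/
def dvg (n : V → TT D) : TT D := ∑ m, eta m • (n (bas m 1) ∘L KDa.dS (bas m 1))

variable (c : Ctx D)

/-- the action of the linear similitudes on distributions -/
def act (s : ℝ) (L : Ix → V) : TT D →ₗ[ℝ] TT D where
  toFun x := Ug c.Q s L 0 ∘L x ∘L pS s L
  map_add' x y := by ext f; simp
  map_smul' a x := by ext f; simp

lemma act_apply (s : ℝ) (L : Ix → V) (x : TT D) (f : Sch) :
    act c s L x f = Ug c.Q s L 0 (x (pS s L f)) := rfl

/-- the action on families -/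
def ga (s : ℝ) (L : Ix → V) : Fam D →ₗ[ℝ] Fam D where
  toFun x η := act c s L (x (η.pull s L))
  map_add' x y := funext fun η => map_add _ _ _
  map_smul' a x := funext fun η => map_smul (act c s L) a _

lemma ga_apply (s : ℝ) (L : Ix → V) (x : Fam D) (η : EC) :
    ga c s L x η = act c s L (x (η.pull s L)) := rfl

/-- the PCT operator -/
def Th : Completion D →L⋆[ℂ] Completion D :=
  c.J.toLinearIsometry.toContinuousLinearMap.comp (Ug c.Q 1 r1 0)

lemma Th_apply (z : Completion D) : Th c z = c.J (Ug c.Q 1 r1 0 z) := rfl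

/-- the projection orthogonal to the vacuum -/
def Pp : Completion D →L[ℂ] Completion D := 1 - (innerSL ℂ c.Om).smulRight c.Om

/-- translation covariant and orthogonal to the vacuum -/
structure TC (x : TT D) : Prop where
  tra : ∀ a f, Ut c.Q a (x f) = x (ST.tsl a f)
  perp : ∀ f, inner ℂ c.Om (x f) = 0

/-- wedge local up to the set `K`, with the partner `σ Θ x (f (-z))` -/
def Loc (σ : ℝ) (K : Set V) (x : TT D) : Prop := ∀ a b y (f : Sch), IsNull a → IsNull b →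
  0 < mdot a b → HasCompactSupport f → tsupport f ⊆ Wdg a b y →
  (∀ z ∈ tsupport f, ∀ u ∈ K, z + u ∈ Wdg a b y) →
  Pr (c.N (Wdg a b y)) c.Om (x f) (σ • Th c (x (ng f)))

/-- local, of scaling dimension `4 - k` -/
structure Hom (σ : ℝ) (k : ℕ) (y : TT D) : Prop where
  tc : TC c y
  loc : Loc c σ ∅ y
  hom : ∀ s : ℝ, 0 < s → s ^ k • act c s GF.one y = y

/-- the time ordered product away from the diagonal, orthogonal to the vacuum -/
structure Src (w : WW D) : Prop where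
  perp : ∀ I J F, inner ℂ c.Om (w I J F) = 0
  ind1 : ∀ I J, w I J = w I.swap J
  ind2 : ∀ I J, w I J = w I J.swap
  cov : ∀ s L a I J (F G : S2), 0 < s → IsLor L → OffD F →
    (∀ x y, G (x, y) = F (sim s L a x, sim s L a y)) →
    w I J F = ∑ K, ∑ M, (L2 L K I * L2 L M J) • Ug c.Q s L a (w K M G)
  c1 : ∀ n J G, OffD G → dv1 w n J G = 0
  c2 : ∀ I n G, OffD G → ∑ m, w I (m, n) (LineDeriv.lineDerivOp ((0, bas m 1) : V × V) G) = 0
  loc : ∀ a b y I J (G G' : S2), IsNull a → IsNull b → 0 < mdot a b → OffD G →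
    HasCompactSupport G → tsupport G ⊆ Wdg a b y ×ˢ Wdg a b y →
    (∀ x z, G' (x, z) = G (-x, -z)) → Pr (c.N (Wdg a b y)) c.Om (w I J G) (Th c (w I J G'))

/-- `x η` is a value for `w (η (x - y) S (x - y) f y)` -/
structure Dat (w : WW D) (σ : ℝ) (S : V → Tn (Fin 4)) (x : Fam D) : Prop where
  tc : ∀ η, TC c (x η)
  loc : ∀ η : EC, Loc c σ (tsupport η.1) (x η)
  coc : ∀ η η' : EC, x η - x η' = psi w (cs (η.1 - η'.1) S)

/-- dilation covariant data for polynomials of degree `k` -/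
def HD (w : WW D) {k : ℕ} (h : Tn (Fin 4 ⊕ Fin k)) (x : Fam D) : Prop :=
  Dat c w ((-1) ^ k) (pol h) x ∧ ∀ s : ℝ, 0 < s → s ^ k • ga c s GF.one x = x

/-- covariant data for all polynomials of degree `k` -/
def Ext (w : WW D) (k : ℕ) : Prop := ∃ B : Tn (Fin 4 ⊕ Fin k) →ₗ[ℝ] Fam D,
  (∀ h, Dat c w ((-1) ^ k) (pol h) (B h)) ∧
  ∀ (s : ℝ) L h, 0 < s → IsLor L → s ^ k • ga c s L (B (pb L h)) = B h

/-- a tempered extension of the time ordered product, with no condition on the diagonal -/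
structure Pre (w : WW D) : Prop where
  fac : ∀ I J (f g : Sch) (F : S2), (∀ x y, F (x, y) = f x * g y) →
    Late (tsupport f) (tsupport g) →
    w I J F = ((c.T I.1 I.2 (ev f) (c.T J.1 J.2 (ev g) c.Q.vac) : D) : Completion D)
  swap : ∀ I J (F G : S2), (∀ x y, G (x, y) = F (y, x)) → w I J F = w J I G
  ind : ∀ I J, w I J = w I.swap J
  cov : ∀ s L a I J (F G : S2), 0 < s → IsLor L → OffD F →
    (∀ x y, G (x, y) = F (sim s L a x, sim s L a y)) →
    w I J F = ∑ K, ∑ M, (L2 L K I * L2 L M J) • Ug c.Q s L a (w K M G)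
  c1 : ∀ n J G, OffD G → dv1 w n J G = 0
  loc : ∀ a b y I J (G G' : S2), IsNull a → IsNull b → 0 < mdot a b → OffD G →
    HasCompactSupport G → tsupport G ⊆ Wdg a b y ×ˢ Wdg a b y →
    (∀ x z, G' (x, z) = G (-x, -z)) → Pr (c.N (Wdg a b y)) c.Om (w I J G) (Th c (w I J G'))

/-- wedge locality of a two point distribution, including the diagonal -/
def LocW (w : WW D) : Prop := ∀ a b y I J (G G' : S2), IsNull a → IsNull b → 0 < mdot a b →
  HasCompactSupport G → tsupport G ⊆ Wdg a b y ×ˢ Wdg a b y → (∀ x z, G' (x, z) = G (-x, -z)) →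
  Pr (c.N (Wdg a b y)) c.Om (Pp c (w I J G)) (Th c (Pp c (w I J G')))

/-- locality of the pair `wp`, `wm` relative to `T` -/
def Cmp (wp wm : WW D) : Prop := ∀ x y : V, mdot (x - y) (x - y) < 0 → ∃ d > 0,
  ∀ (I J K : I2) (f : Sch) (G G' : S2), tsupport f ⊆ Metric.ball x d →
    tsupport G ⊆ Metric.ball (y, y) d → (∀ z, G' z = star (G z)) →
    inner ℂ ((c.T I.1 I.2 (bar (ev f)) c.Q.vac : D) : Completion D) (wp J K G) =
      inner ℂ (wm J K G') ((c.T I.1 I.2 (ev f) c.Q.vac : D) : Completion D)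

end

end Vale.Agent.P352X.TPD
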