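import Vale.Agent.P352X.TPD.Spec

/-!
# P352X, block TPD: row A2 (helper76)
-/

set_option linter.all false

open MeasureTheory Filter Topology
open scoped SchwartzMap ComplexConjugate ENNReal ContDiff

namespace Vale.Agent.P352X.TPD

open Vale.Agent.P352 Vale.Agent.P352.GF Vale.Agent.P352.BW Vale.Agent.P352.H246
open Vale.Agent.P352.H496 Vale.Agent.P352.H755 Vale.Agent.P352.H15
open UniformSpace (Completion)
open Complex (I)

noncomputable section

namespace A2r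

lemma sm_dr {u : V → ℝ} (hu : ContDiff ℝ ∞ u) (m : Ix) : ContDiff ℝ ∞ (dr m u) := by
  rw [show dr m u = fun x => fderiv ℝ u x (bas m 1) from
    funext fun x => H755.dr_eq (hu.differentiable (by simp)) m x]
  exact (hu.fderiv_right (m := ∞) (by simp)).clm_apply contDiff_const

lemma sm_d1 {X : V → Tn (Fin 3)} (h : ContDiff ℝ ∞ X) : ContDiff ℝ ∞ (d1 X) :=
  contDiff_pi.2 fun ν => sm_dr (contDiff_pi.1 h _) _

lemma sm_d3 {X : V → Tn (Fin 3)} (h : ContDiff ℝ ∞ X) : ContDiff ℝ ∞ (d3 X) :=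
  contDiff_pi.2 fun ν => sm_dr (contDiff_pi.1 h _) _

lemma sy_add (t t' : Tn (Fin 4)) : sy (t + t') = sy t + sy t' := funext fun ν => by
  simp only [sy, Pi.add_apply]
  ring

lemma sy_h0 (k : Tn (Fin 2)) (u : V) : sy (h0 k u) = sy (h0 (tl k) u + (trc k / 4) • h0 et u) :=
  funext fun ν => by
    simp only [sy, h0, tl, Pi.add_apply, Pi.smul_apply, smul_eq_mul, Matrix.cons_val]
    ring

lemma dS_sum (v : V) : KDa.dS v = ∑ t, v t • KDa.dS (bas t 1) := by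
  ext f x
  have e : v = ∑ m, v m • bas m 1 := by
    funext n
    simp [bas, Finset.sum_apply]
  simp only [ContinuousLinearMap.sum_apply, ContinuousLinearMap.smul_apply, SchwartzMap.sum_apply,
    SchwartzMap.smul_apply]
  show fderiv ℝ f x v = ∑ t, v t • fderiv ℝ f x (bas t 1)
  conv_lhs => rw [e]
  simp only [map_sum, map_smul]

/-- the third slot and the others -/
def E : Option (Fin 3 ⊕ Fin 3) ≃ Fin 4 ⊕ Fin 3 :=
  .ofBijective (fun o => o.elim (.inl 2) (Sum.map ![0, 1, 3] id)) (by decide)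

/-- the unit covector `r` in the third slot -/
def io (r : Ix) : Tn (Fin 3 ⊕ Fin 3) →ₗ[ℝ] Tn (Fin 4 ⊕ Fin 3) where
  toFun ζ ν := bas r 1 ((ν ∘ E) none) * ζ fun i => (ν ∘ E) (some i)
  map_add' _ _ := funext fun _ => mul_add _ _ _
  map_smul' _ _ := funext fun _ => mul_left_comm _ _ _

lemma pol_io (r : Ix) (ζ : Tn (Fin 3 ⊕ Fin 3)) : pol (io r ζ) = i3 r (pol ζ) := by
  funext u ν
  simp only [pol, i3, Finset.mul_sum, ← mul_assoc]
  refine Finset.sum_congr rfl fun γ _ => congrArg (· * _) (congrArg₂ _ rfl (congrArg ζ ?_))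
  funext i
  rcases i with i | i
  · fin_cases i <;> rfl
  · rfl

lemma pb_opt {κ : Type} [Fintype κ] [DecidableEq κ] (L : Ix → V) (t : Ix) (ζ : Tn κ)
    (ν : Option κ → Ix) : pb L (fun μ : Option κ → Ix => bas t 1 (μ none) * ζ fun i => μ (some i)) ν =
      L (ν none) t * pb L ζ fun i => ν (some i) := by
  change ∑ μ : Option κ → Ix, _ = _ * ∑ μ : κ → Ix, _
  rw [← (Equiv.piOptionEquivProd (β := fun _ => Ix)).symm.sum_comp, Fintype.sum_prod_type,
    Finset.sum_eq_single t (fun m _ hm => by simp [bas, hm]) (by simp), Finset.mul_sum]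
  exact Finset.sum_congr rfl fun μ _ => by simp [bas, mul_assoc]

lemma pb_io (T : TEN) (L : Ix → V) (t : Ix) (ζ : Tn (Fin 3 ⊕ Fin 3)) :
    pb L (io t ζ) = ∑ r, L r t • io r (pb L ζ) := by
  funext ν
  refine (congrFun (T.perm _ _ E L fun μ => bas t 1 (μ none) * ζ fun i => μ (some i)) ν).trans ?_
  rw [pb_opt, Finset.sum_apply, Finset.sum_eq_single ((ν ∘ E) none)
    (fun r _ hr => by simp [io, bas, show ν (E none) ≠ r from hr.symm]) (by simp)]
  simp [io, bas]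

variable {D : Type*} [NormedAddCommGroup D] [InnerProductSpace ℂ D] {c : Ctx D} {w : WW D}

/-- derivatives of families -/
def Dr (v : V) : Fam D →ₗ[ℝ] Fam D where
  toFun x η := x η ∘L KDa.dS v
  map_add' _ _ := funext fun _ => ContinuousLinearMap.add_comp _ _ _
  map_smul' _ _ := funext fun _ => ContinuousLinearMap.smul_comp _ _ _

lemma Dr_sum (v : V) (x : Fam D) : Dr v x = ∑ t, v t • Dr (bas t 1) x := by
  funext η
  ext f
  simp only [Finset.sum_apply, Pi.smul_apply, ContinuousLinearMap.sum_apply,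
    ContinuousLinearMap.smul_apply, Dr, LinearMap.coe_mk, AddHom.coe_mk,
    ContinuousLinearMap.comp_apply]
  rw [dS_sum v]
  simp

lemma ga_Dr (b : BA c) {s : ℝ} {L : Ix → V} (hs : 0 < s) (hL : IsLor L) (r : Ix) (x : Fam D) :
    ga c s L (Dr (bas r 1) x) = s • ∑ t, L r t • Dr (bas t 1) (ga c s L x) := by
  rw [← Dr_sum]
  funext η
  refine (b.der s L _ _ hs hL).trans ?_
  rw [show sim 1 L 0 (bas r 1) = L r from funext fun n => by simp [sim, bas]]
  rfl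

/-- the gauge data in the first slot -/
def Gf (T : TEN) (p : BP c w) : Tn (Fin 3 ⊕ Fin 3) →ₗ[ℝ] Fam D where
  toFun ξ := g1 w (pol ξ)
  map_add' ξ ξ' := by
    rw [(T.add _ _ 0 ξ ξ').1]
    exact ((p.g1 1 _ (one_mul 1) (T.smooth _ _ ξ).1 fun u => by
      rw [(T.smooth _ _ ξ).2]; norm_num).2.2 _ 0 (T.smooth _ _ ξ').1).1
  map_smul' a ξ := by
    rw [(T.add _ _ a ξ ξ).2]
    exact ((p.g1 1 _ (one_mul 1) (T.smooth _ _ ξ).1 fun u => by
      rw [(T.smooth _ _ ξ).2]; norm_num).2.2 _ a (T.smooth _ _ ξ).1).2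

/-- the boundary terms in the third slot -/
def P3 (T : TEN) (p : BP c w) : Tn (Fin 3 ⊕ Fin 3) →ₗ[ℝ] Fam D where
  toFun ξ η := psi w (b3 η.1 (pol ξ))
  map_add' ξ ξ' := funext fun η => by
    rw [(T.add _ _ 0 ξ ξ').1]
    exact ((p.g3 1 _ (one_mul 1) (T.smooth _ _ ξ).1 fun u => by
      rw [(T.smooth _ _ ξ).2]; norm_num).2.2.2 _ 0 η (T.smooth _ _ ξ').1).1
  map_smul' a ξ := funext fun η => by
    rw [(T.add _ _ a ξ ξ).2]
    exact ((p.g3 1 _ (one_mul 1) (T.smooth _ _ ξ).1 fun u => by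
      rw [(T.smooth _ _ ξ).2]; norm_num).2.2.2 _ a η (T.smooth _ _ ξ).1).2

/-- the trace -/
def trL : Tn (Fin 2) →ₗ[ℝ] ℝ where
  toFun k := trc k / 4
  map_add' k k' := by simp [trc, mul_add, Finset.sum_add_distrib, add_div]
  map_smul' a k := by simp [trc, Finset.mul_sum, mul_left_comm, ← mul_div_assoc]

lemma cube {s : ℝ} (hs : 0 < s) {x y : Fam D} (h : s ^ 3 • x = s • y) : s ^ 2 • x = y :=
  smul_right_injective _ hs.ne' (by simpa only [smul_smul, ← pow_succ'] using h)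

/-- the gauge data in the third slot -/
lemma ex3 (b : B0 c) (hw : Src c w) (h3 : Ext c w 3) : ∃ G : Tn (Fin 3 ⊕ Fin 3) →ₗ[ℝ] Fam D,
    (∀ ζ, Dat c w 1 (d3 (pol ζ)) (G ζ)) ∧
    ∀ (s : ℝ) L ζ, 0 < s → IsLor L → s ^ 2 • ga c s L (G (pb L ζ)) = G ζ := by
  obtain ⟨B, d, e⟩ := h3
  have T := b.ten
  have p := b.bp w hw
  have g := fun ζ : Tn (Fin 3 ⊕ Fin 3) => p.g3 1 _ (one_mul 1) (T.smooth _ _ ζ).1 fun u => by
    rw [(T.smooth _ _ ζ).2]; norm_num
  have a : ∀ ζ η, (∑ r, Dr (bas r 1) ∘ₗ B ∘ₗ io r - P3 T p) ζ η =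
      ∑ r, B (io r ζ) η ∘L KDa.dS (bas r 1) + (-1 : ℝ) • psi w (b3 η.1 (pol ζ)) := fun ζ η => by
    simp [LinearMap.sum_apply, Finset.sum_apply, Dr, P3, sub_eq_add_neg]
  refine ⟨∑ r, Dr (bas r 1) ∘ₗ B ∘ₗ io r - P3 T p, fun ζ => ⟨fun η => ?_, fun η => ?_,
    fun η η' => ?_⟩, fun s L ζ hs hL => ?_⟩
  · rw [a]
    exact b.ba.tc_add _ _ (Finset.sum_induction _ _ b.ba.tc_add b.ba.tc0 fun r _ =>
      b.ba.tc_der _ _ ((d _).tc η)) (b.ba.tc_smul _ _ ((g ζ).1 η).1)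
  · rw [a]
    refine b.ba.loc_add _ _ _ _ (Finset.sum_induction _ _ (b.ba.loc_add _ _) (b.ba.loc0 _ _)
      fun r _ => ?_) (b.ba.loc_smul _ _ _ _ ((g ζ).1 η).2)
    have := b.ba.loc_der _ _ (bas r 1) _ ((d (io r ζ)).loc η)
    rwa [show -(-1 : ℝ) ^ 3 = 1 by norm_num] at this
  · have h1 := (g ζ).2.1 η η'
    simp only [← pol_io, ← (d _).coc, ContinuousLinearMap.sub_comp, Finset.sum_sub_distrib] at h1
    rw [a, a, neg_one_smul, neg_one_smul, eq_sub_of_add_eq' h1]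
    abel
  · have h1 : s ^ 2 • ga c s L (P3 T p (pb L ζ)) = P3 T p ζ := cube hs (by
      have := (g ζ).2.2.1 s L hs hL
      simp only [T.pol, fun η => ((g (pb L ζ)).2.2.2 _ (s ^ 3) η (T.smooth _ _ ζ).1).2] at this
      rw [← map_smul]
      exact this)
    simp only [LinearMap.sub_apply, LinearMap.sum_apply, LinearMap.comp_apply, map_sub, map_sum,
      smul_sub, h1, ga_Dr b.ba hs hL, Finset.smul_sum]
    rw [Finset.sum_comm]
    refine congrArg (· - _) (Finset.sum_congr rfl fun t _ => ?_)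
    rw [← e s L (io t ζ) hs hL, pb_io T]
    simp only [map_sum, map_smul, Finset.smul_sum, smul_smul]
    exact Finset.sum_congr rfl fun r _ => congrArg (· • _) (by ring)

end A2r

open A2r

variable {D : Type*} [NormedAddCommGroup D] [InnerProductSpace ℂ D]

/-- **row A2** -/
theorem a2_row (c : Ctx D) : B0 c → EQ2 → A3 c → TL c → SC c → A2 c := by
  rintro b ⟨σ1, σ2, σ3, cv, eq⟩ a3 tl sc w hw
  have T := b.ten
  have p := b.bp w hw
  obtain ⟨G, dG, eG⟩ := ex3 b hw (a3 w hw 3 le_rfl)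
  obtain ⟨B, dB, eB⟩ := tl w hw
  obtain ⟨m, dm, em⟩ := sc w hw
  have g := fun ξ : Tn (Fin 3 ⊕ Fin 3) => p.g1 1 _ (one_mul 1) (T.smooth _ _ ξ).1 fun u => by
    rw [(T.smooth _ _ ξ).2]; norm_num
  refine ⟨Gf T p ∘ₗ σ1 + G ∘ₗ σ2 + (B + trL.smulRight m) ∘ₗ σ3, fun h => ?_,
    fun s L h hs hL => ?_⟩
  · have s1 := sm_d1 (T.smooth _ _ (σ1 h)).1
    have s2 := sm_d3 (T.smooth _ _ (σ2 h)).1
    have s3 := (T.h0s (TPD.tl (σ3 h))).1
    have s4 := (T.h0s et).1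
    have s5 := s4.const_smul (trc (σ3 h) / 4)
    rw [neg_one_sq]
    refine p.dsy _ _ _ _ ((s1.add s2).add (s3.add s5)) (T.smooth _ _ h).1 (fun u => ?_)
      (p.dadd _ _ _ _ _ (s1.add s2) (s3.add s5) (p.dadd _ _ _ _ _ s1 s2 (g _).1 (dG _))
        (p.dadd _ _ _ _ _ s3 s5 (dB _) (p.dsmul _ _ _ _ s4 dm)))
    rw [eq, sy_add _ (h0 _ _), sy_h0, ← sy_add]
  · obtain ⟨c1, c2, c3⟩ := cv L h hL
    have h1 : s ^ 2 • ga c s L (Gf T p (pb L (σ1 h))) = Gf T p (σ1 h) := cube hs (by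
      have := (g (σ1 h)).2.1 s L hs hL
      rw [T.pol, ((g (pb L (σ1 h))).2.2 _ (s ^ 3) (T.smooth _ _ (σ1 h)).1).2, map_smul] at this
      exact this)
    have h2 : trL (pb L (σ3 h)) = trL (σ3 h) := congrArg (· / 4) (T.tl L _ hL).1
    simp only [LinearMap.add_apply, LinearMap.comp_apply, LinearMap.smulRight_apply, c1, c2, c3,
      map_add, map_smul, smul_add, h1, h2, eG s L _ hs hL, eB s L _ hs hL]
    rw [smul_comm, em s L hs hL]

end

end Vale.Agent.P352X.TPD
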