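import Vale.Agent.P352X.TPD.Spec
import Vale.Agent.P352X.Api3d
import Vale.Agent.P352X.R.TWO.Rho

/-!
# P352X, block TPD: row ANI
-/

set_option linter.all false

open MeasureTheory Filter Topology Set
open scoped ENNReal

namespace Vale.Agent.P352X.TPD

open Vale.Agent.P352 Vale.Agent.P352.GF Vale.Agent.P352.BW

noncomputable section

namespace Ani

lemma cone {p : V} (h0 : 0 < p o) (h : 0 ≤ mu p) : ‖p‖ ≤ p o ∧ 0 ≤ al p ∧ 0 ≤ be p := by
  rw [mu, mdot_eq] at h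
  change 0 < p 0 at h0
  have a : ∀ t : ℝ, t * t ≤ p 0 * p 0 → |t| ≤ p 0 := fun t ht =>
    abs_le_of_sq_le_sq' (by nlinarith) h0.le |> abs_le.2
  have h1 := a (p 1) (by nlinarith [mul_self_nonneg (p 2), mul_self_nonneg (p 3)])
  have h2 := a (p 2) (by nlinarith [mul_self_nonneg (p 1), mul_self_nonneg (p 3)])
  have h3 := a (p 3) (by nlinarith [mul_self_nonneg (p 1), mul_self_nonneg (p 2)])
  refine ⟨(pi_norm_le_iff_of_nonneg h0.le).2 fun m => ?_, ?_, ?_⟩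
  · fin_cases m
    exacts [(abs_of_pos h0).le, h1, h2, h3]
  · rw [al_eq]; linarith [(abs_le.1 h1).1]
  · rw [be_eq]; linarith [(abs_le.1 h1).2]

lemma tx_le (p : V) : ‖tx p‖ ≤ ‖p‖ := (pi_norm_le_iff_of_nonneg (norm_nonneg _)).2 fun i => by
  fin_cases i
  exacts [norm_le_pi_norm p 2, norm_le_pi_norm p 3]

/-- the rescaled momentum is large -/
lemma big {R S T : ℝ} (hR : 0 < R) (hS : 0 < S) (hRT : R ≤ T) (hST : S ≤ T) {p : V}
    (h0 : 0 < p o) (h : 0 ≤ mu p) : p o ≤ T * ‖scp S⁻¹ R⁻¹ p‖ := by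
  obtain ⟨-, ha, hb⟩ := cone h0 h
  have e : scp S⁻¹ R⁻¹ p o ≤ ‖scp S⁻¹ R⁻¹ p‖ := (le_abs_self _).trans (norm_le_pi_norm (scp S⁻¹ R⁻¹ p) o)
  refine le_trans ?_ (mul_le_mul_of_nonneg_left e (hR.le.trans hRT))
  rw [time_eq p, time_eq (scp _ _ p), al_scp, be_scp]
  have a1 : 1 ≤ T * S⁻¹ := by rwa [← div_eq_mul_inv, one_le_div hS]
  have a2 : 1 ≤ T * R⁻¹ := by rwa [← div_eq_mul_inv, one_le_div hR]
  nlinarith [mul_le_mul_of_nonneg_right a1 ha, mul_le_mul_of_nonneg_right a2 hb]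

/-- the weight outside the exceptional set -/
lemma out {R S T u : ℝ} {j : ℕ} (M : ℕ) (hR : 0 < R) (hS : 0 < S) (hRT : R ≤ T) (hST : S ≤ T)
    (hT : T ≤ 1) (hu : 0 < u) (e : u ^ 4 = R * S) (hj : T ^ j ≤ u) {p : V} (h0 : 0 < p o)
    (h : 0 ≤ mu p) (hp : ¬(‖tx p‖ ≤ u ∧ p o ≤ 1)) :
    (1 + ‖p‖) ^ M ≤ u * (1 + ‖scp S⁻¹ R⁻¹ p‖) ^ (M + (j + 1)) := by
  have b := big hR hS hRT hST h0 h
  have t := tx_le (scp S⁻¹ R⁻¹ p)
  have c := (cone h0 h).1
  have n0 := norm_nonneg (scp S⁻¹ R⁻¹ p)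
  generalize ‖scp S⁻¹ R⁻¹ p‖ = q at b t n0
  have hT0 := hR.le.trans hRT
  have k : 1 ≤ u * (1 + q) ^ (j + 1) := by
    by_cases h1 : p o ≤ 1
    · have h2 : u < ‖tx p‖ := not_le.1 fun a => hp ⟨a, h1⟩
      rw [tx_scp, norm_smul, ← mul_inv, mul_comm S, ← e, Real.sqrt_inv,
        show u ^ 4 = (u ^ 2) ^ 2 by ring, Real.sqrt_sq (by positivity), Real.norm_eq_abs,
        abs_of_pos (by positivity), ← div_eq_inv_mul, div_le_iff₀ (by positivity)] at t
      have h3 : 1 ≤ u * q := by nlinarith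
      have h4 : 1 + q ≤ (1 + q) ^ (j + 1) := le_self_pow₀ (by linarith) (Nat.succ_ne_zero j)
      nlinarith
    · have h2 : 1 ≤ T * (1 + q) := by nlinarith
      calc (1 : ℝ) ≤ (T * (1 + q)) ^ j := one_le_pow₀ h2
        _ = T ^ j * (1 + q) ^ j := mul_pow _ _ _
        _ ≤ u * (1 + q) ^ (j + 1) := mul_le_mul hj
          (pow_le_pow_right₀ (by linarith) (Nat.le_succ j)) (by positivity) hu.le
  have : (1 + ‖p‖) ^ M ≤ (1 + q) ^ M :=
    pow_le_pow_left₀ (by positivity) (by nlinarith) M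
  calc (1 + ‖p‖) ^ M ≤ (1 + q) ^ M * 1 := by linarith
    _ ≤ (1 + q) ^ M * (u * (1 + q) ^ (j + 1)) := mul_le_mul_of_nonneg_left k (by positivity)
    _ = _ := by ring

lemma lowb : ∃ k : ℝ, 0 ≤ k ∧ ∀ p : V, ‖p‖ ≤ 1 → 1 ≤ k * ‖ft Two.g0 p‖ ^ 2 := by
  obtain ⟨C, hC⟩ := (isCompact_closedBall (0 : V) 1).exists_bound_of_continuousOn
    Two.cont_k.continuousOn
  refine ⟨C ^ 2, sq_nonneg _, fun p hp => ?_⟩
  have a := hC p (mem_closedBall_zero_iff.2 hp)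
  have b := norm_pos_iff.2 (Two.g0_ne p)
  rw [norm_inv, inv_le_iff_one_le_mul₀ b] at a
  rw [← mul_pow]
  exact one_le_pow₀ a

lemma exj {τ v : ℝ} (h0 : 0 < τ) (h1 : τ < 1) (hv : 0 < v) : ∃ j : ℕ, τ ^ j ≤ v :=
  (exists_pow_lt_of_lt_one hv h1).imp fun _ => le_of_lt

end Ani

variable {D : Type*} [NormedAddCommGroup D] [InnerProductSpace ℂ D]

open Ani in
/-- **row ANI** -/
theorem ani_row (c : Ctx D) (b : B0 c) (rho : RHO c) (irq : IRQ c) (irg : IRG c) : ANI c := by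
  intro σ K x r s tc loc hK hr hr1 hs hs1
  obtain ⟨ρ, -, hν, hc, M, hM⟩ := rho x tc
  obtain ⟨k, k0, hk⟩ := lowb
  set G : Sch := Two.exists_g0.choose
  obtain ⟨R0, hR0⟩ := irg σ K x G tc loc hK Two.exists_g0.choose_spec.1
  obtain ⟨C, hC⟩ := irq _ _ R0 (tc.perp G) hR0
  have hrs := mul_pos hr hs
  have v0 : 0 < (r * s) ^ (1 / 4 : ℝ) := Real.rpow_pos_of_pos hrs _
  obtain ⟨j, hj⟩ := exj (lt_max_of_lt_left hr : 0 < max r s) (max_lt hr1 hs1) v0
  obtain ⟨m, A, A0, hA⟩ := ft_decay (M + (j + 1))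
  set J := (∫⁻ p, ENNReal.ofReal (((1 + ‖p‖) ^ M)⁻¹) ∂ρ).toReal
  have J0 : 0 ≤ J := ENNReal.toReal_nonneg
  refine ⟨m, A * Real.sqrt (k * |C| + J), fun N f g hg => ?_⟩
  have s0 : 0 ≤ sn m f := apply_nonneg _ _
  set u := ((r * s) ^ (1 / 4 : ℝ)) ^ N with hu
  have u0 : 0 < u := pow_pos v0 N
  have u4 : u ^ 4 = r ^ N * s ^ N := by
    rw [hu, ← pow_mul, mul_comm N, pow_mul, ← Real.rpow_natCast _ 4, ← Real.rpow_mul hrs.le]
    norm_num [mul_pow]
  have uj : (max r s ^ N) ^ j ≤ u := by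
    rw [← pow_mul, mul_comm N, pow_mul]
    exact pow_le_pow_left₀ (by positivity) hj N
  set E : Set V := {p | ‖tx p‖ ≤ u ∧ p o ≤ 1}
  have mE : MeasurableSet E :=
    (measurableSet_le meas_tx.norm measurable_const).inter
      (measurableSet_le (measurable_pi_apply o) measurable_const)
  set B := ((u ^ 4) ^ 2)⁻¹ ^ 2 * (A * sn m f) ^ 2 with hB
  have B0 : 0 ≤ B := by positivity
  have pw : ∀ᵐ p ∂ρ, ENNReal.ofReal (‖ft (ev g) p‖ ^ 2) ≤
      ENNReal.ofReal (B * k) * E.indicator (fun p => ENNReal.ofReal (‖ft (ev G) p‖ ^ 2)) p +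
        ENNReal.ofReal (B * u) * ENNReal.ofReal (((1 + ‖p‖) ^ M)⁻¹) := by
    filter_upwards [hc] with p hp
    have e : ev g = fun z => ev f (scp (r ^ N) (s ^ N) z) := funext hg
    rw [e, ft_scp (pow_pos hr N) (pow_pos hs N), ← u4, norm_mul, mul_pow, Complex.norm_real,
      Real.norm_eq_abs, sq_abs]
    have a := hA f (scp (s ^ N)⁻¹ (r ^ N)⁻¹ p)
    have o := out (T := max r s ^ N) M (pow_pos hr N) (pow_pos hs N)
      (pow_le_pow_left₀ hr.le (le_max_left _ _) N) (pow_le_pow_left₀ hs.le (le_max_right _ _) N)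
      (pow_le_one₀ (by positivity) (max_lt hr1 hs1).le) u0 u4 uj hp.1 hp.2
    have w1 : 1 ≤ (1 + ‖scp (s ^ N)⁻¹ (r ^ N)⁻¹ p‖) ^ (M + (j + 1)) :=
      one_le_pow₀ (by simp)
    have f0 := norm_nonneg (ft (ev f) (scp (s ^ N)⁻¹ (r ^ N)⁻¹ p))
    generalize ‖ft (ev f) (scp (s ^ N)⁻¹ (r ^ N)⁻¹ p)‖ = F at a f0
    generalize (1 + ‖scp (s ^ N)⁻¹ (r ^ N)⁻¹ p‖) ^ (M + (j + 1)) = w at a o w1
    have a1 : F ≤ A * sn m f := by nlinarith
    by_cases hE : p ∈ E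
    · refine le_add_right ?_
      rw [indicator_of_mem hE, ← ENNReal.ofReal_mul (by positivity)]
      refine ENNReal.ofReal_le_ofReal ?_
      have h1 := hk p ((cone hp.1 hp.2).1.trans hE.2)
      calc _ ≤ B * 1 := by
            rw [mul_one]
            exact mul_le_mul_of_nonneg_left (pow_le_pow_left₀ f0 a1 2) (by positivity)
        _ ≤ B * (k * ‖ft Two.g0 p‖ ^ 2) := mul_le_mul_of_nonneg_left h1 B0
        _ = _ := (mul_assoc _ _ _).symm
    · refine le_add_left ?_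
      rw [← ENNReal.ofReal_mul (by positivity)]
      refine ENNReal.ofReal_le_ofReal ?_
      rw [hB, mul_assoc, mul_assoc]
      refine mul_le_mul_of_nonneg_left ?_ (by positivity)
      rw [← div_eq_mul_inv, ← mul_div_assoc, le_div_iff₀ (by positivity)]
      calc F ^ 2 * (1 + ‖p‖) ^ M ≤ F ^ 2 * (u * w) := mul_le_mul_of_nonneg_left (o hE) (by positivity)
        _ = F * (w * F) * u := by ring
        _ ≤ (A * sn m f) * (A * sn m f) * u :=
          mul_le_mul_of_nonneg_right (mul_le_mul a1 a (by positivity) (by positivity)) u0.le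
        _ = _ := by ring
  have mG : Measurable fun p => ENNReal.ofReal (‖ft (ev G) p‖ ^ 2) :=
    Two.meas_sq2 (Two.cont_ft ⟨G, rfl⟩).measurable
  have n2 : c.nu (x g) univ ≤ ENNReal.ofReal (B * u * (k * |C| + J)) := by
    rw [hν g, withDensity_apply _ MeasurableSet.univ, Measure.restrict_univ]
    refine (lintegral_mono_ae pw).trans ?_
    rw [lintegral_add_left ((mG.indicator mE).const_mul _), lintegral_const_mul _ (mG.indicator mE),
      lintegral_const_mul _ (by fun_prop), lintegral_indicator mE, ← withDensity_apply _ mE, ← hν G,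
      ← ENNReal.ofReal_toReal hM.ne, ← ENNReal.ofReal_mul (by positivity), mul_add,
      ENNReal.ofReal_add (by positivity) (by positivity)]
    refine add_le_add_left ((mul_le_mul_right ((hC u u0).trans (ENNReal.ofReal_le_ofReal
      (mul_le_mul_of_nonneg_right (le_abs_self C) u0.le))) _).trans_eq ?_) _
    rw [← ENNReal.ofReal_mul (by positivity)]
    congr 1
    ring
  have n3 : ‖x g‖ ^ 2 ≤ B * u * (k * |C| + J) := by
    rw [← c.bt.nu_univ]
    exact ENNReal.toReal_le_of_le_ofReal (by positivity) n2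
  have w0 : 0 < (r * s) ^ (-(15 / 8 : ℝ)) := Real.rpow_pos_of_pos hrs _
  refine abs_le_of_sq_le_sq' (n3.trans_eq ?_) (by positivity) |>.2
  have e : (((r * s) ^ (-(15 / 8 : ℝ))) ^ N) ^ 2 = (u ^ 15)⁻¹ := by
    rw [hu, ← pow_mul, ← pow_mul, mul_comm N, mul_comm N, pow_mul, pow_mul, ← inv_pow,
      ← Real.rpow_natCast _ 2, ← Real.rpow_natCast _ 15, ← Real.rpow_mul hrs.le,
      ← Real.rpow_mul hrs.le, ← Real.rpow_neg hrs.le]
    norm_num
  rw [mul_pow, mul_pow, mul_pow, e, Real.sq_sqrt (by positivity), hB]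
  field_simp

end

end Vale.Agent.P352X.TPD
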