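import Vale.Agent.P352X.TPD.Spec2
import Vale.Agent.P352X.R.TWO.Mu
import Vale.Agent.P352X.Api1C
import Vale.Agent.P352X.Api3

/-!
# P352X, block TPD: row BA2
-/

noncomputable section

open Filter Topology Set Metric
open Complex (I)

namespace Vale.Agent.P352X.TPD

open Vale.Agent.P352 Vale.Agent.P352.GF Vale.Agent.P352.BW Vale.Agent.P352.H246
open Vale.Agent.P352.H496 Vale.Agent.P352.H755 Vale.Agent.P352.H15

variable {D : Type*} [NormedAddCommGroup D] [InnerProductSpace ℂ D] {c : Ctx D}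

namespace Ba2

variable {σ s : ℝ} {K K' : Set V} {x y : TT D} {L : Ix → V}

lemma th_smul (a : ℝ) (z : UniformSpace.Completion D) : Th c (a • z) = a • Th c z := by
  rw [← Complex.coe_smul, map_smulₛₗ, Complex.conj_ofReal, Complex.coe_smul]

lemma dS_apply (v : V) (f : Sch) (z : V) : KDa.dS v f z = fderiv ℝ f z v := rfl

lemma tsl_dS (a v : V) (f : Sch) : ST.tsl a (KDa.dS v f) = KDa.dS v (ST.tsl a f) := by
  ext z
  exact (DFunLike.congr_fun (fderiv_comp_sub (𝕜 := ℝ) (f := f) (x := z) a) v).symm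

lemma ng_dS (v : V) (f : Sch) : ng (KDa.dS v f) = -KDa.dS v (ng f) := by
  ext z
  have := ((f.differentiableAt (x := -z)).hasFDerivAt.comp z (hasFDerivAt_id z).neg).fderiv
  rw [neg_apply, dS_apply, show fderiv ℝ (ng f) z = _ from this]
  simp [ng_apply, dS_apply]

lemma mem_wdg (hs : 0 < s) (hL : IsLor L) (a b y z : V) :
    z ∈ Wdg (sim 1 (linv L) 0 a) (sim 1 (linv L) 0 b) ((H755.simE s L hs hL).symm y) ↔
      sim s L 0 z ∈ Wdg a b y := by
  have e : sim s L 0 z - y = s • sim 1 L 0 (z - (H755.simE s L hs hL).symm y) := by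
    rw [← sim_smul, ← H755.simE_apply hs hL (_ - _), map_sub, H755.simE_apply, LinearEquiv.apply_symm_apply]
  show _ ∧ _ ↔ _ ∧ _
  rw [e, md_smul, md_smul, md_lor' _ _ hL, md_lor' _ _ hL, mul_pos_iff_of_pos_left hs, ← neg_pos,
    ← neg_pos (a := _ * _), ← mul_neg, mul_pos_iff_of_pos_left hs]

lemma tc_add (h : TC c x) (h' : TC c y) : TC c (x + y) :=
  ⟨fun a f => by simp [h.tra, h'.tra], fun f => by simp [inner_add_right, h.perp, h'.perp]⟩

lemma tc_smul (a : ℝ) (h : TC c x) : TC c (a • x) :=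
  ⟨fun v f => by simp [h.tra], fun f => by
    rw [smul_apply, ← Complex.coe_smul, inner_smul_right, h.perp, mul_zero]⟩

lemma tc_act (b : BA1 c) (hs : 0 < s) (hL : IsLor L) (h : TC c x) : TC c (act c s L x) := by
  refine ⟨fun a f => ?_, fun f => ?_⟩
  · obtain ⟨a, rfl⟩ := (H755.simE s L hs hL).surjective a
    rw [act_apply, act_apply, H755.simE_apply, ← ContinuousLinearMap.mul_apply, ← Two.ug_ut hs hL,
      ContinuousLinearMap.mul_apply, h.tra]
    congr 2
    ext z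
    simp only [ST.tsl_apply, pS_apply hs hL, ← H755.simE_apply hs hL, map_sub]
  · rw [act_apply, ← (b.pp _).2.2.2.1 (h.perp _), (b.pp _).2.2.2.2]
    exact (b.pp _).1

lemma tc_gn (l : LIE) (v : V) (f : Sch) (h : TC c x) :
    Gn (fun t => Ut c.Q (t • v)) (x f) (I • x (KDa.dS v f)) := by
  have := (x.continuous.tendsto _).comp (l.der V (fun _ => 1) (fun t => -(t • v)) 0 (-v) f
    (-KDa.dS v f) (fun t => ST.tsl (t • v) f) (hasDerivAt_const _ _)
    (by simpa using ((hasDerivAt_id (0 : ℝ)).smul_const v).fun_neg) rfl (by simp)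
    (.of_forall fun t z => by simp [sub_eq_add_neg]) fun z => by simp [dS_apply])
  rw [Gn, smul_smul, Complex.I_mul_I, neg_one_smul, hasDerivAt_iff_tendsto_slope_zero, ← map_neg]
  refine this.congr fun t => ?_
  simp only [Function.comp, zero_add, zero_smul, h.tra, x.map_smul_of_tower, map_sub]
  congr 3
  ext z
  simp

lemma loc_add (h : Loc c σ K x) (h' : Loc c σ K y) : Loc c σ K (x + y) :=
  fun a b v f h1 h2 h3 h4 h5 h6 => by
    simpa using (h a b v f h1 h2 h3 h4 h5 h6).add (h' a b v f h1 h2 h3 h4 h5 h6)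

lemma loc_smul (r : ℝ) (h : Loc c σ K x) : Loc c σ K (r • x) :=
  fun a b v f h1 h2 h3 h4 h5 h6 => by
    rw [smul_apply, smul_apply, th_smul, smul_comm]
    exact (h a b v f h1 h2 h3 h4 h5 h6).rsmul r

lemma loc_mono (k : K ⊆ K') (h : Loc c σ K x) : Loc c σ K' x :=
  fun a b v f h1 h2 h3 h4 h5 h6 => h a b v f h1 h2 h3 h4 h5 fun z hz u hu => h6 z hz u (k hu)

lemma loc_act (g : GRP c) (B : BA1 c) (hs : 0 < s) (hL : IsLor L) (h : Loc c σ K x) :
    Loc c σ (sim s L 0 '' K) (act c s L x) := fun a b v f h1 h2 h3 h4 h5 h6 => by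
  let e := (H755.simE s L hs hL).toContinuousLinearEquiv
  have he : ∀ u, sim s L 0 u = e u := fun u => (H755.simE_apply hs hL u).symm
  have e1 : ⇑(pS s L f) = f ∘ e := funext fun z => by rw [pS_apply hs hL, he, Function.comp]
  have e2 : ∀ z ∈ tsupport (pS s L f), e z ∈ tsupport f := fun z hz =>
    closure_minimal (t := e ⁻¹' tsupport f) (fun x hx => subset_tsupport f (by rwa [e1] at hx))
      ((isClosed_tsupport f).preimage e.continuous) hz
  have := (h _ _ ((H755.simE s L hs hL).symm v) (pS s L f) (isNull_lor (isLor_linv hL) h1)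
    (isNull_lor (isLor_linv hL) h2) (by rwa [md_LL (isLor_linv hL)])
    (e1 ▸ h4.comp_homeomorph e.toHomeomorph)
    (fun z hz => (mem_wdg hs hL _ _ _ _).2 (he z ▸ h5 (e2 z hz))) fun z hz u hu =>
      (mem_wdg hs hL _ _ _ _).2 (by
        rw [he, map_add]
        exact h6 _ (e2 z hz) _ ⟨u, hu, he u⟩)).cov (M' := c.N (Wdg a b v)) (g.uni s L 0)
    (g.vac s L 0) fun X hX => by
      convert (g.alg s L 0 _ hs hL X).1 hX using 2
      ext z
      obtain ⟨z, rfl⟩ := e.surjective z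
      rw [← he, ← mem_wdg hs hL]
      exact ⟨fun k => ⟨z, k, rfl⟩, fun ⟨w, k, r⟩ => e.injective (a₁ := w) (a₂ := z) (by rw [← he, ← he, r]) ▸ k⟩
  rw [act_apply, act_apply, B.th_ug _ _ _ _ hs hL, neg_zero, show pS s L (ng f) = ng (pS s L f) from
    SchwartzMap.ext fun z => by simp only [pS_apply hs hL, ng_apply, he, map_neg]]
  rwa [ContinuousLinearMap.map_smul_of_tower] at this

lemma loc_der (v : V) (h : Loc c σ K x) : Loc c (-σ) K (x ∘L KDa.dS v) :=
  fun a b w f h1 h2 h3 h4 h5 h6 => by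
    have k := SchwartzMap.tsupport_lineDerivOp_subset v f
    have := h a b w (KDa.dS v f) h1 h2 h3 (h4.of_isClosed_subset (isClosed_tsupport _) k)
      (k.trans h5) fun z hz => h6 z (k hz)
    simpa [ng_dS] using this

lemma small {a b v : V} {f : Sch} (h4 : HasCompactSupport f) (h5 : tsupport f ⊆ Wdg a b v)
    (h6 : ∀ z ∈ tsupport f, ∀ u ∈ K, z + u ∈ Wdg a b v) :
    ∃ ε > 0, ∀ z ∈ tsupport f, ∀ u ∈ K ∪ ball 0 ε, z + u ∈ Wdg a b v := by
  obtain ⟨ε, h0, h⟩ := h4.isCompact.exists_thickening_subset_open (wdg_open a b v) h5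
  exact ⟨ε, h0, fun z hz u hu => hu.elim (h6 z hz u) fun k =>
    h (mem_thickening_iff.2 ⟨z, hz, by simpa using k⟩)⟩

lemma dla (b : BA1 c) (hs : 0 < s) (hL : IsLor L) (x : TT D) :
    act c s GF.one (act c 1 L x) = act c 1 L (act c s GF.one x) := by
  rw [b.mul _ _ _ _ _ hs one_pos H496.isLor_one hL, b.mul _ _ _ _ _ one_pos hs hL H496.isLor_one,
    mul_comm]
  congr 2
  ext m n
  simp [T.cm_apply, GF.one, bas]

end Ba2

open Ba2 in
/-- **row BA2** -/
theorem ba2_row (c : Ctx D) (t : T3 c) (_ : TEN) (b : BA1 c) : BA2 c where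
  tc0 := ⟨by simp, by simp⟩
  tc_add _ _ := tc_add
  tc_smul a _ := tc_smul a
  tc_act _ _ _ := tc_act b
  tc_der v x h := ⟨fun a f => by simp [h.tra, tsl_dS], fun f => h.perp _⟩
  tc_gn v _ f := tc_gn t.lie v f
  tc_psi v x f h := by
    have := (gn_iff_bc c.bt SN.isPair_mdot fun _ => rfl).1 (tc_gn t.lie v f h)
    exact ⟨this.1, by rw [this.2, smul_smul]; simp⟩
  tc_rel x f g h := Two.rel_clm x (fun y _ => (h.tra y f).symm) fun y _ => (h.tra y g).symm
  loc0 _ _ _ _ _ _ _ _ _ _ _ _ := by simpa using Pr.zero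
  loc_add _ _ _ _ := loc_add
  loc_smul _ _ a _ := loc_smul a
  loc_mono _ _ _ _ := loc_mono
  loc_act _ _ _ _ _ := loc_act t.grp b
  loc_der _ _ v _ := loc_der v
  loc_small σ K x h a b v f h1 h2 h3 h4 h5 h6 :=
    let ⟨ε, h0, k⟩ := small h4 h5 h6
    h ε h0 a b v f h1 h2 h3 h4 h5 k
  loc_lim σ K x y l h a b v f h1 h2 h3 h4 h5 h6 :=
    let ⟨ε, h0, k⟩ := small h4 h5 h6
    .closed ((h ε h0).mono fun _ q => q a b v f h1 h2 h3 h4 h5 k) (l f)
      ((((Th c).continuous.tendsto _).comp (l _)).const_smul σ)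
  hom0 _ _ := ⟨⟨by simp, by simp⟩, fun _ _ _ _ _ _ _ _ _ _ => by simpa using Pr.zero,
    fun _ _ => by simp⟩
  hom_add _ _ _ _ h h' := ⟨tc_add h.tc h'.tc, loc_add h.loc h'.loc, fun s hs => by
    rw [map_add, smul_add, h.hom s hs, h'.hom s hs]⟩
  hom_smul _ _ a _ h := ⟨tc_smul a h.tc, loc_smul a h.loc, fun s hs => by
    rw [map_smul, smul_comm, h.hom s hs]⟩
  hom_act _ _ _ _ hL h := ⟨tc_act b one_pos hL h.tc,
    by simpa using loc_act t.grp b one_pos hL h.loc, fun s hs => by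
      rw [dla b hs hL, ← map_smul, h.hom s hs]⟩

end Vale.Agent.P352X.TPD

end
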