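import Vale.Agent.P352X.TPD.Spec2
import Vale.Agent.P352X.Api1P
import Vale.Agent.P352X.Api1C
import Vale.Agent.P352X.Api2b
import Vale.Agent.P352X.Api3b

/-!
# P352X, block TPD: row BP1, the calculus of `psi`
-/

set_option linter.all false

open MeasureTheory Filter Topology
open scoped SchwartzMap ComplexConjugate ENNReal ContDiff LineDeriv

namespace Vale.Agent.P352X.TPD

open Vale.Agent.P352 Vale.Agent.P352.GF Vale.Agent.P352.BW Vale.Agent.P352.H246
open Vale.Agent.P352.H496 Vale.Agent.P352.H755 Vale.Agent.P352.H15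
open UniformSpace (Completion)
open Complex (I)

noncomputable section

namespace Bp

/-- real test functions as Schwartz functions -/
def e (g : V → ℝ) : Sch := sch fun u => (g u : ℂ)

/-- two pairs of indices -/
def q (I J : I2) : Fin 4 → Ix := ![I.1, I.2, J.1, J.2]

lemma e_apply {g : V → ℝ} (h : Tst g) (u : V) : e g u = g u := Ap.sch_tst h u

lemma e_supp {g : V → ℝ} (h : Tst g) : tsupport (e g) ⊆ tsupport g :=
  closure_mono fun u hu h0 => hu (by rw [e_apply h, h0]; simp)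

lemma e_cpt {g : V → ℝ} (h : Tst g) : HasCompactSupport (e g) :=
  h.2.of_isClosed_subset (isClosed_tsupport _) (e_supp h)

lemma comp_supp (φ : V → Tn (Fin 4)) (ν : Fin 4 → Ix) : tsupport (fun u => φ u ν) ⊆ tsupport φ :=
  closure_mono fun u hu h0 => hu (by simp [h0])

lemma ok_tst {φ : V → Tn (Fin 4)} (h : Ok φ) (ν : Fin 4 → Ix) : Tst fun u => φ u ν :=
  ⟨contDiff_pi.1 h.1 ν, h.2.1.of_isClosed_subset (isClosed_tsupport _) (comp_supp φ ν)⟩

lemma ten_supp {g : V → ℝ} (h : Tst g) (f : Sch) {z : V × V}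
    (hz : z ∈ tsupport (Api4.ten2 (e g) f)) : z.1 - z.2 ∈ tsupport g ∧ z.2 ∈ tsupport f :=
  ⟨e_supp h (Api4.tsupport_tenE _ _ _ hz).1, (Api4.tsupport_tenE _ _ _ hz).2⟩

lemma offD {g : V → ℝ} (h : Tst g) (h0 : (0 : V) ∉ tsupport g) (f : Sch) :
    OffD (Api4.ten2 (e g) f) := fun x hx => h0 (by simpa using (ten_supp h f hx).1)

lemma ok_offD {φ : V → Tn (Fin 4)} (h : Ok φ) (ν : Fin 4 → Ix) (f : Sch) :
    OffD (Api4.ten2 (e fun u => φ u ν) f) :=
  offD (ok_tst h ν) (fun h0 => h.2.2 (comp_supp φ ν h0)) f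

lemma ten_e {g : V → ℝ} (h : Tst g) (f : Sch) (z : V × V) :
    Api4.ten2 (e g) f z = g (z.1 - z.2) * f z.2 := by rw [Api4.ten2_apply, e_apply h]

lemma sum_q {M : Type*} [AddCommMonoid M] (F : (Fin 4 → Ix) → M) :
    ∑ ν, F ν = ∑ I : I2, ∑ J : I2, F (q I J) := by
  rw [← Fintype.sum_prod_type']
  refine (Fintype.sum_bijective (fun p : I2 × I2 => q p.1 p.2) ⟨fun p p' h => ?_, fun ν =>
    ⟨((ν 0, ν 1), (ν 2, ν 3)), funext fun i => by fin_cases i <;> rfl⟩⟩ _ _ fun _ => rfl).symm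
  exact Prod.ext (Prod.ext (congrFun h 0) (congrFun h 1)) (Prod.ext (congrFun h 2) (congrFun h 3))

lemma ten_der (χ f : Sch) (v v' : V) : ∂_{((v, v') : V × V)} (Api4.ten2 χ f) =
    Api4.ten2 (∂_{v - v'} χ) f + Api4.ten2 χ (∂_{v'} f) := by
  ext z
  have h1 : HasFDerivAt (fun z : V × V => χ (z.1 - z.2)) _ z :=
    (χ.hasFDerivAt (z.1 - z.2)).comp z (hasFDerivAt_fst.sub hasFDerivAt_snd)
  have h2 : HasFDerivAt (fun z : V × V => f z.2) _ z := (f.hasFDerivAt z.2).comp z hasFDerivAt_snd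
  have h3 : (Api4.ten2 χ f : V × V → ℂ) = fun z => χ (z.1 - z.2) * f z.2 :=
    funext (Api4.ten2_apply χ f)
  rw [SchwartzMap.lineDerivOp_apply_eq_fderiv, h3, (h1.fun_mul h2).fderiv]
  simp [Api4.ten2_apply, SchwartzMap.lineDerivOp_apply_eq_fderiv]
  ring

lemma tst_mul {χ g : V → ℝ} (h : Tst χ) (hg : ContDiff ℝ ∞ g) : Tst fun u => χ u * g u :=
  ⟨h.1.mul hg, h.2.mul_right⟩

lemma tst_dr {χ : V → ℝ} (h : Tst χ) (m : Ix) : Tst (dr m χ) :=
  ⟨Ap.smooth_dr h.1 m, by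
    rw [Ap.dr_eq' (h.1.differentiable (by simp))]
    exact h.2.fderiv_apply ℝ _⟩

lemma e_der {g : V → ℝ} (h : Tst g) (m : Ix) : ∂_{(bas m 1 : V)} (e g) = e (dr m g) := by
  ext u
  have h1 : (e g : V → ℂ) = fun u => (g u : ℂ) := funext (e_apply h)
  have h2 := (h.1.differentiable (by simp)) u
  have h3 : HasFDerivAt (fun u => (g u : ℂ)) _ u :=
    Complex.ofRealCLM.hasFDerivAt.comp u h2.hasFDerivAt
  rw [SchwartzMap.lineDerivOp_apply_eq_fderiv, h1, e_apply (tst_dr h m), Ap.dr_eq h2, h3.fderiv]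
  rfl

lemma e_mul_der {χ g : V → ℝ} (h : Tst χ) (hg : ContDiff ℝ ∞ g) (m : Ix) :
    ∂_{(bas m 1 : V)} (e fun u => χ u * g u) =
      e (fun u => dr m χ u * g u) + e fun u => χ u * dr m g u := by
  rw [e_der (tst_mul h hg)]
  ext u
  have h1 := (h.1.differentiable (by simp)) u
  have h2 := (hg.differentiable (by simp)) u
  rw [SchwartzMap.add_apply, e_apply (tst_dr (tst_mul h hg) m), e_apply (tst_mul (tst_dr h m) hg),
    e_apply (tst_mul h (Ap.smooth_dr hg m)), Ap.dr_eq (h1.fun_mul h2), Ap.dr_eq h1, Ap.dr_eq h2,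
    fderiv_fun_mul h1 h2]
  simp
  ring

lemma ten_add (χ χ' f : Sch) : Api4.ten2 (χ + χ') f = Api4.ten2 χ f + Api4.ten2 χ' f := by
  ext z; simp [Api4.ten2_apply, add_mul]

lemma ten_neg (χ f : Sch) : Api4.ten2 (-χ) f = -Api4.ten2 χ f := by
  ext z; simp [Api4.ten2_apply]

variable {D : Type*} [NormedAddCommGroup D] [InnerProductSpace ℂ D] {c : Ctx D} {w : WW D}

lemma psi_apply (w : WW D) (φ : V → Tn (Fin 4)) (f : Sch) :
    psi w φ f = ∑ I, ∑ J, w I J (Api4.ten2 (e fun u => φ u (q I J)) f) := by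
  rw [psi, ContinuousLinearMap.sum_apply, sum_q]
  rfl

lemma add {φ φ' : V → Tn (Fin 4)} (h : Ok φ) (h' : Ok φ') :
    psi w (φ + φ') = psi w φ + psi w φ' := by
  ext f
  simp only [ContinuousLinearMap.add_apply, psi_apply, ← Finset.sum_add_distrib, ← map_add]
  refine Finset.sum_congr rfl fun I _ => Finset.sum_congr rfl fun J _ => congrArg _ ?_
  have t : Tst fun u => (φ + φ') u (q I J) :=
    ⟨(ok_tst h _).1.add (ok_tst h' _).1, (ok_tst h _).2.add (ok_tst h' _).2⟩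
  ext z
  rw [ten_e t]
  simp [ten_e (ok_tst h _), ten_e (ok_tst h' _), add_mul]

lemma smul (a : ℝ) {φ : V → Tn (Fin 4)} (h : Ok φ) : psi w (a • φ) = a • psi w φ := by
  ext f
  simp only [ContinuousLinearMap.smul_apply, psi_apply, Finset.smul_sum,
    ← ContinuousLinearMap.map_smul_of_tower]
  refine Finset.sum_congr rfl fun I _ => Finset.sum_congr rfl fun J _ => congrArg _ ?_
  have t : Tst fun u => (a • φ) u (q I J) :=
    ⟨contDiff_const.mul (ok_tst h _).1, (ok_tst h _).2.mul_left⟩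
  ext z
  rw [ten_e t]
  simp [ten_e (ok_tst h _), mul_assoc]

lemma sim_sub (s : ℝ) (L : Ix → V) (a x y : V) :
    sim s L a x - sim s L a y = sim s L 0 (x - y) := by
  ext n
  simp [sim, sub_mul, Finset.sum_sub_distrib]
  ring

lemma cov (T : TEN) (S : Src c w) {s : ℝ} {L : Ix → V} (a : V) (hs : 0 < s) (hL : IsLor L)
    {φ : V → Tn (Fin 4)} (h : Ok φ) (f g : Sch) (hg : ∀ x, g x = f (sim s L a x)) :
    Ug c.Q s L a (psi w (pf s L φ) g) = psi w φ f := by
  have h1 : ∀ K M, Api4.ten2 (e fun u => pf s L φ u (q K M)) g = ∑ I, ∑ J,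
      (L2 L K I * L2 L M J) • Api4.ten2 (pS s L (e fun u => φ u (q I J))) g := fun K M => by
    ext z
    simp only [ten_e (ok_tst (T.okp s L φ hs hL h) _), SchwartzMap.sum_apply,
      SchwartzMap.smul_apply, Api4.ten2_apply, pS_apply hs hL, e_apply (ok_tst h _), smul_eq_mul,
      ← mul_assoc, ← Finset.sum_mul]
    exact congrArg (· * _) (T.four L _ K M)
  have h2 : ∀ I J, w I J (Api4.ten2 (e fun u => φ u (q I J)) f) = ∑ K, ∑ M,
      (L2 L K I * L2 L M J) • Ug c.Q s L a (w K M (Api4.ten2 (pS s L (e fun u => φ u (q I J))) g)) :=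
    fun I J => S.cov s L a I J _ _ hs hL (ok_offD h _ f) fun x y => by
      simp only [Api4.ten2_apply, pS_apply hs hL, hg, sim_sub]
  simp only [psi_apply, h1, h2, map_sum, map_smul]
  rw [Finset.sum_congr rfl fun K _ => Finset.sum_comm, Finset.sum_comm]
  refine Finset.sum_congr rfl fun I _ => ?_
  rw [Finset.sum_congr rfl fun K _ => Finset.sum_comm, Finset.sum_comm]

lemma tc (T : TEN) (S : Src c w) {φ : V → Tn (Fin 4)} (h : Ok φ) : TC c (psi w φ) := by
  refine ⟨fun a f => ?_, fun f => by simp [psi_apply, inner_sum, S.perp]⟩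
  have h1 : pf 1 GF.one φ = φ := funext fun u => by rw [TPD.pf, T.one, sim_ut, add_zero]
  have := cov T S a one_pos H496.isLor_one h (ST.tsl a f) f fun x => by
    simp [ST.tsl_apply, sim_ut]
  rwa [h1] at this

lemma loc (S : Src c w) {σ : ℝ} {φ : V → Tn (Fin 4)} (h : Ok φ) (hσ : ∀ u, φ (-u) = σ • φ u) :
    Loc c σ (tsupport φ) (psi w φ) := by
  intro a b y f ha hb hab hf h1 h2
  simp only [psi_apply, map_sum, Finset.smul_sum]
  refine Pr.sum _ fun I _ => Pr.sum _ fun J _ => ?_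
  have t := ok_tst h (q I J)
  refine (S.loc a b y I J _ ((σ : ℂ) • Api4.ten2 (e fun u => φ u (q I J)) (ng f)) ha hb hab
    (ok_offD h _ f) ?_ (fun z hz => ?_) fun x z => ?_).cast rfl ?_
  · have := (Api4.sch_ten2 (Api4.dc_of_sch _ (e_cpt t)) (Api4.dc_of_sch _ hf)).1.2
    rwa [← funext (Api4.ten2_apply _ f)] at this
  · obtain ⟨h3, h4⟩ := ten_supp t f hz
    exact ⟨by simpa using h2 _ h4 _ (comp_supp φ _ h3), h1 h4⟩
  · have : -x - -z = -(x - z) := by abel
    simp [ten_e t, ng_apply, this, hσ, mul_assoc, -neg_sub]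
  · rw [map_smul, map_smulₛₗ, Complex.conj_ofReal, Complex.coe_smul]

lemma four (S : Src c w) (A : I2 → I2 → S2) :
    ∑ I, ∑ J, w I J (A I J + A I.swap J + A I J.swap + A I.swap J.swap) =
      (4 : ℂ) • ∑ I, ∑ J, w I J (A I J) := by
  have h1 : ∀ A : I2 → I2 → S2, ∑ I, ∑ J, w I J (A I.swap J) = ∑ I, ∑ J, w I J (A I J) := fun A =>
    Fintype.sum_equiv (Equiv.prodComm _ _) _ _ fun I => Finset.sum_congr rfl fun J _ => by
      rw [S.ind1 I J]; rfl
  have h2 : ∀ A : I2 → I2 → S2, ∑ I, ∑ J, w I J (A I J.swap) = ∑ I, ∑ J, w I J (A I J) := fun A =>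
    Finset.sum_congr rfl fun I _ => Fintype.sum_equiv (Equiv.prodComm _ _) _ _ fun J => by
      rw [S.ind2 I J]; rfl
  simp only [map_add, Finset.sum_add_distrib]
  rw [h1 A, h2 A, h1 fun I J => A I J.swap, h2 A]
  module

lemma sy (S : Src c w) {φ φ' : V → Tn (Fin 4)} (h : Ok φ) (h' : Ok φ')
    (hs : ∀ u, sy (φ u) = sy (φ' u)) : psi w φ = psi w φ' := by
  ext f
  refine smul_right_injective _ (by norm_num : (4 : ℂ) ≠ 0) ?_
  simp only [psi_apply, ← four S]
  refine Finset.sum_congr rfl fun I _ => Finset.sum_congr rfl fun J _ => congrArg _ ?_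
  ext z
  simp only [SchwartzMap.add_apply, ten_e (ok_tst h _), ten_e (ok_tst h' _), ← add_mul,
    ← Complex.ofReal_add]
  exact congrArg (fun t : ℝ => (t : ℂ) * _) (congrFun (hs (z.1 - z.2)) (q I J))

lemma off_mul {χ g : V → ℝ} (h : Tst χ) (h0 : (0 : V) ∉ tsupport χ) (hg : ContDiff ℝ ∞ g)
    (f : Sch) : OffD (Api4.ten2 (e fun u => χ u * g u) f) :=
  offD (tst_mul h hg) (fun h1 => h0 (tsupport_mul_subset_left h1)) f

lemma c1 (S : Src c w) {χ : V → ℝ} {X : V → Tn (Fin 3)} (h : Tst χ) (h0 : (0 : V) ∉ tsupport χ)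
    (hX : ContDiff ℝ ∞ X) : psi w (b1 χ X) + psi w (cs χ (d1 X)) = 0 := by
  ext f
  simp only [ContinuousLinearMap.add_apply, psi_apply, ← Finset.sum_add_distrib, ← map_add,
    ← ten_add, ContinuousLinearMap.zero_apply]
  rw [Finset.sum_comm]
  refine Finset.sum_eq_zero fun J _ => ?_
  rw [Fintype.sum_prod_type_right]
  refine Finset.sum_eq_zero fun n _ => ?_
  have hg := contDiff_pi.1 hX ![n, J.1, J.2]
  refine Eq.trans (Finset.sum_congr rfl fun m _ => congrArg _ ?_) (S.c1 n J _ (off_mul h h0 hg f))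
  rw [ten_der, sub_zero, e_mul_der h hg, LineDeriv.lineDerivOp_left_zero, map_zero, add_zero]
  rfl

lemma c3 (S : Src c w) {χ : V → ℝ} {Y : V → Tn (Fin 3)} (h : Tst χ) (h0 : (0 : V) ∉ tsupport χ)
    (hY : ContDiff ℝ ∞ Y) : psi w (b3 χ Y) + psi w (cs χ (d3 Y)) =
      ∑ r, psi w (cs χ (i3 r Y)) ∘L KDa.dS (bas r 1) := by
  ext f
  simp only [ContinuousLinearMap.add_apply, psi_apply, ← Finset.sum_add_distrib, ← map_add,
    ← ten_add, ContinuousLinearMap.sum_apply, ContinuousLinearMap.comp_apply]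
  refine Eq.trans (Finset.sum_congr rfl fun I _ => ?_) Finset.sum_comm
  simp only [Fintype.sum_prod_type_right]
  refine Eq.trans (Finset.sum_congr rfl fun n _ => ?_) Finset.sum_comm
  have hg := contDiff_pi.1 hY ![I.1, I.2, n]
  have h1 : ∀ r t f, Api4.ten2 (e fun u => cs χ (i3 r Y) u (q I (t, n))) f =
      (bas r 1 t : ℂ) • Api4.ten2 (e fun u => χ u * Y u ![I.1, I.2, n]) f := fun r t f => by
    have t1 : Tst fun u => cs χ (i3 r Y) u (q I (t, n)) := tst_mul h (contDiff_const.mul hg)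
    ext z
    rw [ten_e t1, SchwartzMap.smul_apply, ten_e (tst_mul h hg)]
    simp [cs, i3, q]
    ring
  have h2 := S.c2 I n _ (off_mul h h0 hg f)
  have h3 : ∀ r : Ix, ∂_{(0 - bas r 1 : V)} (e fun u => χ u * Y u ![I.1, I.2, n]) =
      -((e fun u => b3 χ Y u (q I (r, n))) + e fun u => cs χ (d3 Y) u (q I (r, n))) := fun r => by
    rw [zero_sub, LineDeriv.lineDerivOp_left_neg, e_mul_der h hg]
    rfl
  simp only [ten_der, h3, ten_neg, map_add, map_neg, Finset.sum_add_distrib, Finset.sum_neg_distrib,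
    neg_add_eq_zero] at h2
  simp only [h1, map_smul, h2]
  refine Finset.sum_congr rfl fun r _ => ?_
  rw [Finset.sum_eq_single r (fun t _ ht => by simp [bas, ht]) (by simp)]
  simp [bas, KDa.dS]

end Bp

variable {D : Type*} [NormedAddCommGroup D] [InnerProductSpace ℂ D]

theorem bp1_row (c : Ctx D) : T3 c → TEN → BA c → ∀ w, Src c w → BP1 c w := fun _ T _ _ S =>
  ⟨fun _ _ => Bp.add, fun a _ => Bp.smul a, fun _ => Bp.tc T S, fun _ _ _ => Bp.loc S,
    fun s L _ hs hL h => ContinuousLinearMap.ext fun f =>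
      Bp.cov T S 0 hs hL h f _ (pS_apply hs hL f),
    fun _ _ => Bp.sy S, fun _ _ => Bp.c1 S, fun _ _ => Bp.c3 S⟩

end

end Vale.Agent.P352X.TPD
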