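import Vale.Agent.P352X.TPD.Bp1

/-!
# P352X, block TPD: row BP2, the calculus of `Dat`
-/

set_option linter.all false

open MeasureTheory Filter Topology
open scoped SchwartzMap ComplexConjugate ENNReal ContDiff LineDeriv

namespace Vale.Agent.P352X.TPD

open Vale.Agent.P352 Vale.Agent.P352.GF Vale.Agent.P352.BW Vale.Agent.P352.H246
open Vale.Agent.P352.H496 Vale.Agent.P352.H755 Vale.Agent.P352.H15
open UniformSpace (Completion)
open Complex (I)

noncomputable section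

namespace Bp

/-- matrices as linear maps -/
def mat : (Ix → V) →L[ℝ] V →L[ℝ] V :=
  ∑ m, ContinuousLinearMap.smulRightL ℝ V V (.proj m) ∘L .proj m

lemma sim_mat (L : Ix → V) (x : V) : sim 1 L 0 x = mat L x := by
  funext n
  simp [sim, mat]

lemma e_zero : e (fun _ => 0) = 0 := by simpa [e] using Api4.sch_zero (E := V)

lemma e_tend {η g : V → ℝ} (h : Tst η) (hg : ContDiff ℝ ∞ g) {L0 : Ix → V} (hL : IsLor L0) :
    Tendsto (fun L => e fun u => (η (sim 1 L 0 u) - η (sim 1 L0 0 u)) * g u) (𝓝 L0) (𝓝 0) := by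
  let A := (H755.simE 1 L0 one_pos hL).toContinuousLinearEquiv
  obtain ⟨C, hC, h1⟩ : ∃ C : ℝ, 0 < C ∧ ∀ z, ‖z‖ ≤ C * ‖mat L0 z‖ := by
    obtain ⟨C, hC, h1⟩ := (A.symm : V →L[ℝ] V).bound
    refine ⟨C, hC, fun z => ?_⟩
    have := h1 (A z)
    rw [← sim_mat, ← H755.simE_apply one_pos hL]
    simpa [A] using this
  obtain ⟨R, hR⟩ := h.2.isCompact.isBounded.subset_closedBall 0
  have h2 : ∀ L, ‖mat L - mat L0‖ < (2 * C)⁻¹ → ∀ z ∉ Metric.closedBall (0 : V) (2 * C * R),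
      η (mat L z) = 0 := fun L hl z hz => by
    refine image_eq_zero_of_notMem_tsupport fun h3 => hz ?_
    have h4 := hR h3
    rw [mem_closedBall_zero_iff] at h4 ⊢
    have h5 : ‖mat L0 z‖ ≤ ‖mat L z‖ + (2 * C)⁻¹ * ‖z‖ := by
      refine (norm_le_norm_add_norm_sub' (mat L0 z) (mat L z)).trans ?_
      rw [norm_sub_rev]
      gcongr
      exact ((mat L - mat L0).le_opNorm z).trans (by gcongr)
    have h6 : C * ((2 * C)⁻¹ * ‖z‖) = ‖z‖ / 2 := by field_simp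
    nlinarith [h1 z, mul_le_mul_of_nonneg_left h5 hC.le, mul_le_mul_of_nonneg_left h4 hC.le]
  have h0 : ‖mat L0 - mat L0‖ < (2 * C)⁻¹ := by simp [hC]
  have F : Api4.Fam {L | ‖mat L - mat L0‖ < (2 * C)⁻¹}
      fun L u => (((η (mat L u) - η (mat L0 u)) * g u : ℝ) : ℂ) := by
    refine Api4.fam_of_compact (isOpen_lt (by fun_prop) continuous_const) (ContDiff.contDiffOn ?_)
      (isCompact_closedBall 0 _) fun L hl z hz => by rw [h2 L hl z hz, h2 L0 h0 z hz]; simp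
    exact Complex.ofRealCLM.contDiff.comp (((h.1.comp ((mat.contDiff.comp contDiff_fst).clm_apply
      contDiff_snd)).sub (h.1.comp ((mat L0).contDiff.comp contDiff_snd))).mul
      (hg.comp contDiff_snd))
  have := (F.continuousAt (y := L0) h0).tendsto
  simpa [e, sim_mat, Api4.sch_zero] using this

lemma pS_tend (H : LIE) {ι : Type} {l : Filter ι} {L : ι → Ix → V} {L0 : Ix → V}
    (hL : ∀ i, IsLor (L i)) (h0 : IsLor L0) (h : Tendsto L l (𝓝 L0)) (f : Sch) :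
    Tendsto (fun i => pS 1 (L i) f) l (𝓝 (pS 1 L0 f)) := by
  refine H.cont V ι l (fun i => mat (L i)) (fun _ => 0)
    (H755.simE 1 L0 one_pos h0).toContinuousLinearEquiv 0 f _ _ ?_ tendsto_const_nhds
    (Eventually.of_forall fun i x => by rw [pS_apply one_pos (hL i), sim_mat, add_zero])
    fun x => by simp [pS_apply one_pos h0, H755.simE_apply]
  have : ((H755.simE 1 L0 one_pos h0).toContinuousLinearEquiv : V →L[ℝ] V) = mat L0 :=
    ContinuousLinearMap.ext fun x => (H755.simE_apply one_pos h0 x).trans (sim_mat L0 x)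
  rw [this]
  exact (mat.continuous.tendsto L0).comp h

lemma dr_neg {η : V → ℝ} (h : ∀ u, η (-u) = η u) (m : Ix) (u : V) : dr m η (-u) = -dr m η u := by
  have := deriv_comp_neg (fun t => η (u + bas m t)) 0
  rw [neg_zero] at this
  rw [dr, dr, ← this]
  congr 1
  funext t
  rw [← h]
  congr 1
  funext n
  by_cases hn : n = m <;> simp [bas, hn, add_comm]

lemma dr_sub {η η' : V → ℝ} (h : Tst η) (h' : Tst η') (m : Ix) (u : V) :
    dr m (η - η') u = dr m η u - dr m η' u := by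
  have h1 := (h.1.differentiable (by simp)) u
  have h2 := (h'.1.differentiable (by simp)) u
  rw [Ap.dr_eq (h1.sub h2), Ap.dr_eq h1, Ap.dr_eq h2, fderiv_sub h1 h2]
  rfl

lemma ec_ev (η : EC) : ∀ᶠ u in 𝓝 (0 : V), η.1 u = η.1 0 :=
  η.2.1.2.mono fun _ h => h.trans η.2.1.2.self_of_nhds.symm

lemma sub_ev (η η' : EC) : ∀ᶠ u in 𝓝 (0 : V), (η.1 - η'.1) u = (η.1 - η'.1) 0 :=
  ((ec_ev η).and (ec_ev η')).mono fun _ h => by simp [h.1, h.2]

lemma pull_eq (η : EC) {s : ℝ} {L : Ix → V} (hs : 0 < s) (hL : IsLor L) :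
    (η.pull s L).1 = fun u => η.1 (sim s L 0 u) := funext (η.pull_apply hs hL)

variable {D : Type*} [NormedAddCommGroup D] [InnerProductSpace ℂ D] {c : Ctx D} {w : WW D}

lemma psi_zero : psi w 0 = 0 := by
  have : ∀ f : Sch, Api4.ten2 (0 : Sch) f = 0 := fun f => by ext z; simp [Api4.ten2_apply]
  ext f
  simp [psi_apply, e_zero, this]

lemma okc (T : TEN) (η η' : EC) {S : V → Tn (Fin 4)} (hS : ContDiff ℝ ∞ S) :
    Ok (cs (η.1 - η'.1) S) := (T.okc _ S (T.ec η η').1 (T.ec η η').2 hS).1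

lemma cs_zero (χ : V → ℝ) : cs χ (0 : V → Tn (Fin 4)) = 0 := funext fun u => by simp [cs]

variable (T : TEN) (B : BA c) (P : BP1 c w)
include T B P

lemma dact {σ s : ℝ} {L : Ix → V} {S : V → Tn (Fin 4)} {x : Fam D} (hs : 0 < s) (hL : IsLor L)
    (hS : ContDiff ℝ ∞ S) (h : Dat c w σ (pf s L S) x) : Dat c w σ S (ga c s L x) := by
  refine ⟨fun η => B.tc_act _ _ _ hs hL (h.tc _), fun η => ?_, fun η η' => ?_⟩
  · rw [← (T.pull η s s L L hs hs hL hL).2.2]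
    exact B.loc_act _ _ _ _ _ hs hL (h.loc _)
  · rw [ga_apply, ga_apply, ← map_sub, h.coc, ← P.cov s L _ hs hL (okc T η η' hS)]
    congr 2
    funext u
    simp [cs, TPD.pf, EC.pull_apply _ hs hL]

omit P in
lemma dhom {σ : ℝ} {k : ℕ} {x : Fam D} (h : Dat c w σ 0 x)
    (hh : ∀ s : ℝ, 0 < s → s ^ k • ga c s GF.one x = x) : ∃ y, Hom c σ k y ∧ ∀ η, x η = y := by
  obtain ⟨η0, -⟩ := T.small 1 one_pos
  have h1 : ∀ η, x η = x η0 := fun η => sub_eq_zero.1 (by rw [h.coc, cs_zero, psi_zero])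
  refine ⟨x η0, ⟨h.tc _, B.loc_small _ _ _ fun ε hε => ?_, fun s hs => ?_⟩, h1⟩
  · obtain ⟨η, hη⟩ := T.small ε hε
    exact B.loc_mono _ _ _ _ (hη.trans Set.subset_union_right) (h1 η ▸ h.loc η)
  · have := congrFun (hh s hs) η0
    rwa [Pi.smul_apply, ga_apply, h1] at this

omit T B P in
lemma psi_tend {ι : Type} {l : Filter ι} {φ : ι → V → Tn (Fin 4)} {f : ι → Sch} {f0 : Sch}
    (h : ∀ ν, Tendsto (fun i => e fun u => φ i u ν) l (𝓝 0)) (hf : Tendsto f l (𝓝 f0)) :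
    Tendsto (fun i => psi w (φ i) (f i)) l (𝓝 0) := by
  simp only [psi_apply]
  have h2 : (0 : Completion D) = ∑ I : I2, ∑ J : I2, w I J (Api4.ten2 0 f0) := by
    have : Api4.ten2 (0 : Sch) f0 = 0 := by ext z; simp [Api4.ten2_apply]
    simp [this]
  rw [h2]
  refine tendsto_finset_sum _ fun I _ => tendsto_finset_sum _ fun J _ => ?_
  have h3 := ((Api4.continuous_tenE (Api4.sh2 V)).tendsto (0, f0)).comp ((h (q I J)).prodMk_nhds hf)
  exact ((w I J).continuous.tendsto _).comp h3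

omit T P in
lemma dcont (H : LIE) {σ : ℝ} {S : V → Tn (Fin 4)} {x : Fam D} {ι : Type} {l : Filter ι}
    {L : ι → Ix → V} {L0 : Ix → V} (η : EC) (f : Sch) (hS : ContDiff ℝ ∞ S) (h : Dat c w σ S x)
    (hL : ∀ i, IsLor (L i)) (h0 : IsLor L0) (ht : Tendsto L l (𝓝 L0)) :
    Tendsto (fun i => ga c 1 (L i) x η f) l (𝓝 (ga c 1 L0 x η f)) := by
  have h1 : ∀ i, ga c 1 (L i) x η f = act c 1 (L i) (x (η.pull 1 L0)) f +
      act c 1 (L i) (psi w (cs ((η.pull 1 (L i)).1 - (η.pull 1 L0).1) S)) f := fun i => by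
    rw [← h.coc, map_sub, ga_apply, ContinuousLinearMap.sub_apply, add_sub_cancel]
  have h2 : Tendsto (fun i => psi w (cs ((η.pull 1 (L i)).1 - (η.pull 1 L0).1) S) (pS 1 (L i) f))
      l (𝓝 0) := psi_tend (fun ν => ((e_tend η.2.1.1 (contDiff_pi.1 hS ν) h0).comp ht).congr
        fun i => by rw [pull_eq η one_pos (hL i), pull_eq η one_pos h0]; rfl) (pS_tend H hL h0 ht f)
  have h3 := (B.cont ι l L L0 (x (η.pull 1 L0)) f hL h0 ht).add
    (tendsto_zero_iff_norm_tendsto_zero.2 ((tendsto_zero_iff_norm_tendsto_zero.1 h2).congr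
      fun i => (B.nrm 1 (L i) _ f).symm))
  rw [add_zero] at h3
  exact h3.congr fun i => (h1 i).symm

lemma tc_loc {σ : ℝ} {φ : V → Tn (Fin 4)} {K : Set V} (hσ : σ * σ = 1) (h : Ok φ)
    (hK : tsupport φ ⊆ K) (hp : ∀ u, φ (-u) = σ • φ u) : TC c (psi w φ) ∧ Loc c σ K (psi w φ) :=
  ⟨P.tc _ h, B.loc_mono _ _ _ _ hK (P.loc σ φ hσ h hp)⟩

lemma g1 {σ : ℝ} {X : V → Tn (Fin 3)} (hσ : σ * σ = 1) (hX : ContDiff ℝ ∞ X)
    (hp : ∀ u, X (-u) = -σ • X u) : Dat c w σ (d1 X) (g1 w X) ∧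
    (∀ s L, 0 < s → IsLor L → ga c s L (g1 w (pf s L X)) = s • g1 w X) ∧
    ∀ X' (a : ℝ), ContDiff ℝ ∞ X' →
      g1 w (X + X') = g1 w X + g1 w X' ∧ g1 w (a • X) = a • g1 w X := by
  have ok := fun (η : EC) X hX => T.okb η.1 X η.2.1.1 (ec_ev η) hX
  have h1 := fun η : EC => tc_loc T B P hσ (ok η X hX).1 (ok η X hX).2.1 fun u => funext fun ν => by
    simp [b1, dr_neg η.2.2, hp]
    ring
  refine ⟨⟨fun η => ?_, fun η => ?_, fun η η' => ?_⟩, fun s L hs hL => funext fun η => ?_,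
    fun X' a hX' => ⟨funext fun η => ?_, funext fun η => ?_⟩⟩
  · simpa [TPD.g1] using B.tc_smul (-1) _ (h1 η).1
  · simpa [TPD.g1] using B.loc_smul _ _ (-1) _ (h1 η).2
  · have h2 : b1 η.1 X = b1 (η.1 - η'.1) X + b1 η'.1 X := funext₂ fun u ν => by
      simp [b1, dr_sub η.2.1.1 η'.2.1.1, sub_mul]
    have h3 := P.c1 _ X (T.ec η η').1 (T.ec η η').2 hX
    rw [TPD.g1, TPD.g1, h2, P.add _ _ (T.okb _ X (T.ec η η').1 (sub_ev η η') hX).1 (ok η' X hX).1,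
      eq_neg_of_add_eq_zero_right h3]
    abel
  · rw [ga_apply, TPD.g1, pull_eq η hs hL, (T.b1 s L η.1 X η.2.1.1.1).1,
      P.smul _ _ (T.okp s L _ hs hL (ok η X hX).1), map_neg, map_smul, P.cov s L _ hs hL (ok η X hX).1]
    simp [TPD.g1]
  · have h2 : b1 η.1 (X + X') = b1 η.1 X + b1 η.1 X' := funext₂ fun u ν => by simp [b1, mul_add]
    rw [Pi.add_apply, TPD.g1, TPD.g1, TPD.g1, h2, P.add _ _ (ok η X hX).1 (ok η X' hX').1, neg_add]
  · have h2 : b1 η.1 (a • X) = a • b1 η.1 X := funext₂ fun u ν => by simp [b1, mul_left_comm]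
    rw [Pi.smul_apply, TPD.g1, TPD.g1, h2, P.smul _ _ (ok η X hX).1, smul_neg]

lemma g3 {σ : ℝ} {Y : V → Tn (Fin 3)} (hσ : σ * σ = 1) (hY : ContDiff ℝ ∞ Y)
    (hp : ∀ u, Y (-u) = -σ • Y u) :
    (∀ η : EC, TC c (psi w (b3 η.1 Y)) ∧ Loc c σ (tsupport η.1) (psi w (b3 η.1 Y))) ∧
    (∀ η η' : EC, psi w (b3 η.1 Y) - psi w (b3 η'.1 Y) + psi w (cs (η.1 - η'.1) (d3 Y)) =
      ∑ r, psi w (cs (η.1 - η'.1) (i3 r Y)) ∘L KDa.dS (bas r 1)) ∧
    (∀ s L, 0 < s → IsLor L → ga c s L (fun η => psi w (b3 η.1 (pf s L Y))) =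
      s • fun η : EC => psi w (b3 η.1 Y)) ∧
    ∀ Y' (a : ℝ) (η : EC), ContDiff ℝ ∞ Y' →
      psi w (b3 η.1 (Y + Y')) = psi w (b3 η.1 Y) + psi w (b3 η.1 Y') ∧
      psi w (b3 η.1 (a • Y)) = a • psi w (b3 η.1 Y) := by
  have ok := fun (η : EC) X hX => (T.okb η.1 X η.2.1.1 (ec_ev η) hX).2.2
  refine ⟨fun η => tc_loc T B P hσ (ok η Y hY).1 (ok η Y hY).2 fun u => funext fun ν => ?_,
    fun η η' => ?_, fun s L hs hL => funext fun η => ?_, fun Y' a η hY' => ⟨?_, ?_⟩⟩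
  · simp [b3, dr_neg η.2.2, hp]
    ring
  · have h2 : b3 η.1 Y = b3 (η.1 - η'.1) Y + b3 η'.1 Y := funext₂ fun u ν => by
      simp [b3, dr_sub η.2.1.1 η'.2.1.1, sub_mul]
    rw [h2, P.add _ _ (T.okb _ Y (T.ec η η').1 (sub_ev η η') hY).2.2.1 (ok η' Y hY).1,
      add_sub_cancel_right, P.c3 _ Y (T.ec η η').1 (T.ec η η').2 hY]
  · rw [ga_apply, pull_eq η hs hL, (T.b1 s L η.1 Y η.2.1.1.1).2,
      P.smul _ _ (T.okp s L _ hs hL (ok η Y hY).1), map_smul, P.cov s L _ hs hL (ok η Y hY).1]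
    rfl
  · have h2 : b3 η.1 (Y + Y') = b3 η.1 Y + b3 η.1 Y' := funext₂ fun u ν => by simp [b3, mul_add]
    rw [h2, P.add _ _ (ok η Y hY).1 (ok η Y' hY').1]
  · have h2 : b3 η.1 (a • Y) = a • b3 η.1 Y := funext₂ fun u ν => by simp [b3, mul_left_comm]
    rw [h2, P.smul _ _ (ok η Y hY).1]

end Bp

variable {D : Type*} [NormedAddCommGroup D] [InnerProductSpace ℂ D]

theorem bp2_row (c : Ctx D) : T3 c → TEN → BA c → ∀ w, Src c w → BP1 c w → BP2 c w := by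
  intro t T B w _ P
  refine ⟨fun σ => ⟨fun _ => B.tc0, fun _ => B.loc0 _ _, fun η η' => ?_⟩,
    fun σ S S' x x' hS hS' h h' => ⟨fun η => B.tc_add _ _ (h.tc η) (h'.tc η),
      fun η => B.loc_add _ _ _ _ (h.loc η) (h'.loc η), fun η η' => ?_⟩,
    fun σ a S x hS h => ⟨fun η => B.tc_smul a _ (h.tc η), fun η => B.loc_smul _ _ a _ (h.loc η),
      fun η η' => ?_⟩,
    fun σ S S' x hS hS' hs h => ⟨h.tc, h.loc, fun η η' => ?_⟩,
    fun _ _ _ _ _ => Bp.dact T B P, fun _ _ _ => Bp.dhom T B,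
    fun _ _ _ _ _ _ _ => Bp.dcont B t.lie, fun _ _ => Bp.g1 T B P, fun _ _ => Bp.g3 T B P⟩
  · simp [Bp.cs_zero, Bp.psi_zero]
  · have : cs (η.1 - η'.1) (S + S') = cs (η.1 - η'.1) S + cs (η.1 - η'.1) S' :=
      funext fun u => by simp [cs]
    rw [this, P.add _ _ (Bp.okc T η η' hS) (Bp.okc T η η' hS'), ← h.coc, ← h'.coc,
      Pi.add_apply, Pi.add_apply, add_sub_add_comm]
  · have : cs (η.1 - η'.1) (a • S) = a • cs (η.1 - η'.1) S :=
      funext fun u => by simp [cs, smul_comm a]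
    rw [this, P.smul _ _ (Bp.okc T η η' hS), ← h.coc, Pi.smul_apply, Pi.smul_apply, smul_sub]
  · rw [h.coc]
    refine P.sy _ _ (Bp.okc T η η' hS) (Bp.okc T η η' hS') fun u => funext fun ν => ?_
    have := congrFun (hs u) ν
    simp only [cs, TPD.sy, Pi.smul_apply, smul_eq_mul] at this ⊢
    linear_combination (η.1 - η'.1) u * this

theorem bp_row (c : Ctx D) : T3 c → TEN → BA c → ∀ w, Src c w → BP c w := fun t T B w S =>
  BP.of (bp1_row c t T B w S) (bp2_row c t T B w S (bp1_row c t T B w S))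

end

end Vale.Agent.P352X.TPD
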