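import Vale.Agent.P352X.TPD.Spec
import Vale.Agent.P352X.Api1P
import Vale.Agent.P352X.Api2d

/-!
# P352X, block TPD: row CMP
-/

set_option linter.all false

open MeasureTheory Filter Topology
open scoped SchwartzMap ComplexConjugate ENNReal ContDiff

namespace Vale.Agent.P352X.TPD

open Vale.Agent.P352 Vale.Agent.P352.GF Vale.Agent.P352.BW Vale.Agent.P352.H246
open Vale.Agent.P352.H496 Vale.Agent.P352.H755 Vale.Agent.P352.H15
open UniformSpace (Completion)

noncomputable section

namespace Cmp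

/-- `G ↦ conj G (-z)` -/
def cj (E : Type*) [NormedAddCommGroup E] [NormedSpace ℝ E] : 𝓢(E, ℂ) →L[ℝ] 𝓢(E, ℂ) :=
  (SchwartzMap.postcompCLM (𝕜 := ℝ) Complex.conjCLE.toContinuousLinearMap).comp
    (SchwartzMap.compCLMOfContinuousLinearEquiv ℝ (ContinuousLinearEquiv.neg ℝ (M := E)))

variable {E : Type*} [NormedAddCommGroup E] [NormedSpace ℝ E]

lemma cj_apply (G : 𝓢(E, ℂ)) (z : E) : cj E G z = conj (G (-z)) := rfl

lemma cj_smul (a : ℂ) (G : 𝓢(E, ℂ)) : cj E (a • G) = conj a • cj E G := by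
  ext z
  simp [cj_apply]

lemma cj_supp {G : 𝓢(E, ℂ)} {z : E} (h : z ∈ tsupport (cj E G)) : -z ∈ tsupport G :=
  Ap.tsupp_sub (K := Neg.neg ⁻¹' tsupport G) ((isClosed_tsupport _).preimage continuous_neg)
    (fun x hx => subset_tsupport _ fun e => hx (by rw [cj_apply, e, map_zero])) h

lemma bar_cj (f : Sch) : bar (ev (ng (cj V f))) = ev f := funext fun z => by
  simp [bar, ev, ng_apply, cj_apply]

variable {D : Type*} [NormedAddCommGroup D] [InnerProductSpace ℂ D] (c : Ctx D)

/-- the anti-time ordered product -/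
def wm (w : WW D) : WW D := fun K M =>
  { toFun := fun G => Th c (w K M (cj _ G))
    map_add' := fun F G => by simp
    map_smul' := fun a G => by simp [cj_smul]
    cont := (Th c).continuous.comp ((w K M).continuous.comp (cj _).continuous) }

lemma wm_apply (w : WW D) (K M : I2) (G : S2) : wm c w K M G = Th c (w K M (cj _ G)) := rfl

end Cmp

open Cmp

variable {D : Type*} [NormedAddCommGroup D] [InnerProductSpace ℂ D]

theorem cmp_row (c : Ctx D) (b : B0 c) : CMP c := fun wp tp hl => by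
  refine ⟨wm c wp, ⟨fun I J f g F e h => ?_, fun I J F G e => ?_, fun I J => ?_,
    fun s L a I J F G hs hL e => ?_⟩, fun x y h => ?_⟩
  · rw [wm_apply, tp.swap I J _ (SchwartzMap.compCLMOfContinuousLinearEquiv ℂ
      (ContinuousLinearEquiv.prodComm ℝ V V) (cj _ F)) fun _ _ => rfl,
      tp.fac J I (cj V g) (cj V f) _ (fun x y => ?_) fun x hx y hy => ?_, if_pos rfl, b.ba.th_two,
      bar_cj, bar_cj, if_neg Bool.false_ne_true]
    · change conj (F (-y, -x)) = _
      rw [e, map_mul, mul_comm]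
      rfl
    · have := h _ (cj_supp hy) _ (cj_supp hx)
      rwa [neg_sub_neg] at this
  · rw [wm_apply, wm_apply, tp.swap I J (cj _ F) (cj _ G) fun x y => congrArg conj (e (-x) (-y))]
  · ext G
    rw [wm_apply, wm_apply, tp.ind]
  · obtain ⟨κ, h⟩ := tp.cov s L (-a) I J (cj _ F) (cj _ G) hs hL fun x y => by
      have k : ∀ x, sim s L a (-x) = -sim s L (-a) x := fun x => funext fun n => by
        simp [sim]
        ring
      change conj (G (-x, -y)) = conj (F (-_, -_))
      rw [e, k, k]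
    refine ⟨conj κ, ?_⟩
    rw [wm_apply, h, map_add, map_sum, ContinuousLinearMap.map_smulₛₗ, b.ba.th_om]
    congr 1
    refine Finset.sum_congr rfl fun K _ => ?_
    rw [map_sum]
    refine Finset.sum_congr rfl fun M _ => ?_
    rw [ContinuousLinearMap.map_smulₛₗ, ← Ug_apply _ hs hL, ← Ug_apply _ hs hL,
      b.ba.th_ug _ _ _ _ hs hL, neg_neg, wm_apply]
    simp [L2]
  · obtain ⟨a, a', v, ha, ha', hp, hy, hx⟩ := Ap.sep_pts (z := x) (y := y) h
    obtain ⟨d, d0, hd⟩ := Metric.isOpen_iff.1 (Ap.open_wdg _ _ _) x hx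
    obtain ⟨d', d1, hd'⟩ := Metric.isOpen_iff.1 (Ap.open_wdg _ _ _) y hy
    refine ⟨min d d', lt_min d0 d1, fun I J K f G G' hf hG e => ?_⟩
    have hf' : In (Wdg a' a v) (ev f) := ⟨⟨f, rfl⟩, Metric.isCompact_of_isClosed_isBounded
      (isClosed_tsupport _) (Metric.isBounded_ball.subset hf),
      hf.trans ((Metric.ball_subset_ball (min_le_left _ _)).trans hd)⟩
    have h1 := (hl a a' v J K G (cj _ G') ha ha' hp (Metric.isCompact_of_isClosed_isBounded
      (isClosed_tsupport _) (Metric.isBounded_ball.subset hG))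
      (hG.trans ((Metric.ball_subset_ball (min_le_right _ _)).trans
        ((ball_prod_same y y d').ge.trans (Set.prod_mono hd' hd'))))
      fun x z => by rw [cj_apply, e]; simp).pair'
      (Pr.of_afs (Grp.afs_T c.hN c.hT I.1 I.2 hf') c.Q.vac)
      (fun X hX => (b.jc.dual a a' v ha ha' hp).symm ▸ hX)
      (b.grp.rs _ (Ap.open_wdg _ _ _) ⟨x, hx⟩)
    have p : ∀ g, IsTest g → inner ℂ c.Om ((c.T I.1 I.2 g c.Q.vac : D) : Completion D) = 0 :=
      fun g hg => (Completion.inner_coe _ _).trans (b.grp.perp _ _ g hg)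
    obtain ⟨κ, h2⟩ := (b.ba.pp (wp J K G)).2.2.1
    obtain ⟨κ', h3⟩ := (b.ba.pp (Th c (wp J K (cj _ G')))).2.2.1
    rw [wm_apply, h2, h3, ← (b.ba.pp _).2.1, inner_add_left, inner_add_right, inner_smul_left,
      inner_smul_right, h1, p _ hf'.1,
      inner_eq_zero_symm.1 (p (bar (ev f)) (Ap.sw_star hf'.1)), mul_zero,
      mul_zero]

end

end Vale.Agent.P352X.TPD
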