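import Vale.Agent.P352X.TPD.Spec
import Vale.Agent.P352X.R.Br
import Vale.Agent.P352X.Api3d

/-!
# P352X, block TPD: row CRL (helper39)
-/

set_option linter.all false

open MeasureTheory Filter Topology
open scoped SchwartzMap ComplexConjugate ENNReal ContDiff

namespace Vale.Agent.P352X.TPD

open Vale.Agent.P352 Vale.Agent.P352.GF Vale.Agent.P352.BW Vale.Agent.P352.H246
open Vale.Agent.P352.H496 Vale.Agent.P352.H755 Vale.Agent.P352.H15
open UniformSpace (Completion)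
open Complex (I)

noncomputable section

namespace Crl

/-- the derivative is linear in the direction -/
def dL : V →ₗ[ℝ] Sch →L[ℂ] Sch where
  toFun := KDa.dS
  map_add' v w := by
    ext f x
    exact map_add (fderiv ℝ f x) v w
  map_smul' a v := by
    ext f x
    exact map_smul (fderiv ℝ f x) a v

lemma ft_dS (v : V) (f : Sch) (p : V) : ftS (KDa.dS v f) p = -(I * mdot p v) * ftS f p := by
  rw [ftS_apply, KDa.ev_dS, ft_dv ⟨f, rfl⟩, ftS_apply]

lemma dS_comm (v w : V) : KDa.dS v ∘L KDa.dS w = KDa.dS w ∘L KDa.dS v := by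
  refine ContinuousLinearMap.ext fun f => ftS.injective ?_
  ext p
  simp only [ContinuousLinearMap.comp_apply, ft_dS]
  ring

lemma bas_sum (v : V) : v = ∑ m, v m • bas m 1 := by
  funext n
  simp [bas, Finset.sum_apply]

lemma sim_bas (L : Ix → V) (m : Ix) : sim 1 L 0 (bas m 1) = L m := by
  funext n
  simp [sim, bas]

/-- the metric is invariant -/
lemma eta_inv (t : TEN) {M : Type*} [AddCommGroup M] [Module ℝ M] (G : V →ₗ[ℝ] V →ₗ[ℝ] M)
    {L : Ix → V} (hL : IsLor L) : ∑ m, eta m • G (sim 1 L 0 (bas m 1)) (sim 1 L 0 (bas m 1)) =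
      ∑ m, eta m • G (bas m 1) (bas m 1) := by
  have e : ∀ m, eta m • G (L m) (L m) =
      ∑ k, ∑ l, (eta m * L m k * L m l) • G (bas k 1) (bas l 1) := fun m => by
    conv_lhs => rw [bas_sum (L m)]
    simp only [map_sum, map_smul, LinearMap.sum_apply, LinearMap.smul_apply, Finset.smul_sum,
      smul_smul]
    rw [Finset.sum_comm]
    exact Finset.sum_congr rfl fun _ _ => Finset.sum_congr rfl fun _ _ => by congr 1; ring
  simp only [sim_bas, e]
  rw [Finset.sum_comm]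
  refine Finset.sum_congr rfl fun k _ => ?_
  rw [Finset.sum_comm]
  simp only [← Finset.sum_smul]
  have h : ∀ l, ∑ m, eta m * L m k * L m l = bas k (eta k) l := fun l => (t.tra L hL).1 k l
  simp [h, bas]

lemma l2 : ∃ (m : ℕ) (C : ℝ), ∀ f : Sch,
    ∫⁻ p, ENNReal.ofReal (‖ft (ev f) p‖ ^ 2) ≤ ENNReal.ofReal ((C * sn m f) ^ 2) := by
  obtain ⟨C, m, hC, h⟩ := ST.clm_sn_c
    (SchwartzMap.toLpCLM ℂ ℂ 2 (volume : Measure V) ∘L (ftS : Sch →L[ℂ] Sch))
  refine ⟨m, C, fun f => ?_⟩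
  have h1 := (ftS f).memLp 2 volume
  have h2 := h f
  rw [← Api4.sn_eq] at h2
  simp only [← ftS_apply]
  rw [← ofReal_integral_eq_lintegral_ofReal (SN.memLp_sq h1) (.of_forall fun p => by positivity)]
  refine ENNReal.ofReal_le_ofReal (le_trans (le_of_eq ?_) (pow_le_pow_left₀ (norm_nonneg _) h2 2))
  change _ = ‖(ftS f).toLp 2 volume‖ ^ 2
  rw [← @inner_self_eq_norm_sq ℂ, L2.inner_def, ← integral_re (L2.integrable_inner _ _)]
  refine integral_congr_ae ?_
  filter_upwards [(ftS f).coeFn_toLp 2 volume] with p hp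
  rw [hp, inner_self_eq_norm_sq]

variable {D : Type*} [NormedAddCommGroup D] [InnerProductSpace ℂ D] {c : Ctx D}

/-- composition with a derivative -/
def cD (x : V →ₗ[ℝ] TT D) : V →ₗ[ℝ] V →ₗ[ℝ] TT D :=
  LinearMap.mk₂ ℝ (fun v w => x v ∘L dL w) (fun _ _ _ => by rw [map_add]; rfl)
    (fun _ _ _ => by rw [map_smul]; rfl)
    (fun _ _ _ => by rw [map_add, ContinuousLinearMap.comp_add])
    (fun _ _ _ => by rw [map_smul, ContinuousLinearMap.comp_smul])

/-- the curl as a bilinear map -/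
def cB (n : V →ₗ[ℝ] TT D) : V →ₗ[ℝ] V →ₗ[ℝ] TT D := cD n - (cD n).flip

lemma cB_apply (n : V →ₗ[ℝ] TT D) (v w : V) : cB n v w = crl n v w := rfl

lemma dcr_eq (n : V →ₗ[ℝ] TT D) (v : V) :
    dcr n v = ∑ m, eta m • cD (cB n v) (bas m 1) (bas m 1) := by
  change _ = ∑ m, eta m • (crl n v (bas m 1) ∘L KDa.dS (bas m 1))
  simp only [dcr, bx, dvg, crl, ContinuousLinearMap.sub_comp, ContinuousLinearMap.comp_finsetSum,
    ContinuousLinearMap.finsetSum_comp, smul_sub, Finset.sum_sub_distrib,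
    ContinuousLinearMap.comp_smul, ContinuousLinearMap.smul_comp,
    ContinuousLinearMap.comp_assoc, dS_comm v]

lemma dcr_smul (n : V →ₗ[ℝ] TT D) (a : ℝ) (v : V) : dcr n (a • v) = a • dcr n v := by
  simp only [dcr_eq, map_smul, Finset.smul_sum]
  refine Finset.sum_congr rfl fun m _ => ?_
  rw [smul_comm a]
  congr 1

lemma tc_crl (b : B0 c) {n : V →ₗ[ℝ] TT D} (h : ∀ v, TC c (n v)) (v w : V) :
    TC c (crl n v w) := by
  rw [crl, sub_eq_add_neg, ← neg_one_smul ℝ]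
  exact b.ba.tc_add _ _ (b.ba.tc_der _ _ (h v)) (b.ba.tc_smul _ _ (b.ba.tc_der _ _ (h w)))

lemma tc_dcr (b : B0 c) {n : V →ₗ[ℝ] TT D} (h : ∀ v, TC c (n v)) (v : V) : TC c (dcr n v) := by
  rw [dcr_eq]
  exact Finset.sum_induction _ _ (b.ba.tc_add) b.ba.tc0 fun m _ =>
    b.ba.tc_smul _ _ (b.ba.tc_der _ _ (tc_crl b h _ _))

/-- covariance of the curl -/
def Cv (c : Ctx D) (n : V →ₗ[ℝ] TT D) : Prop := ∀ s L v v', 0 < s → IsLor L →
  act c s L (crl n v v') = crl n (sim 1 L 0 v) (sim 1 L 0 v')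

lemma act_dcr (b : B0 c) {n : V →ₗ[ℝ] TT D} (h : Cv c n) {s : ℝ} {L : Ix → V} (hs : 0 < s)
    (hL : IsLor L) (v : V) : act c s L (dcr n v) = dcr n (sim s L 0 v) := by
  rw [sim_smul, dcr_smul, dcr_eq n v, dcr_eq n (sim 1 L 0 v),
    ← eta_inv b.ten (cD (cB n (sim 1 L 0 v))) hL, map_sum, Finset.smul_sum]
  refine Finset.sum_congr rfl fun m _ => ?_
  rw [map_smul, smul_comm]
  congr 1
  change act c s L (crl n v (bas m 1) ∘L KDa.dS (bas m 1)) = _
  rw [b.ba.der s L _ _ hs hL, h s L _ _ hs hL]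
  rfl

lemma mu_act {F : V → ℂ} (hF : Measurable F) {x : TT D} (h : Mu c F x) {L : Ix → V}
    (hL : IsLor L) : Mu c (fun p => F (Kin.du 1 L p)) (act c 1 L x) := by
  obtain ⟨m, C, h⟩ := h
  obtain ⟨C', m', hC', h'⟩ := ST.clm_sn' ((pS 1 L).restrictScalars ℝ) m
  refine ⟨m', |C| * C', fun f => ?_⟩
  have e := Kin.nu_U c.bR c.ct one_pos hL 0 (x (pS 1 L f))
  have h1 := h (pS 1 L f)
  rw [show c.nu (x (pS 1 L f)) = _ from e.symm,
    lintegral_map (by fun_prop) (Kin.du_meas 1 L)] at h1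
  rw [act_apply, Ug_apply _ one_pos hL]
  refine h1.trans (ENNReal.ofReal_le_ofReal ?_)
  rw [← sq_abs, abs_mul, abs_of_nonneg (Lie.sn_nonneg _ _), mul_assoc]
  refine pow_le_pow_left₀ (mul_nonneg (abs_nonneg _) (Lie.sn_nonneg _ _))
    (mul_le_mul_of_nonneg_left ?_ (abs_nonneg _)) 2
  rw [Api4.sn_eq, Api4.sn_eq]
  exact h' f

lemma sw_a (t : TEN) : sim 1 sw 0 va = vb := by
  rw [← pt_eta va, t.sw.2]
  refine null_ext (by simp) (by simp) ?_
  rw [tx_pt, tx_va, tx_vb]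
  ext i
  fin_cases i <;> simp

lemma gap_a (w : R2) : gap w va = va := null_ext (by simp) (by simp) (by simp)

lemma scp_a (r s : ℝ) : scp r s va = r • va := null_ext (by simp) (by simp) (by simp)

theorem mu_a (b : B0 c) (cv : CVX c) {n : V →ₗ[ℝ] TT D} (h : ∀ v, TC c (n v)) (hc : Cv c n) :
    Mu c (fun p => ((mu p * be p)⁻¹ : ℝ)) (dcr n va) := by
  obtain ⟨κ, hκ, e⟩ := cv (dcr n va) 1 0 (tc_dcr b h va)
    (fun w => by rw [act_dcr b hc one_pos (b.ten.lg w).1, (b.ten.lg w).2.1, gap_a])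
    (fun r s hr hs => by
      rw [act_dcr b hc (Real.sqrt_pos.2 (mul_pos hr hs)) (b.ten.lsc r s hr hs).1,
        (b.ten.lsc r s hr hs).2.1, scp_a, dcr_smul, Real.rpow_one, Real.rpow_zero, mul_one])
    (by norm_num)
  obtain ⟨m, C, hb⟩ := l2
  refine ⟨m, Real.sqrt κ * C, fun f => ?_⟩
  have hm := (cont_ft (f := ev f) ⟨f, rfl⟩).measurable
  rw [e f, lintegral_withDensity_eq_lintegral_mul _ (by fun_prop) (by fun_prop), mul_assoc, mul_pow,
    Real.sq_sqrt hκ, ENNReal.ofReal_mul hκ]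
  refine le_trans ?_ (mul_le_mul_right (hb f) _)
  rw [← lintegral_const_mul _ (by fun_prop)]
  refine le_trans (lintegral_mono_ae ?_) (lintegral_mono' Measure.restrict_le_self le_rfl)
  filter_upwards [ae_restrict_mem meas_Fc] with p hp
  obtain ⟨h1, h2⟩ := (mem_Fc p).1 hp
  rw [Pi.mul_apply, ← ENNReal.ofReal_mul (by positivity), ← ENNReal.ofReal_mul hκ]
  refine ENNReal.ofReal_le_ofReal (le_of_eq ?_)
  rw [Complex.norm_real, Real.norm_eq_abs, sq_abs]
  norm_num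
  field_simp

theorem mu_b (b : B0 c) (cv : CVX c) {n : V →ₗ[ℝ] TT D} (h : ∀ v, TC c (n v)) (hc : Cv c n) :
    Mu c (fun p => ((mu p * al p)⁻¹ : ℝ)) (dcr n vb) := by
  have := mu_act (by fun_prop) (mu_a b cv h hc) b.ten.sw.1
  rw [act_dcr b hc one_pos b.ten.sw.1, sw_a b.ten] at this
  convert this using 4 with p
  rw [mu, mu, be, Kin.du_sq _ b.ten.sw.1, Kin.du_pair' _ b.ten.sw.1, sw_a b.ten, one_pow, one_mul,
    al]

lemma meas0 : MeasurableSet {p : V | mu p = 0} := measurableSet_eq_fun meas_mu measurable_const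

/-- the massless part of the curl -/
def Z (c : Ctx D) (n : V →ₗ[ℝ] TT D) : V →ₗ[ℝ] V →ₗ[ℝ] TT D :=
  (cB n).compr₂ ⟨⟨fun x => c.bt.P {p | mu p = 0} ∘L x, ContinuousLinearMap.comp_add _⟩,
    fun a x => ContinuousLinearMap.comp_smul _ a x⟩

lemma Z_apply (n : V →ₗ[ℝ] TT D) (v w : V) (f : Sch) :
    Z c n v w f = c.bt.P {p | mu p = 0} (crl n v w f) := rfl

lemma Z_swap (n : V →ₗ[ℝ] TT D) (v w : V) : Z c n v w = -Z c n w v := by
  ext f
  simp [Z_apply, crl]

lemma Z_lor {n : V →ₗ[ℝ] TT D} (hc : Cv c n) {L : Ix → V} (hL : IsLor L) {v w : V}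
    (h : Z c n v w = 0) : Z c n (sim 1 L 0 v) (sim 1 L 0 w) = 0 := by
  ext f
  have e := Kin.U_P c.bR c.ct one_pos hL 0 meas0 (crl n v w (pS 1 L f))
  rw [show Kin.du 1 L ⁻¹' {p | mu p = 0} = {p | mu p = 0} from Set.ext fun p => by
    simp only [Set.mem_preimage, Set.mem_setOf_eq, mu, Kin.du_sq _ hL, one_pow, one_mul]] at e
  rw [Z_apply, ← hc 1 L v w one_pos hL, act_apply, Ug_apply _ one_pos hL]
  refine e.symm.trans ?_
  rw [← Ug_apply _ one_pos hL]
  exact (congrArg (Ug c.Q 1 L 0) (DFunLike.congr_fun h (pS 1 L f))).trans (map_zero _)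

lemma Z_a (b : B0 c) (cv : CVX c) {n : V →ₗ[ℝ] TT D} (h : ∀ v, TC c (n v)) (hc : Cv c n)
    (i : Fin 2) : Z c n va (ex i) = 0 := by
  have aa : cB n va va = 0 := sub_self _
  obtain ⟨κ, hκ, e⟩ := cv (crl n va (ex i)) (1 / 2) (-1 / 2) (tc_crl b h _ _)
    (fun w => by
      rw [hc _ _ _ _ one_pos (b.ten.lg w).1, (b.ten.lg w).2.1, (b.ten.lg w).2.1, gap_a,
        show gap w (ex i) = ex i + w i • va from null_ext (by simp) (by simp) (by simp),
        ← cB_apply, map_add, map_smul, aa, smul_zero, add_zero, cB_apply])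
    (fun r s hr hs => by
      have p := Real.sqrt_pos.2 (mul_pos hr hs)
      have k : ∀ z, sim 1 (Lsc r s) 0 z = (Real.sqrt (r * s))⁻¹ • scp r s z := fun z => by
        rw [← (b.ten.lsc r s hr hs).2.1, sim_smul (s := Real.sqrt _), inv_smul_smul₀ p.ne']
      rw [hc _ _ _ _ p (b.ten.lsc r s hr hs).1, k, k, scp_a,
        show scp r s (ex i) = Real.sqrt (r * s) • ex i from null_ext (by simp) (by simp) (by simp),
        inv_smul_smul₀ p.ne', smul_smul, ← cB_apply, map_smul, LinearMap.smul_apply, cB_apply]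
      congr 1
      rw [neg_div, Real.rpow_neg hs.le, ← Real.sqrt_eq_rpow, ← Real.sqrt_eq_rpow,
        Real.sqrt_mul hr.le]
      have := Real.sqrt_pos.2 hr
      have := Real.sqrt_pos.2 hs
      field_simp
      exact (Real.sq_sqrt hr.le).symm)
    (by norm_num)
  ext f
  refine (c.bt.nu_eq_zero meas0 (crl n va (ex i) f)).1 ?_
  refine (e f ▸ withDensity_absolutelyContinuous _ _ :
    c.nu (crl n va (ex i) f) ≪ volume.restrict Fc) ?_
  rw [Measure.restrict_apply meas0, show {p : V | mu p = 0} ∩ Fc = ∅ from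
    Set.eq_empty_of_forall_notMem fun p hp => ((mem_Fc p).1 hp.2).2.ne' hp.1, measure_empty]

theorem Z_zero (b : B0 c) (cv : CVX c) {n : V →ₗ[ℝ] TT D} (h : ∀ v, TC c (n v)) (hc : Cv c n) :
    Z c n = 0 := by
  have a := Z_a b cv h hc
  have sx : ∀ i, sim 1 sw 0 (ex i) = (![-1, 1] i : ℝ) • ex i := fun i => by
    rw [ex, tv, b.ten.sw.2]
    exact null_ext (by simp) (by simp) (by ext j; fin_cases i <;> fin_cases j <;> simp [e2, tv, pt])
  have a' : ∀ i, Z c n vb (ex i) = 0 := fun i => by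
    have := Z_lor hc b.ten.sw.1 (a i)
    rw [sw_a b.ten, sx, map_smul] at this
    exact (smul_eq_zero.1 this).resolve_left (by fin_cases i <;> simp)
  have k : ∀ (α β : ℝ) i, Z c n (α • va + β • vb) (ex i) = 0 := fun α β i => by
    simp only [map_add, map_smul, LinearMap.add_apply, LinearMap.smul_apply, a, a', smul_zero,
      add_zero]
  have e0 : (2⁻¹ : ℝ) • va + (1 : ℝ) • vb = bas 0 1 := by
    ext m; fin_cases m <;> norm_num [va, vb, bas]
  have e1 : (2⁻¹ : ℝ) • va + (-1 : ℝ) • vb = bas 1 1 := by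
    ext m; fin_cases m <;> norm_num [va, vb, bas]
  have h02 := ex_0 ▸ e0 ▸ k _ _ 0
  have h03 := ex_1 ▸ e0 ▸ k _ _ 1
  have h12 := ex_0 ▸ e1 ▸ k _ _ 0
  have h13 := ex_1 ▸ e1 ▸ k _ _ 1
  have h01 : Z c n (bas 0 1) (bas 1 1) = 0 := Z_lor hc b.ten.cyc.1 h03 ▸ by
    simp only [sim_bas]; rfl
  have h23 : Z c n (bas 2 1) (bas 3 1) = 0 := Z_lor hc b.ten.cyc.1 h12 ▸ by
    simp only [sim_bas]; rfl
  have hd : ∀ v, Z c n v v = 0 := fun v => by
    ext f
    simp [Z_apply, crl]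
  have hs : ∀ {v w}, Z c n v w = 0 → Z c n w v = 0 := fun e => by rw [Z_swap, e, neg_zero]
  have all : ∀ m l, Z c n (bas m 1) (bas l 1) = 0 := fun m l => by
    fin_cases m <;> fin_cases l
    exacts [hd _, h01, h02, h03, hs h01, hd _, h12, h13, hs h02, hs h12, hd _, h23, hs h03, hs h13,
      hs h23, hd _]
  refine LinearMap.ext₂ fun v w => ?_
  rw [bas_sum v, bas_sum w]
  simp only [map_sum, map_smul, LinearMap.sum_apply, LinearMap.smul_apply, all, smul_zero,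
    Finset.sum_const_zero, LinearMap.zero_apply]

end Crl

variable {D : Type*} [NormedAddCommGroup D] [InnerProductSpace ℂ D]

/-- **row CRL** -/
theorem crl_row (c : Ctx D) : B0 c → CVX c → CRL c := fun b cv n h hc =>
  ⟨Crl.mu_a b cv h hc, Crl.mu_b b cv h hc, fun v w f => by
    rw [← Crl.Z_apply, Crl.Z_zero b cv h hc]; rfl⟩

end

end Vale.Agent.P352X.TPD
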