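import Vale.Agent.P352X.TPD.Ut

/-!
# P352X, block TPD: row DIV
-/

set_option linter.all false

open MeasureTheory Filter Topology
open scoped SchwartzMap ComplexConjugate ENNReal ContDiff

namespace Vale.Agent.P352X.TPD

open Vale.Agent.P352 Vale.Agent.P352.GF Vale.Agent.P352.BW Vale.Agent.P352.H246
open Vale.Agent.P352.H496 Vale.Agent.P352.H755 Vale.Agent.P352.H15
open UniformSpace (Completion)
open Complex (I)

noncomputable section

namespace Dvr

lemma dS_comm (h k : V) (F : Sch) : KDa.dS h (KDa.dS k F) = KDa.dS k (KDa.dS h F) := by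
  ext z
  have h2 : ContDiffAt ℝ 2 F z := (F.smooth 2).contDiffAt
  have h3 : ∀ u v : V, fderiv ℝ (fun x => fderiv ℝ F x v) z u = fderiv ℝ (fderiv ℝ F) z u v :=
    fun u v => by
      rw [fderiv_clm_apply ((h2.fderiv_right (m := 1) le_rfl).differentiableAt one_ne_zero)
        (differentiableAt_const _)]
      simp
  exact (h3 h k).trans (((h2.isSymmSndFDerivAt (by simp)) h k).trans (h3 k h).symm)

variable {D : Type*} [NormedAddCommGroup D] [InnerProductSpace ℂ D] {c : Ctx D}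

/-- the gradient -/
def gd (x : TT D) : V →ₗ[ℝ] TT D where
  toFun v := x ∘L KDa.dS v
  map_add' v w := ContinuousLinearMap.ext fun f => (congrArg x (by
    ext z
    exact map_add (fderiv ℝ f z) v w)).trans (map_add x _ _)
  map_smul' a v := ContinuousLinearMap.ext fun f => (congrArg x (by
    ext z
    exact map_smul (fderiv ℝ f z) a v)).trans (x.map_smul_of_tower a _)

lemma dvg_gd (x : TT D) : dvg (fun v => gd x v) = x ∘L bx := by
  ext1 f
  simp [dvg, bx, gd]

lemma dvg_act (b : B0 c) {s : ℝ} {L : Ix → V} (hs : 0 < s) (hL : IsLor L) {n n' : V →ₗ[ℝ] TT D}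
    (h : ∀ v, s • act c s L (n' v) = n (sim 1 L 0 v)) :
    act c s L (dvg fun v => n' v) = dvg fun v => n v := by
  have e : ∀ m, sim 1 L 0 (bas m 1) = ∑ a, L m a • bas a 1 := fun m => funext fun a => by
    simp [sim, bas, Finset.sum_apply]
  have e1 : ∀ m, act c s L (n' (bas m 1) ∘L KDa.dS (bas m 1)) =
      ∑ a, ∑ a', (L m a * L m a') • gd (n (bas a 1)) (bas a' 1) := fun m => by
    rw [b.ba.der s L _ _ hs hL, ← ContinuousLinearMap.smul_comp, h, e, map_sum,
      ContinuousLinearMap.finsetSum_comp]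
    refine Finset.sum_congr rfl fun a _ => ?_
    rw [map_smul, ContinuousLinearMap.smul_comp]
    change L m a • gd _ _ = _
    simp only [map_sum, map_smul, Finset.smul_sum, smul_smul]
  simp only [dvg, map_sum, map_smul, e1, Finset.smul_sum, smul_smul]
  rw [Finset.sum_comm]
  refine Finset.sum_congr rfl fun a _ => ?_
  rw [Finset.sum_comm]
  simp only [← Finset.sum_smul, ← mul_assoc]
  have e2 := fun a' => (b.ten.tra L hL).1 a a'
  simp only [GF.mdot] at e2
  simp [e2, bas, gd]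

lemma P_ug (b : B0 c) {s : ℝ} {L : Ix → V} (hs : 0 < s) (hL : IsLor L) {S : Set ℝ}
    (hS : MeasurableSet S) (h : ∀ t, s ^ 2 * t ∈ S ↔ t ∈ S) (z : Completion D) :
    c.bt.P (mu ⁻¹' S) (Ug c.Q s L 0 z) = Ug c.Q s L 0 (c.bt.P (mu ⁻¹' S) z) := by
  obtain ⟨M, hM, -, e⟩ := b.ten.inv L hL
  have e1 : ∀ p, sim 1 L 0 (sim 1 M 0 p) = p := fun p => by rw [← T.sim_cm, e, sim_id]
  have m0 : Measurable (mu : V → ℝ) := by unfold mu GF.mdot; fun_prop
  refine Eq.symm ((c.bt.cov c.bt SN.isPair_mdot (k := fun p => s • sim 1 M 0 p)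
    (A := sim s L 0) (by unfold sim; fun_prop) (fun p y => ?_) _ (w := Ug c.Q s L 0 z)
    (fun y => ?_) (SN.Bd.ind (m0 hS))).trans ?_)
  · rw [sim_s s, mdot_smul, H755.mdot_comm, mdot_smul, ← mdot_sim hL, e1, H755.mdot_comm]
  · rw [← ContinuousLinearMap.mul_apply, ← ContinuousLinearMap.mul_apply, Ut, Ut,
      b.grp.mul _ _ _ _ _ _ hs one_pos hL (lor_one b.ten),
      b.grp.mul _ _ _ _ _ _ one_pos hs (lor_one b.ten) hL, mul_one, one_mul, sim_one', zero_add]
    congr 2
    exact (one_cm L).trans (cm_one L).symm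
  · refine congrArg (c.bt.Phi · _) (funext fun p => ?_)
    have e2 : mu (s • sim 1 M 0 p) = s ^ 2 * mu p := by
      rw [mu, mdot_smul, H755.mdot_comm, mdot_smul, mdot_sim hM, mu, pow_two, mul_assoc]
    classical
    simp only [Set.indicator_apply, Set.mem_preimage, e2, h]

lemma pot_act (b : B0 c) {s : ℝ} {L : Ix → V} (hs : 0 < s) (hL : IsLor L) {n n' : V →ₗ[ℝ] TT D}
    (h : ∀ v, s • act c s L (n' v) = n (sim 1 L 0 v)) {m : TT D} (hm : Pot c n' m) :
    Pot c n (s ^ 2 • act c s L m) := by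
  have P0 := P_ug b hs hL (measurableSet_singleton 0) (by simp [hs.ne'])
  have P1 := P_ug b hs hL (measurableSet_singleton 0).compl (by simp [hs.ne'])
  have g : ∀ v, s • act c s L (gd m v) = gd (s ^ 2 • act c s L m) (sim 1 L 0 v) := fun v => by
    change s • act c s L (m ∘L _) = _ ∘L _
    rw [b.ba.der s L _ _ hs hL, smul_smul, ContinuousLinearMap.smul_comp, pow_two]
  refine ⟨b.ba.tc_smul _ _ (b.ba.tc_act _ _ _ hs hL hm.tc), fun f => ?_, fun v f => ?_⟩
  · rw [← ContinuousLinearMap.comp_apply _ bx, ← dvg_gd, ← dvg_act b hs hL g, ← dvg_act b hs hL h,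
      dvg_gd]
    exact (P1 _).trans ((congrArg _ (hm.pos _)).trans (P1 _).symm)
  · obtain ⟨M, hM, -, e⟩ := b.ten.inv L hL
    rw [← sim_id v, ← e, T.sim_cm, ← h]
    refine (congrArg (fun x : TT D => c.bt.P _ (x f)) (g _).symm).trans ?_
    simp only [ContinuousLinearMap.smul_apply, ContinuousLinearMap.map_smul_of_tower]
    exact congrArg _ ((P0 _).trans ((congrArg _ (hm.nul _ _)).trans (P0 _).symm))

lemma pot_add (b : B0 c) {n n' : V →ₗ[ℝ] TT D} {m x : TT D} (hx : TC c x)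
    (h : ∀ v, n v - n' v = x ∘L KDa.dS v) (hm : Pot c n' m) : Pot c n (m + x) := by
  have e : ∀ v, n v = n' v + gd x v := fun v => (sub_eq_iff_eq_add'.1 (h v))
  refine ⟨b.ba.tc_add _ _ hm.tc hx, fun f => ?_, fun v f => ?_⟩
  · rw [ContinuousLinearMap.add_apply, map_add, hm.pos, ← map_add,
      ← ContinuousLinearMap.comp_apply x, ← dvg_gd]
    simp [dvg, e, Finset.sum_add_distrib]
  · rw [e, ContinuousLinearMap.add_apply, ContinuousLinearMap.add_apply, map_add, map_add, hm.nul]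
    rfl

end Dvr

open Dvr

variable {D : Type*} [NormedAddCommGroup D] [InnerProductSpace ℂ D]

theorem div_row (c : Ctx D) (b : B0 c) (irn : IRN c) (pot : POT c) (cr : CRL c) : DIV c := by
  intro n cc h1 h2 h3 h4 h5
  obtain ⟨N, hN⟩ : ∃ N : EC → V →ₗ[ℝ] TT D, ∀ η v, N η v = n v η :=
    ⟨fun η => (LinearMap.proj η).comp n, fun _ _ => rfl⟩
  simp only [← hN] at h1 h2 h4
  replace h5 : ∀ (s : ℝ) L (η : EC), 0 < s → IsLor L → ∀ v,
      s • act c s L (N (η.pull s L) v) = N η (sim 1 L 0 v) := fun s L η hs hL v => by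
    rw [hN, hN, ← h5 s L v hs hL]
    rfl
  have e1 : ∀ η η' v v', crl (N η) v v' = crl (N η') v v' := fun η η' v v' => by
    ext1 f
    simp [crl, sub_eq_iff_eq_add.1 (h4 _ η η'), dS_comm v v']
  have ex : ∀ η, ∃ m, Pot c (N η) m := fun η => by
    obtain ⟨a1, a2, a3⟩ := cr (N η) (h1 · η) fun s L v v' hs hL => by
      rw [e1 η (η.pull s L), crl, map_sub, b.ba.der s L _ _ hs hL, b.ba.der s L _ _ hs hL,
        ← ContinuousLinearMap.smul_comp, ← ContinuousLinearMap.smul_comp, h5 s L η hs hL,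
        h5 s L η hs hL, crl]
    refine pot.ex _ (h1 · η) (fun v => irn _ ((2 : ℝ) ^ 2 • act c 2 GF.one
      (cc (η.pull 2 GF.one) η)) v (h1 v η) (b.ba.tc_smul _ _ (b.ba.tc_act _ _ _ two_pos
        (lor_one b.ten) (h3 _ _))) ?_) a1 a2 a3
    have a4 := h5 2 _ η two_pos (lor_one b.ten) v
    rw [sim_id, sub_eq_iff_eq_add'.1 (h4 v _ η), map_add, b.ba.der _ _ _ _ two_pos (lor_one b.ten),
      sim_id, smul_add, smul_smul, ← pow_two, ← ContinuousLinearMap.smul_comp] at a4
    exact a4.symm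
  choose m hm using ex
  exact ⟨m, fun η => ⟨(hm η).tc, pot.loc _ _ _ (h1 · η) (h2 · η) (hm η)⟩,
    fun η η' => sub_eq_iff_eq_add'.2 (pot.uq _ _ _ (hm η)
      (pot_add b (h3 η η') (h4 · η η') (hm η'))),
    fun s L hs hL => funext fun η => pot.uq _ _ _ (pot_act b hs hL (h5 s L η hs hL) (hm _)) (hm η)⟩

end

end Vale.Agent.P352X.TPD
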