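import Vale.Agent.P352X.TPD.EQ2

/-!
# P352X, block TPD, row EQ1: constant and linear sources are pure gauge
-/

set_option linter.all false

namespace Vale.Agent.P352X.TPD

open Vale.Agent.P352 Vale.Agent.P352.GF Vale.Agent.P352.H755

noncomputable section

namespace Eq1

open Eq2 Sum

lemma hd (u : V) (m k : Ix) :
    HasDerivAt (fun t => (u + bas m t) k) (if k = m then 1 else 0) 0 := by
  simp only [Pi.add_apply, bas]
  split_ifs
  · exact (hasDerivAt_id _).const_add _
  · exact hasDerivAt_const _ _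

def z0 : Fin 3 ⊕ Fin 1 ≃ Fin 4 ⊕ Fin 0 :=
  Equiv.ofBijective (Sum.elim ![inl 1, inl 2, inl 3] ![inl 0]) (by decide)

lemma dpol1 (ξ : Tn (Fin 3 ⊕ Fin 1)) (u : V) (m : Ix) (ν : Fin 3 → Ix) :
    dr m (fun v => pol ξ v ν) u = ξ (Sum.elim ν ![m]) := by
  have : (fun t => pol ξ (u + bas m t) ν) = fun t => ∑ a,
      ξ (Sum.elim ν ![a]) * (u + bas m t) a := by
    funext t; simp only [pol, sumS, Fintype.sum_unique, Fin.prod_univ_one]; rfl
  rw [dr, this, (HasDerivAt.fun_sum fun a _ => (hd u m a).const_mul _).deriv]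
  simp

lemma dpol2 (ξ : Tn (Fin 3 ⊕ Fin 2)) (u : V) (m : Ix) (ν : Fin 3 → Ix) :
    dr m (fun v => pol ξ v ν) u =
      ∑ g, (ξ (Sum.elim ν ![m, g]) + ξ (Sum.elim ν ![g, m])) * u g := by
  have h0 : ∀ k, (u + bas m 0) k = u k := fun k => by simp [bas]
  have : (fun t => pol ξ (u + bas m t) ν) = fun t => ∑ a, ∑ b,
      ξ (Sum.elim ν ![a, b]) * ((u + bas m t) a * (u + bas m t) b) := by
    funext t; simp only [pol, sum2, Fin.prod_univ_two]; rfl
  rw [dr, this, (HasDerivAt.fun_sum fun a _ => HasDerivAt.fun_sum fun b _ =>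
    ((hd u m a).fun_mul (hd u m b)).const_mul _).deriv]
  simp only [h0, mul_add, add_mul, Finset.sum_add_distrib, ite_mul, mul_ite, zero_mul, mul_zero,
    one_mul, mul_one, Finset.sum_ite_eq', Finset.mem_univ, if_true]
  congr 1
  rw [Finset.sum_eq_single m (fun a _ h => by simp [h]) (by simp)]; simp

abbrev I5 := Fin 4 ⊕ Fin 1
abbrev J5 := Fin 3 ⊕ Fin 2

def eq5 (f : I5 → J5) (h : Function.Bijective f) : I5 ≃ J5 := Equiv.ofBijective f h

def y1 : I5 ≃ J5 := eq5 (Sum.elim ![inl 0, inr 0, inl 1, inl 2] ![inr 1]) (by decide)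
def y2 : I5 ≃ J5 := eq5 (Sum.elim ![inr 0, inl 0, inl 1, inl 2] ![inr 1]) (by decide)
def y3 : I5 ≃ J5 := eq5 (Sum.elim ![inr 0, inr 1, inl 1, inl 2] ![inl 0]) (by decide)
def y4 : I5 ≃ J5 := eq5 (Sum.elim ![inr 1, inr 0, inl 1, inl 2] ![inl 0]) (by decide)

abbrev i5 (m n r s g : Ix) : I5 → Ix := Sum.elim ![m, n, r, s] ![g]
abbrev j5 (n r s a b : Ix) : J5 → Ix := Sum.elim ![n, r, s] ![a, b]

def sg : Tn I5 →ₗ[ℝ] Tn J5 := (1 / 2 : ℝ) • (rx y1 + rx y2) - (1 / 4 : ℝ) • (rx y3 + rx y4)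

lemma sg_apply (h : Tn I5) (n r s a b : Ix) : sg h (j5 n r s a b) =
    (h (i5 n a r s b) + h (i5 a n r s b)) / 2 - (h (i5 a b r s n) + h (i5 b a r s n)) / 4 := by
  have h1 : j5 n r s a b ∘ y1 = i5 n a r s b := by
    funext i; rcases i with i | i <;> fin_cases i <;> rfl
  have h2 : j5 n r s a b ∘ y2 = i5 a n r s b := by
    funext i; rcases i with i | i <;> fin_cases i <;> rfl
  have h3 : j5 n r s a b ∘ y3 = i5 a b r s n := by
    funext i; rcases i with i | i <;> fin_cases i <;> rfl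
  have h4 : j5 n r s a b ∘ y4 = i5 b a r s n := by
    funext i; rcases i with i | i <;> fin_cases i <;> rfl
  simp only [sg, LinearMap.sub_apply, LinearMap.smul_apply, LinearMap.add_apply, Pi.sub_apply,
    Pi.smul_apply, Pi.add_apply, rx_apply, h1, h2, h3, h4, smul_eq_mul]
  ring

end Eq1

open Eq1 Eq2 in
theorem eq1_row (T : TEN) : EQ1 := by
  intro k hk
  interval_cases k
  · refine ⟨rx z0.symm, fun L h hL => ev_rx T _ L h hL, fun h u => congrArg sy ?_⟩
    funext ν; obtain ⟨m, n, r, s, rfl⟩ := ex4 ν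
    change _ = dr m (fun v => pol (rx z0.symm h) v ![n, r, s]) u
    rw [dpol1, rx_apply]
    simp only [pol, Fintype.sum_unique, Finset.univ_eq_empty, Finset.prod_empty, mul_one]
    congr 1
    rw [Equiv.eq_comp_symm]
    funext i; rcases i with i | i <;> fin_cases i <;> rfl
  · refine ⟨sg, fun L h hL => ?_, fun h u => ?_⟩
    · simp only [sg, LinearMap.sub_apply, LinearMap.smul_apply, LinearMap.add_apply,
        ev_rx T _ L h hL, map_sub, map_smul, map_add]
    · funext ν; obtain ⟨m, n, r, s, rfl⟩ := ex4 ν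
      have h1 : ∀ m n r s, pol h u ![m, n, r, s] = ∑ g, h (i5 m n r s g) * u g := fun m n r s => by
        simp only [pol, sumS, Fintype.sum_unique, Fin.prod_univ_one]; rfl
      have h2 : ∀ m n r s, d1 (pol (sg h)) u ![m, n, r, s] =
          ∑ g, (sg h (j5 n r s m g) + sg h (j5 n r s g m)) * u g := fun m n r s =>
        dpol2 (sg h) u m ![n, r, s]
      simp only [sy4, h1, h2, sg_apply, ← Finset.sum_add_distrib]
      exact Finset.sum_congr rfl fun g _ => by ring

end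

end Vale.Agent.P352X.TPD
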