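import Vale.Agent.P352X.TPD.Spec

/-!
# P352X, block TPD, row EQ2: quadratic sources are pure gauge up to `u^2 η ⊗ k`
-/

set_option linter.all false

open scoped Matrix

namespace Vale.Agent.P352X.TPD

open Vale.Agent.P352 Vale.Agent.P352.GF Vale.Agent.P352.H755

noncomputable section

namespace Eq2

/-! ## the combinatorial part -/

lemma rep5 : ∀ i j k l m : Ix, i = j ∨ k = l ∨ i = k ∨ i = l ∨ j = k ∨ j = l ∨ i = m ∨ j = m ∨
    k = m ∨ l = m := by decide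

lemma rep4 : ∀ a k l m n : Ix, k = a ∨ l = a ∨ m = a ∨ n = a ∨ k = l ∨ m = n ∨ k = m ∨ k = n ∨
    l = m ∨ l = n := by decide

lemma univ4 : ∀ r s m g : Ix, r ≠ s → r ≠ m → r ≠ g → s ≠ m → s ≠ g → m ≠ g →
    (Finset.univ : Finset Ix) = {r, s, m, g} := by decide

lemma sum4 {r s m g : Ix} (h1 : r ≠ s) (h2 : r ≠ m) (h3 : r ≠ g) (h4 : s ≠ m) (h5 : s ≠ g)
    (h6 : m ≠ g) (f : Ix → ℝ) : ∑ i, f i = f r + f s + f m + f g := by
  rw [univ4 r s m g h1 h2 h3 h4 h5 h6, Finset.sum_insert (by simp [*]),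
    Finset.sum_insert (by simp [*]), Finset.sum_pair h6]
  ring

lemma eta_ne (m : Ix) : eta m ≠ 0 := by unfold eta; split_ifs <;> norm_num

lemma exch (R : Ix → Ix → Ix → Ix → ℝ) (s1 : ∀ a b e f, R a b e f = R b a e f)
    (s2 : ∀ a b e f, R a b e f = R a b f e)
    (cy : ∀ n a b c, R a n b c + R b n a c + R c n a b = 0) (a b e f : Ix) :
    R a b e f = R e f a b := by
  linarith [cy b a e f, cy a b e f, cy e f a b, cy f e a b, s1 a b e f, s1 e f a b, s1 e b a f,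
    s2 b e a f, s2 f b a e, s1 f b a e, s1 e a b f, s2 a e b f, s1 f a b e, s2 a f b e,
    s2 b f a e, s2 b f e a]

lemma comb (A : Ix → Ix → Ix → Ix → Ix → Ix → ℝ)
    (s1 : ∀ m n r s g d, A m n r s g d = A n m r s g d)
    (s2 : ∀ m n r s g d, A m n r s g d = A m n s r g d)
    (s3 : ∀ m n r s g d, A m n r s g d = A m n r s d g)
    (c1 : ∀ n r s a b c, A a n r s b c + A b n r s a c + A c n r s a b = 0)
    (c3 : ∀ m n s a b c, A m n a s b c + A m n b s a c + A m n c s a b = 0)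
    (tr : ∀ r s, ∑ m, ∑ g, eta m * eta g * A m m r s g g = 0) (i j k l m n : Ix) :
    A i j k l m n = 0 := by
  have x13 : ∀ m n r s g d, A m n r s g d = A g d r s m n := fun m n r s g d =>
    exch (fun a b e f => A a b r s e f) (fun _ _ _ _ => s1 ..) (fun _ _ _ _ => s3 ..)
      (fun n a b c => c1 n r s a b c) m n g d
  have x23 : ∀ m n r s g d, A m n r s g d = A m n g d r s := fun m n r s g d =>
    exch (fun a b e f => A m n a b e f) (fun _ _ _ _ => s2 ..) (fun _ _ _ _ => s3 ..)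
      (fun s a b c => c3 m n s a b c) r s g d
  have x12 : ∀ m n r s g d, A m n r s g d = A r s m n g d := fun m n r s g d => by
    rw [x23, x13, x23]
  have M23 : ∀ m n a b c, A m n a b a c = -A m n a a b c / 2 := fun m n a b c => by
    linarith [c3 m n a a b c, s2 m n b a a c, x23 m n c a a b, s3 m n a b c a]
  have M13 : ∀ r s a b c, A a b r s a c = -A a a r s b c / 2 := fun r s a b c => by
    rw [x12, M23, x12]
  have M12 : ∀ g d a b c, A a b a c g d = -A a a b c g d / 2 := fun g d a b c => by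
    rw [x23, M13, x23]
  have Z3 : ∀ a r s b, A a a r s a b = 0 := fun a r s b => by linarith [M13 r s a a b]
  have Z2 : ∀ a b g d, A a a a b g d = 0 := fun a b g d => by rw [x23, Z3]
  have Z2' : ∀ a b g d, A a a b a g d = 0 := fun a b g d => by rw [s2, Z2]
  have Z3' : ∀ a r s b, A a a r s b a = 0 := fun a r s b => by rw [s3, Z3]
  have Y2 : ∀ a b g d, A g d a b a a = 0 := fun a b g d => by rw [x13, Z2]
  have Y2' : ∀ a b g d, A g d b a a a = 0 := fun a b g d => by rw [x13, Z2']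
  have w : ∀ a b c, A a a b b c c = 0 := by
    have t0 := tr 0 0
    have t1 := tr 1 1
    have t2 := tr 2 2
    have t3 := tr 3 3
    have e0 : eta 0 = 1 := rfl
    have e1 : eta 1 = -1 := rfl
    have e2 : eta 2 = -1 := rfl
    have e3 : eta 3 = -1 := rfl
    simp only [Fin.sum_univ_four, Z2, Z3, Y2, e0, e1, e2, e3] at t0 t1 t2 t3
    have p : ∀ a b c, A a a b b c c = 0 → A a a c c b b = 0 ∧ A b b a a c c = 0 ∧
        A b b c c a a = 0 ∧ A c c a a b b = 0 ∧ A c c b b a a = 0 := fun a b c h =>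
      ⟨by rw [x23, h], by rw [x12, h], by rw [x23, x12, h], by rw [x12, x23, h], by rw [x13, h]⟩
    have q : ∀ a b c, A a a c c b b = A a a b b c c ∧ A b b a a c c = A a a b b c c ∧
        A b b c c a a = A a a b b c c ∧ A c c a a b b = A a a b b c c ∧
        A c c b b a a = A a a b b c c := fun a b c =>
      ⟨by rw [x23], by rw [x12], by rw [x23, x12], by rw [x12, x23], by rw [x13]⟩
    obtain ⟨a1, a2, a3, a4, a5⟩ := q 0 1 2
    obtain ⟨b1, b2, b3, b4, b5⟩ := q 0 1 3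
    obtain ⟨d1, d2, d3, d4, d5⟩ := q 0 2 3
    obtain ⟨f1, f2, f3, f4, f5⟩ := q 1 2 3
    have a0 : A 0 0 1 1 2 2 = 0 := by linarith
    have b0 : A 0 0 1 1 3 3 = 0 := by linarith
    have d0 : A 0 0 2 2 3 3 = 0 := by linarith
    have f0 : A 1 1 2 2 3 3 = 0 := by linarith
    rw [a0] at a1 a2 a3 a4 a5
    rw [b0] at b1 b2 b3 b4 b5
    rw [d0] at d1 d2 d3 d4 d5
    rw [f0] at f1 f2 f3 f4 f5
    intro a b c
    fin_cases a <;> fin_cases b <;> fin_cases c <;>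
      first | exact Z2 _ _ _ _ | exact Z3 _ _ _ _ | exact Y2 _ _ _ _ | assumption
  have t : ∀ m r s g, A m m r s g g = 0 := by
    intro m r s g
    by_cases h1 : r = s
    · rw [h1, w]
    by_cases h2 : r = m
    · rw [h2, Z2]
    by_cases h3 : r = g
    · rw [h3, Y2]
    by_cases h4 : s = m
    · rw [h4, Z2']
    by_cases h5 : s = g
    · rw [h5, Y2']
    by_cases h6 : m = g
    · rw [h6, Z3]
    have h := tr r s
    simp only [sum4 h1 h2 h3 h4 h5 h6, Z2, Z2', Z3, Y2, Y2', x13 g g r s m m] at h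
    have h' : (2 * (eta m * eta g)) * A m m r s g g = 0 := by linarith
    exact (mul_eq_zero.1 h').resolve_left (mul_ne_zero two_ne_zero (mul_ne_zero (eta_ne _) (eta_ne _)))
  have t' : ∀ m g r s, A m m g g r s = 0 := fun m g r s => by rw [x23, t]
  have u : ∀ a k l m n, A a a k l m n = 0 := by
    intro a k l m n
    rcases rep4 a k l m n with h | h | h | h | h | h | h | h | h | h <;> subst h
    exacts [Z2 .., Z2' .., Z3 .., Z3' .., t' .., t .., by rw [M23, t']; simp,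
      by rw [s3, M23, t']; simp, by rw [s2, M23, t']; simp, by rw [s2, s3, M23, t']; simp]
  have u2 : ∀ a k l m n, A k l a a m n = 0 := fun a k l m n => by rw [x12, u]
  rcases rep5 i j k l m with h | h | h | h | h | h | h | h | h | h <;> subst h
  exacts [u .., u2 .., by rw [M12, u]; simp, by rw [s2, M12, u]; simp, by rw [s1, M12, u]; simp,
    by rw [s1, s2, M12, u]; simp, by rw [M13, u]; simp, by rw [s1, M13, u]; simp,
    by rw [M23, u2]; simp, by rw [s2, M23, u2]; simp]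

/-! ## adjoints -/

section
variable {ι κ : Type} [Fintype ι] [DecidableEq ι] [Fintype κ] [DecidableEq κ]

/-- the euclidean adjoint -/
def adj (ψ : Tn ι →ₗ[ℝ] Tn κ) : Tn κ →ₗ[ℝ] Tn ι := Matrix.toLin' (LinearMap.toMatrix' ψ)ᵀ

lemma adj_dot (ψ : Tn ι →ₗ[ℝ] Tn κ) (x y) : x ⬝ᵥ adj ψ y = ψ x ⬝ᵥ y := by
  rw [adj, Matrix.toLin'_apply, Matrix.dotProduct_mulVec, Matrix.vecMul_transpose,
    ← Matrix.toLin'_apply, Matrix.toLin'_toMatrix']

/-- equivariant maps -/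
def Ev (ψ : Tn ι →ₗ[ℝ] Tn κ) : Prop := ∀ L h, IsLor L → ψ (pb L h) = pb L (ψ h)

lemma Ev.adj (T : TEN) {ψ : Tn ι →ₗ[ℝ] Tn κ} (e : Ev ψ) : Ev (adj ψ) := by
  intro L y hL
  refine dotProduct_eq _ _ fun x => ?_
  have h1 := T.adj κ L y (ψ x)
  have h2 := T.adj ι L (Eq2.adj ψ y) x
  change pb L y ⬝ᵥ ψ x = y ⬝ᵥ pb _ (ψ x) at h1
  change pb L (Eq2.adj ψ y) ⬝ᵥ x = Eq2.adj ψ y ⬝ᵥ pb _ x at h2
  rw [h2, dotProduct_comm, adj_dot, dotProduct_comm, h1, ← e _ _ (T.tra L hL),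
    dotProduct_comm (Eq2.adj ψ y), adj_dot, dotProduct_comm]

lemma gram (ψ : Tn ι →ₗ[ℝ] Tn κ) (y) : 0 ≤ ψ (adj ψ y) ⬝ᵥ y := by
  rw [← adj_dot]; exact Finset.sum_nonneg fun _ _ => mul_self_nonneg _

lemma gram0 (ψ : Tn ι →ₗ[ℝ] Tn κ) {y} (h : ψ (adj ψ y) ⬝ᵥ y = 0) (x) : ψ x ⬝ᵥ y = 0 := by
  rw [← adj_dot, dotProduct_self_eq_zero] at h
  rw [← adj_dot, h, dotProduct_zero]

/-- relabelling of the indices -/
def rx (e : ι ≃ κ) : Tn ι →ₗ[ℝ] Tn κ := LinearMap.funLeft ℝ ℝ fun ν => ν ∘ e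

lemma rx_apply (e : ι ≃ κ) (h : Tn ι) (ν) : rx e h ν = h (ν ∘ e) := rfl

lemma ev_rx (T : TEN) (e : ι ≃ κ) : Ev (rx e) := fun L h _ => (T.perm ι κ e L h).symm

lemma rx_dot (e : ι ≃ κ) (y : Tn κ) (ν : κ → Ix) : rx e (Pi.single (ν ∘ e) 1) ⬝ᵥ y = y ν := by
  have : rx e (Pi.single (ν ∘ e) 1) = Pi.single ν 1 := by
    funext μ
    have : μ ∘ e = ν ∘ e ↔ μ = ν := e.surjective.right_cancellable
    simp only [rx_apply, Pi.single_apply, this]
  rw [this, single_one_dotProduct]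

lemma Ev.add {ψ ψ' : Tn ι →ₗ[ℝ] Tn κ} (e : Ev ψ) (e' : Ev ψ') : Ev (ψ + ψ') := fun L h hL => by
  simp only [LinearMap.add_apply, e L h hL, e' L h hL, map_add]

lemma Ev.comp {τ : Type} [Fintype τ] [DecidableEq τ] {ψ : Tn ι →ₗ[ℝ] Tn κ} {ψ' : Tn τ →ₗ[ℝ] Tn ι}
    (e : Ev ψ) (e' : Ev ψ') : Ev (ψ ∘ₗ ψ') := fun L h hL => by
  simp only [LinearMap.comp_apply, e' L h hL, e L _ hL]

/-- the antisymmetric part -/
def an (e : ι ≃ ι) : Tn ι →ₗ[ℝ] Tn ι := LinearMap.id - rx e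

lemma ev_an (T : TEN) (e : ι ≃ ι) : Ev (an e) := fun L h hL => by
  simp only [an, LinearMap.sub_apply, LinearMap.id_apply, ev_rx T e L h hL, map_sub]

lemma an_dot (e : ι ≃ ι) {y : Tn ι} (h : ∀ x, an e x ⬝ᵥ y = 0) (ν) : y (ν ∘ e) = y ν := by
  have := h (Pi.single (ν ∘ e) 1)
  simp only [an, LinearMap.sub_apply, LinearMap.id_apply, sub_dotProduct, rx_dot,
    single_one_dotProduct] at this
  linarith

/-- tensor product -/
def tp (h : Tn ι) (h' : Tn κ) : Tn (ι ⊕ κ) := fun ν => h (ν ∘ Sum.inl) * h' (ν ∘ Sum.inr)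

lemma pb_tp (L : Ix → V) (h : Tn ι) (h' : Tn κ) : pb L (tp h h') = tp (pb L h) (pb L h') := by
  funext ν
  simp only [pb, tp, LinearMap.coe_mk, AddHom.coe_mk]
  rw [← (Equiv.sumArrowEquivProdArrow ι κ Ix).symm.sum_comp, Fintype.sum_prod_type,
    Finset.sum_mul_sum]
  refine Finset.sum_congr rfl fun a _ => Finset.sum_congr rfl fun b _ => ?_
  rw [Fintype.prod_sum_type]
  have h1 : ((Equiv.sumArrowEquivProdArrow ι κ Ix).symm (a, b)) ∘ Sum.inl = a := rfl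
  have h2 : ((Equiv.sumArrowEquivProdArrow ι κ Ix).symm (a, b)) ∘ Sum.inr = b := rfl
  rw [h1, h2]
  exact mul_mul_mul_comm _ _ _ _

end

/-! ## the gauge maps -/

open Sum

abbrev I6 := Fin 4 ⊕ Fin 2
abbrev J6 := Fin 3 ⊕ Fin 3

def eq6 (f : J6 → I6) (h : Function.Bijective f) : J6 ≃ I6 := Equiv.ofBijective f h

def a0 : J6 ≃ I6 := eq6 (Sum.elim ![inl 1, inl 2, inl 3] ![inl 0, inr 0, inr 1]) (by decide)
def a1 : J6 ≃ I6 := eq6 (Sum.elim ![inl 1, inl 2, inl 3] ![inr 0, inl 0, inr 1]) (by decide)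
def a2 : J6 ≃ I6 := eq6 (Sum.elim ![inl 1, inl 2, inl 3] ![inr 0, inr 1, inl 0]) (by decide)
def b0 : J6 ≃ I6 := eq6 (Sum.elim ![inl 0, inl 1, inl 3] ![inl 2, inr 0, inr 1]) (by decide)
def b1 : J6 ≃ I6 := eq6 (Sum.elim ![inl 0, inl 1, inl 3] ![inr 0, inl 2, inr 1]) (by decide)
def b2 : J6 ≃ I6 := eq6 (Sum.elim ![inl 0, inl 1, inl 3] ![inr 0, inr 1, inl 2]) (by decide)
def c0 : Fin 2 ⊕ Fin 2 ⊕ Fin 2 ≃ I6 := Equiv.ofBijective
  (Sum.elim ![inl 0, inl 1] (Sum.elim ![inl 2, inl 3] ![inr 0, inr 1])) (by decide)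
def p1 : I6 ≃ I6 := Equiv.swap (inl 0) (inl 1)
def p2 : I6 ≃ I6 := Equiv.swap (inl 2) (inl 3)
def p3 : I6 ≃ I6 := Equiv.swap (inr 0) (inr 1)

/-- six indices -/
abbrev i6 (m n r s g d : Ix) : I6 → Ix := Sum.elim ![m, n, r, s] ![g, d]
abbrev j6 (n r s a b c : Ix) : J6 → Ix := Sum.elim ![n, r, s] ![a, b, c]

section
variable (m n r s g d : Ix)
lemma a0e : i6 m n r s g d ∘ a0 = j6 n r s m g d := by
  funext i; rcases i with i | i <;> fin_cases i <;> rfl
lemma a1e : i6 m n r s g d ∘ a1 = j6 n r s g m d := by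
  funext i; rcases i with i | i <;> fin_cases i <;> rfl
lemma a2e : i6 m n r s g d ∘ a2 = j6 n r s g d m := by
  funext i; rcases i with i | i <;> fin_cases i <;> rfl
lemma b0e : i6 m n r s g d ∘ b0 = j6 m n s r g d := by
  funext i; rcases i with i | i <;> fin_cases i <;> rfl
lemma b1e : i6 m n r s g d ∘ b1 = j6 m n s g r d := by
  funext i; rcases i with i | i <;> fin_cases i <;> rfl
lemma b2e : i6 m n r s g d ∘ b2 = j6 m n s g d r := by
  funext i; rcases i with i | i <;> fin_cases i <;> rfl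
lemma p1e : i6 m n r s g d ∘ p1 = i6 n m r s g d := by
  funext i; rcases i with i | i <;> fin_cases i <;> rfl
lemma p2e : i6 m n r s g d ∘ p2 = i6 m n s r g d := by
  funext i; rcases i with i | i <;> fin_cases i <;> rfl
lemma p3e : i6 m n r s g d ∘ p3 = i6 m n r s d g := by
  funext i; rcases i with i | i <;> fin_cases i <;> rfl
end

def D1 : Tn J6 →ₗ[ℝ] Tn I6 := rx a0 + rx a1 + rx a2
def D3 : Tn J6 →ₗ[ℝ] Tn I6 := rx b0 + rx b1 + rx b2

def H0 : Tn (Fin 2) →ₗ[ℝ] Tn (Fin 2 ⊕ Fin 2 ⊕ Fin 2) where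
  toFun k := tp et (tp k et)
  map_add' k k' := funext fun ν => by simp only [tp, Pi.add_apply]; ring
  map_smul' a k := funext fun ν => by simp only [tp, Pi.smul_apply, smul_eq_mul, RingHom.id_apply]; ring

def HH : Tn (Fin 2) →ₗ[ℝ] Tn I6 := rx c0 ∘ₗ H0

lemma HH_apply (k : Tn (Fin 2)) (m n r s g d : Ix) :
    HH k (i6 m n r s g d) = bas m (eta m) n * (k ![r, s] * bas g (eta g) d) := by
  have : ((i6 m n r s g d ∘ c0) ∘ Sum.inr) ∘ Sum.inl = ![r, s] := by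
    funext i; fin_cases i <;> rfl
  change _ * (k _ * _) = _
  rw [this]; rfl

lemma ev_HH (T : TEN) : Ev HH := (ev_rx T c0).comp fun L k hL => by
  change tp et (tp (pb L k) et) = pb L (tp et (tp k et))
  rw [pb_tp, pb_tp, T.et L hL]

lemma sumS {n : ℕ} (f : (Fin (n + 1) → Ix) → ℝ) :
    ∑ γ, f γ = ∑ a, ∑ γ : Fin n → Ix, f (Matrix.vecCons a γ) := by
  rw [← (Fin.consEquiv fun _ => Ix).sum_comp, Fintype.sum_prod_type]; rfl

lemma sum2 (f : (Fin 2 → Ix) → ℝ) : ∑ γ, f γ = ∑ a, ∑ b, f ![a, b] := by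
  simp only [sumS, Fintype.sum_unique]; rfl

lemma sum3 (f : (Fin 3 → Ix) → ℝ) : ∑ γ, f γ = ∑ a, ∑ b, ∑ c, f ![a, b, c] := by
  simp only [sumS, Fintype.sum_unique]; rfl

lemma sumI (f : (I6 → Ix) → ℝ) :
    ∑ ν, f ν = ∑ m, ∑ n, ∑ r, ∑ s, ∑ g, ∑ d, f (i6 m n r s g d) := by
  rw [← (Equiv.sumArrowEquivProdArrow _ _ Ix).symm.sum_comp, Fintype.sum_prod_type]
  simp only [sumS, Fintype.sum_unique]; rfl

lemma pol2 (h : Tn I6) (u : V) (m n r s : Ix) :
    pol h u ![m, n, r, s] = ∑ g, ∑ d, h (i6 m n r s g d) * (u g * u d) := by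
  simp only [pol, sum2, Fin.prod_univ_two]; rfl

lemma dpol (ξ : Tn J6) (u : V) (m n r s : Ix) : dr m (fun v => pol ξ v ![n, r, s]) u =
    ∑ g, ∑ d, (ξ (j6 n r s m g d) + ξ (j6 n r s g m d) + ξ (j6 n r s g d m)) * (u g * u d) := by
  have hd : ∀ k, HasDerivAt (fun t => (u + bas m t) k) (if k = m then 1 else 0) 0 := fun k => by
    simp only [Pi.add_apply, bas]
    split_ifs
    · exact (hasDerivAt_id _).const_add _
    · exact hasDerivAt_const _ _
  have h0 : ∀ k, (u + bas m 0) k = u k := fun k => by simp [bas]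
  have : (fun t => pol ξ (u + bas m t) ![n, r, s]) = fun t => ∑ a, ∑ b, ∑ c,
      ξ (j6 n r s a b c) * ((u + bas m t) a * (u + bas m t) b * (u + bas m t) c) := by
    funext t; simp only [pol, sum3, Fin.prod_univ_three]; rfl
  rw [dr, this, (HasDerivAt.fun_sum fun a _ => HasDerivAt.fun_sum fun b _ =>
    HasDerivAt.fun_sum fun c _ => (((hd a).fun_mul (hd b)).fun_mul (hd c)).const_mul _).deriv]
  simp only [h0, mul_add, add_mul, Finset.sum_add_distrib, ite_mul, mul_ite, zero_mul, mul_zero,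
    one_mul, mul_one, Finset.sum_ite_eq', Finset.mem_univ, if_true]
  congr 2
  · rw [Finset.sum_eq_single m (fun a _ h => by simp [h]) (by simp)]; simp
  · refine Finset.sum_congr rfl fun a _ => ?_
    rw [Finset.sum_eq_single m (fun a _ h => by simp [h]) (by simp)]; simp

lemma ex4 (ν : Fin 4 → Ix) : ∃ m n r s, ν = ![m, n, r, s] :=
  ⟨ν 0, ν 1, ν 2, ν 3, by funext i; fin_cases i <;> rfl⟩

lemma pol_D1 (ξ : Tn J6) (u : V) : pol (D1 ξ) u = d1 (pol ξ) u := by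
  funext ν; obtain ⟨m, n, r, s, rfl⟩ := ex4 ν
  rw [pol2]
  simp only [D1, LinearMap.add_apply, Pi.add_apply, rx_apply, a0e, a1e, a2e]
  exact (dpol ξ u m n r s).symm

lemma pol_D3 (ξ : Tn J6) (u : V) : pol (D3 ξ) u = d3 (pol ξ) u := by
  funext ν; obtain ⟨m, n, r, s, rfl⟩ := ex4 ν
  rw [pol2]
  simp only [D3, LinearMap.add_apply, Pi.add_apply, rx_apply, b0e, b1e, b2e]
  exact (dpol ξ u r m n s).symm

lemma pol_HH (k : Tn (Fin 2)) (u : V) : pol (HH k) u = h0 k u := by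
  funext ν; obtain ⟨m, n, r, s, rfl⟩ := ex4 ν
  rw [pol2]
  change _ = mu u * bas m (eta m) n * k ![r, s]
  simp only [HH_apply, mu, GF.mdot, Finset.sum_mul]
  refine Finset.sum_congr rfl fun g _ => ?_
  rw [Finset.sum_eq_single g (fun a _ h => by simp [bas, h]) (by simp)]
  simp only [bas, if_true]; ring

lemma sy4 (t : Tn (Fin 4)) (m n r s : Ix) : sy t ![m, n, r, s] =
    t ![m, n, r, s] + t ![n, m, r, s] + t ![m, n, s, r] + t ![n, m, s, r] := rfl

lemma pol_an (e : I6 ≃ I6) (z : Tn I6) (u : V) (m n r s : Ix) : pol (an e z) u ![m, n, r, s] =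
    pol z u ![m, n, r, s] - ∑ g, ∑ d, z (i6 m n r s g d ∘ e) * (u g * u d) := by
  simp only [pol2, an, LinearMap.sub_apply, LinearMap.id_apply, Pi.sub_apply, rx_apply, sub_mul,
    Finset.sum_sub_distrib]

lemma pol_p3 (z : Tn I6) (u : V) (m n r s : Ix) : pol (an p3 z) u ![m, n, r, s] = 0 := by
  rw [pol_an, pol2, Finset.sum_comm]
  simp only [p3e, mul_comm, sub_self]

lemma inj {y : Tn I6} (h1 : ∀ x, D1 x ⬝ᵥ y = 0) (h3 : ∀ x, D3 x ⬝ᵥ y = 0)
    (hh : ∀ x, HH x ⬝ᵥ y = 0) (s1 : ∀ x, an p1 x ⬝ᵥ y = 0) (s2 : ∀ x, an p2 x ⬝ᵥ y = 0)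
    (s3 : ∀ x, an p3 x ⬝ᵥ y = 0) : y = 0 := by
  funext ν
  obtain ⟨m, n, r, s, h⟩ := ex4 (ν ∘ inl)
  have hν : ν = i6 m n r s (ν (inr 0)) (ν (inr 1)) := by
    funext i; rcases i with i | i
    · exact congrFun h i
    · fin_cases i <;> rfl
  rw [hν]
  refine comb (fun m n r s g d => y (i6 m n r s g d)) (fun m n r s g d => ?_)
    (fun m n r s g d => ?_) (fun m n r s g d => ?_) (fun n r s a b c => ?_)
    (fun m n s a b c => ?_) (fun r s => ?_) _ _ _ _ _ _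
  · rw [← an_dot p1 s1, p1e]
  · rw [← an_dot p2 s2, p2e]
  · rw [← an_dot p3 s3, p3e]
  · have := h1 (Pi.single (j6 n r s a b c) 1)
    simp only [D1, LinearMap.add_apply, add_dotProduct] at this
    rwa [← rx_dot a0 y (i6 a _ _ _ _ _), ← rx_dot a1 y (i6 b n r s a c),
      ← rx_dot a2 y (i6 c n r s a b), a0e, a1e, a2e]
  · have := h3 (Pi.single (j6 m n s a b c) 1)
    simp only [D3, LinearMap.add_apply, add_dotProduct] at this
    rwa [← rx_dot b0 y (i6 m n a _ _ _), ← rx_dot b1 y (i6 m n b s a c),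
      ← rx_dot b2 y (i6 m n c s a b), b0e, b1e, b2e]
  · refine Eq.trans (Eq.symm ?_) (hh (Pi.single ![r, s] 1))
    rw [dotProduct, sumI]
    refine Finset.sum_congr rfl fun m _ => ?_
    rw [Finset.sum_eq_single m (fun a _ h => by simp [HH_apply, bas, h]) (by simp),
      Finset.sum_eq_single r (fun a _ h => by simp [HH_apply, h]) (by simp),
      Finset.sum_eq_single s (fun a _ h => by simp [HH_apply, h]) (by simp)]
    refine Finset.sum_congr rfl fun g _ => ?_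
    rw [Finset.sum_eq_single g (fun a _ h => by simp [HH_apply, bas, h]) (by simp)]
    simp [HH_apply, bas]

def BB : Tn I6 →ₗ[ℝ] Tn I6 := D1 ∘ₗ adj D1 + D3 ∘ₗ adj D3 + HH ∘ₗ adj HH +
  an p1 ∘ₗ adj (an p1) + an p2 ∘ₗ adj (an p2) + an p3 ∘ₗ adj (an p3)

lemma BB_inj : Function.Injective BB := by
  refine (injective_iff_map_eq_zero _).2 fun y hy => ?_
  have h : BB y ⬝ᵥ y = 0 := by rw [hy, zero_dotProduct]
  simp only [BB, LinearMap.add_apply, LinearMap.comp_apply, add_dotProduct] at h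
  have g1 := gram D1 y
  have g2 := gram D3 y
  have g3 := gram HH y
  have g4 := gram (an p1) y
  have g5 := gram (an p2) y
  have g6 := gram (an p3) y
  exact inj (gram0 _ (by linarith)) (gram0 _ (by linarith)) (gram0 _ (by linarith))
    (gram0 _ (by linarith)) (gram0 _ (by linarith)) (gram0 _ (by linarith))

end Eq2

open Eq2 in
theorem eq2_row (T : TEN) : EQ2 := by
  have e1 : Ev Eq2.D1 := ((ev_rx T _).add (ev_rx T _)).add (ev_rx T _)
  have e3 : Ev Eq2.D3 := ((ev_rx T _).add (ev_rx T _)).add (ev_rx T _)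
  have eh := ev_HH T
  have ea := fun e : I6 ≃ I6 => (ev_an T e).comp ((ev_an T e).adj T)
  have eB : Ev Eq2.BB := (((((e1.comp (e1.adj T)).add (e3.comp (e3.adj T))).add
    (eh.comp (eh.adj T))).add (ea _)).add (ea _)).add (ea _)
  let B := LinearEquiv.ofInjectiveEndo Eq2.BB BB_inj
  have hB : ∀ h, Eq2.BB (B.symm h) = h := fun h => B.apply_symm_apply h
  have eC : Ev B.symm.toLinearMap := fun L h hL => BB_inj <| by
    change Eq2.BB (B.symm _) = Eq2.BB (pb L (B.symm h))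
    rw [eB L _ hL, hB, hB]
  refine ⟨adj Eq2.D1 ∘ₗ B.symm.toLinearMap, adj Eq2.D3 ∘ₗ B.symm.toLinearMap,
    adj Eq2.HH ∘ₗ B.symm.toLinearMap, fun L h hL => ⟨(e1.adj T).comp eC L h hL,
      (e3.adj T).comp eC L h hL, (eh.adj T).comp eC L h hL⟩, fun h u => ?_⟩
  funext ν; obtain ⟨m, n, r, s, rfl⟩ := ex4 ν
  conv_lhs => rw [← hB h]
  simp only [Eq2.BB, LinearMap.add_apply, LinearMap.comp_apply, fun a b => (T.add _ 2 0 a b).1, sy4,
    Pi.add_apply, pol_D1, pol_D3, pol_HH, pol_p3, LinearEquiv.coe_coe]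
  simp only [pol_an, p1e, p2e, ← pol2]
  ring

end

end Vale.Agent.P352X.TPD
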