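import Vale.Agent.P352X.TPD.Spec

/-!
# P352X, block TPD: the row EXP
-/

set_option linter.all false

open Filter Topology

namespace Vale.Agent.P352X.TPD

lemma exp_key (s : Finset ℤ) (a : ℤ → ℂ) (m : ℤ) (h : ∀ n ∈ s, n < m → a n = 0) :
    Tendsto (fun t : ℝ => ∑ n ∈ s, Real.exp ((n - m) * t) • a n) atBot
      (𝓝 (if m ∈ s then a m else 0)) := by
  rw [← Finset.sum_ite_eq' s m a]
  refine tendsto_finset_sum _ fun n hn => ?_
  rcases lt_trichotomy n m with l | rfl | l
  · simp [h n hn l]
  · simp
  · rw [if_neg l.ne', ← zero_smul ℝ (a n)]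
    refine (Real.tendsto_exp_atBot.comp (tendsto_id.const_mul_atBot ?_)).smul_const _
    exact sub_pos.2 (by exact_mod_cast l)

theorem exp_row : EXP where
  lim s a b m H := by
    have h : ∀ n ∈ s, n < m → a n = 0 := by
      by_contra hc
      push Not at hc
      obtain ⟨n, hn, hl, ha⟩ := hc
      obtain ⟨k, hk, hm⟩ := (s.filter fun n => a n ≠ 0).exists_min_image id
        ⟨n, Finset.mem_filter.2 ⟨hn, ha⟩⟩
      rw [Finset.mem_filter] at hk
      have hkm : k < m := lt_of_le_of_lt (hm n (Finset.mem_filter.2 ⟨hn, ha⟩)) hl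
      have h1 := exp_key s a k fun j hj hjk => by
        by_contra h0
        exact absurd (hm j (Finset.mem_filter.2 ⟨hj, h0⟩)) (not_le.2 hjk)
      have h2 : Tendsto (fun t : ℝ => Real.exp ((m - k) * t)) atBot (𝓝 0) :=
        Real.tendsto_exp_atBot.comp (tendsto_id.const_mul_atBot
          (sub_pos.2 (by exact_mod_cast hkm)))
      have h3 := h2.smul H
      rw [zero_smul] at h3
      rw [if_pos hk.1] at h1
      refine hk.2 (tendsto_nhds_unique h1 (h3.congr fun t => ?_))
      rw [Finset.smul_sum]
      refine Finset.sum_congr rfl fun j _ => ?_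
      rw [smul_smul, ← Real.exp_add]
      congr 2
      ring
    have e := tendsto_nhds_unique (exp_key s a m h) H
    exact ⟨h, fun hm => by rwa [if_pos hm] at e, fun hm => by rw [if_neg hm] at e; exact e.symm⟩
  lag s := by
    have inj : Set.InjOn (fun m : ℤ => Real.exp m) s := fun x _ y _ h => by
      exact_mod_cast Real.exp_injective h
    refine ⟨s.card, fun n j => (Lagrange.basis s (fun m : ℤ => Real.exp m) n).coeff j,
      fun n hn m hm => ?_⟩
    have hd : (Lagrange.basis s (fun m : ℤ => Real.exp m) n).natDegree < s.card := by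
      rw [Lagrange.natDegree_basis inj hn]
      exact Nat.sub_lt (Finset.card_pos.2 ⟨n, hn⟩) one_pos
    have e := Polynomial.eval_eq_sum_range' hd (Real.exp m)
    have e2 : ∀ j : ℕ, Real.exp (m * j) = Real.exp m ^ j := fun j => by
      rw [mul_comm, Real.exp_nat_mul]
    simp only [e2]
    rw [← e]
    split_ifs with h
    · subst h
      exact Lagrange.eval_basis_self inj hn
    · exact Lagrange.eval_basis_of_ne (v := fun m : ℤ => Real.exp m) (Ne.symm h) hm

end Vale.Agent.P352X.TPD
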