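import Vale.Agent.P352X.TPD.Ut

/-!
# P352X, block TPD, row FIVE: the fifth differences vanish
-/

set_option linter.all false

open MeasureTheory Filter Topology
open scoped SchwartzMap ComplexConjugate ENNReal ContDiff

namespace Vale.Agent.P352X.TPD

open Vale.Agent.P352 Vale.Agent.P352.GF Vale.Agent.P352.BW Vale.Agent.P352.H246
open Vale.Agent.P352.H496 Vale.Agent.P352.H755 Vale.Agent.P352.H15
open UniformSpace (Completion)
open Complex (I)

noncomputable section

lemma null_nb (x : R2) : IsNull (nb x) :=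
  ⟨by rw [mdot_null]; simp [nb], by
    have := d2_nonneg x
    rw [time_eq (nb x)]; simp only [nb, al_pt, be_pt]; linarith⟩

lemma gap_nb (x y : R2) : gap x (nb y) = nb (x + y) := null_ext
  (by simp only [nb, al_gap, al_pt, be_pt, tx_pt, d2_add, d2_add_l, d2_comm y x]; ring)
  (by simp [nb]) (by simp [nb, add_comm])

namespace Five

lemma sq5 (v : R2) : ∑ j ∈ Finset.range 6,
    ((-1) ^ (5 - j) * (Nat.choose 5 j : ℝ)) • sq (nb (0 + (j : ℝ) • v)) = 0 := by
  funext ν
  simp only [Finset.sum_apply, Pi.smul_apply, sq, smul_eq_mul, Pi.zero_apply]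
  generalize ν 0 = m
  generalize ν 1 = k
  fin_cases m <;> fin_cases k <;>
    simp [Finset.sum_range_succ, nb, pt, d2, eta, o, Nat.choose] <;> ring

lemma dbl {E : Type*} [AddCommGroup E] [Module ℝ E] (φ : R2 → E) (v : R2) :
    df5 φ 0 ((2 : ℝ) • v) = ∑ j ∈ Finset.range 6, (Nat.choose 5 j : ℝ) • df5 φ ((j : ℝ) • v) v := by
  have e : ∀ a j : ℝ, a • v + j • v = (a + j) • v := fun a j => (add_smul _ _ _).symm
  simp only [df5, zero_add, smul_smul, e, Finset.sum_range_succ, Finset.sum_range_zero]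
  norm_num [Nat.choose]
  module

section
variable {ι E H : Type*} [AddCommGroup E] [Module ℝ E] [NormedAddCommGroup H] [NormedSpace ℝ H]
  (e : ι → E →ₗ[ℝ] H) (he : ∀ x, (∀ i, e i x = 0) → x = 0) (M : ℝ → E →ₗ[ℝ] E)
  (hM : ∀ x i, Tendsto (fun s => e i (M s x)) (𝓝[>] 0) (𝓝 ((32 : ℝ) • e i x)))
include he hM

lemma kill {a b d : ℝ} {A B C : E} (ha : a ≠ 32)
    (h : ∀ s : ℝ, 0 < s → a • A + s • b • B + s ^ 2 • d • C = M s (A + s • B + s ^ 2 • C)) :
    A = 0 := he _ fun i => by
  have l : Tendsto (fun h : ℝ => h) (𝓝[>] 0) (𝓝 0) := tendsto_nhdsWithin_of_tendsto_nhds tendsto_id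
  have h1 := ((tendsto_const_nhds (x := a • e i A)).add (l.smul_const (b • e i B))).add
    ((l.pow 2).smul_const (d • e i C))
  have h2 := ((hM A i).add (l.smul (hM B i))).add ((l.pow 2).smul (hM C i))
  have := tendsto_nhds_unique_of_eventuallyEq h1 h2 (eventually_nhdsWithin_of_forall fun s hs => by
    simpa only [map_add, map_smul] using congrArg (e i) (h s hs))
  simp only [zero_smul, add_zero, ne_eq, OfNat.ofNat_ne_zero, not_false_eq_true, zero_pow] at this
  rw [← sub_eq_zero, ← sub_smul] at this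
  exact (smul_eq_zero.1 this).resolve_left (sub_ne_zero.2 ha)

lemma kill3 {A B C : E} (h : ∀ s : ℝ, 0 < s → (2 : ℝ) • A + s • (4 : ℝ) • B +
    s ^ 2 • (8 : ℝ) • C = M s (A + s • B + s ^ 2 • C)) : A + B + C = 0 := by
  obtain rfl := kill e he M hM (by norm_num) h
  have h2 : ∀ s : ℝ, 0 < s → (4 : ℝ) • B + s • (8 : ℝ) • C + s ^ 2 • (0 : ℝ) • (0 : E) =
      M s (B + s • C + s ^ 2 • (0 : E)) := fun s hs => smul_right_injective E hs.ne' (by
    have := h s hs
    rw [show (0 : E) + s • B + s ^ 2 • C = s • (B + s • C + s ^ 2 • (0 : E)) by module,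
      map_smul] at this
    exact Eq.trans (by module) this)
  obtain rfl := kill e he M hM (by norm_num) h2
  have h3 : ∀ s : ℝ, 0 < s → (8 : ℝ) • C + s • (0 : ℝ) • (0 : E) + s ^ 2 • (0 : ℝ) • (0 : E) =
      M s (C + s • (0 : E) + s ^ 2 • (0 : E)) := fun s hs => smul_right_injective E hs.ne' (by
    have := h2 s hs
    rw [show (0 : E) + s • C + s ^ 2 • (0 : E) = s • (C + s • (0 : E) + s ^ 2 • (0 : E)) by module,
      map_smul] at this
    exact Eq.trans (by module) this)
  rw [kill e he M hM (by norm_num) h3, add_zero, add_zero]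

end

end Five

variable {D : Type*} [NormedAddCommGroup D] [InnerProductSpace ℂ D]

/-- **row FIVE** -/
theorem five_row (c : Ctx D) (b : B0 c) (wl : WL c) : FIVE c := by
  intro w Φ hw h
  have t := b.ten
  have P := b.bp w hw
  obtain ⟨η⟩ := ec0 t
  set φ : R2 → Fam D := fun x => Φ (nb x) with hφ
  have eg : ∀ x y v, ga c 1 (Lg x) (df5 φ y v) = df5 φ (x + y) v := fun x y v => by
    simp only [df5, map_sum, map_smul]
    refine Finset.sum_congr rfl fun j _ => ?_
    have := h.cov 1 _ _ one_pos (t.lg x).1 (null_nb (y + (j : ℝ) • v))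
    rw [one_pow, one_smul, (t.lg x).2.1, gap_nb, ← add_assoc] at this
    rw [this]
  have eb : ∀ τ v, ga c 1 (Lb τ) (df5 φ 0 v) =
      Real.exp (-τ) ^ 2 • df5 φ 0 (Real.exp τ • v) := fun τ v => by
    simp only [df5, map_sum, map_smul, Finset.smul_sum]
    refine Finset.sum_congr rfl fun j _ => ?_
    have := h.cov 1 _ _ one_pos (t.lb τ).1 (null_nb (0 + (j : ℝ) • v))
    rw [one_pow, one_smul, (t.lb τ).2.1, show scp (Real.exp τ) (Real.exp (-τ)) (nb (0 + (j : ℝ) • v))
      = Real.exp (-τ) • nb (0 + (j : ℝ) • Real.exp τ • v) from null_ext (by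
        simp only [nb, al_scp, al_pt, al_smul, zero_add, d2_smul, d2_smul_l, Real.exp_neg]
        field_simp) (by simp [nb]) (by
        simp [nb, ← Real.exp_add, smul_smul, mul_left_comm (Real.exp (-τ))]),
      h.hom _ _ (null_nb _) (Real.exp_pos _)] at this
    rw [this, smul_comm]
  have ex : ∀ v, ∃ y, Hom c 1 2 y ∧ ∀ η, df5 φ 0 v η = y := fun v => P.dhom 1 2 _ (by
    have := P.dsum t (Finset.range 6) (fun j => (-1) ^ (5 - j) * (Nat.choose 5 j : ℝ)) _ _
      fun j _ => h.dat _ (null_nb (0 + (j : ℝ) • v))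
    have z := ((t.h0s 0).2.2 0 0).2
    rw [zero_smul, zero_smul] at z
    rwa [Five.sq5, z] at this) fun s hs => by
      simp only [df5, map_sum, map_smul, Finset.smul_sum]
      refine Finset.sum_congr rfl fun j _ => ?_
      have := h.cov s _ _ hs (lor_one t) (null_nb (0 + (j : ℝ) • v))
      rw [smul_comm, this, sim_id]
  choose y hy ey using ex
  suffices H : ∀ v, y v = 0 from fun x v => by
    rw [← add_zero x, ← eg, show df5 φ 0 v = 0 from funext fun η => (ey v η).trans (H v), map_zero]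
  intro v
  obtain ⟨z, z1, z2, z3, -⟩ := wl 1 2 _ (one_mul _) (hy v)
  have z4 : y v = z (-1) + z 0 + z 1 := by
    rw [z3, show Finset.Icc (-3 : ℤ) 3 = {-3, -2, -1, 0, 1, 2, 3} by decide]
    simp [z2 (-3) (by norm_num), z2 (-2) (by norm_num), z2 2 (by norm_num), z2 3 (by norm_num),
      add_assoc]
  have e1 : ∀ s : ℝ, 0 < s → y (s • v) = s • (z (-1) + s • z 0 + s ^ 2 • z 1) := fun s hs => by
    have := congrFun (eb (Real.log s) v) η
    rw [ga_apply, ey, Pi.smul_apply, ey, z4, map_add, map_add, (z1 _).2, (z1 _).2, (z1 _).2,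
      Real.exp_neg, Real.exp_log hs, inv_pow, eq_inv_smul_iff₀ (by positivity)] at this
    rw [← this]
    simp only [Int.reduceNeg, Int.cast_neg, Int.cast_one, neg_mul, one_mul, Real.exp_neg,
      Real.exp_log hs, Int.cast_zero, zero_mul, Real.exp_zero, smul_add, smul_smul]
    congr 2 <;> [congr 1; skip; skip] <;> field_simp
  let M : ℝ → TT D →ₗ[ℝ] TT D := fun s =>
    ∑ j ∈ Finset.range 6, (Nat.choose 5 j : ℝ) • act c 1 (Lg ((j : ℝ) • s • v))
  have e2 : ∀ s : ℝ, y ((2 * s) • v) = M s (y (s • v)) := fun s => by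
    rw [← ey _ η, ← smul_smul, Five.dbl]
    simp only [M, Finset.sum_apply, LinearMap.sum_apply, Pi.smul_apply, LinearMap.smul_apply]
    refine Finset.sum_congr rfl fun j _ => ?_
    rw [← ey _ (η.pull 1 (Lg ((j : ℝ) • s • v))), ← ga_apply, eg, add_zero]
  have lM : ∀ x f, Tendsto (fun s => M s x f) (𝓝[>] 0) (𝓝 ((32 : ℝ) • x f)) := fun x f => by
    have : ∀ j : ℕ, Tendsto (fun s : ℝ => act c 1 (Lg ((j : ℝ) • s • v)) x f) (𝓝[>] 0)
        (𝓝 (x f)) := fun j => by
      have := b.ba.cont ℝ (𝓝[>] 0) (fun s : ℝ => Lg ((j : ℝ) • s • v)) _ x f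
        (fun s => (t.lg _).1) (lor_one t) (tendsto_nhdsWithin_of_tendsto_nhds
          ((t.lg0.2.comp (by fun_prop)).tendsto' 0 _ (by simp [t.lg0.1])))
      rwa [b.ba.one] at this
    have h1 := tendsto_finset_sum (Finset.range 6) fun j _ =>
      (this j).const_smul (Nat.choose 5 j : ℝ)
    rw [← Finset.sum_smul, show ∑ j ∈ Finset.range 6, (Nat.choose 5 j : ℝ) = 32 by
      norm_num [Finset.sum_range_succ, Nat.choose]] at h1
    simpa only [M, LinearMap.sum_apply, LinearMap.smul_apply, ContinuousLinearMap.sum_apply,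
      ContinuousLinearMap.smul_apply] using h1
  rw [z4]
  refine Five.kill3 (fun f : Sch => ⟨⟨fun x : TT D => x f, fun _ _ => rfl⟩, fun _ _ => rfl⟩)
    (fun x hx => ContinuousLinearMap.ext hx) M lM fun s hs => ?_
  have := e2 s
  rw [e1 _ (by positivity), e1 s hs, map_smul] at this
  refine smul_right_injective _ hs.ne' (Eq.trans ?_ this)
  module

end

end Vale.Agent.P352X.TPD
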