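import Vale.Agent.P352X.TPD.Main

/-!
# P352X, block TPD: conformal invariance without time ordered products as a hypothesis
-/

set_option linter.all false

namespace Vale.Agent.P352X

open Vale.Agent.P352 Vale.Agent.P352.GF Vale.Agent.P352.BW Vale.Agent.P352.H246
open Vale.Agent.P352.H496 Vale.Agent.P352.H755 Vale.Agent.P352.H15
open UniformSpace (Completion)

variable {D : Type*} [NormedAddCommGroup D] [InnerProductSpace ℂ D]

theorem tp_of (Q : Theory D) (T : Ix → Ix → Fld D) (hT : Q.IsStress T) (A : (V → V) → D → D)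
    (hA : ND.PCh Q T A) (hG : TfGen Q) (N : Set V → VonNeumannAlgebra (Completion D))
    (hN : LNm Q A N) (hU : UVac Q) : ∃ wp wm t, TP Q T wp wm t := by
  obtain ⟨c, rfl, rfl⟩ := ctx0 Q T hT A hA hG N hN hU
  exact tp_thm c

theorem final0 (Q : Theory D) (T : Ix → Ix → Fld D) (hT : Q.IsStress T) (A : (V → V) → D → D)
    (hA : ND.PCh Q T A) (hG : TfGen Q) (N : Set V → VonNeumannAlgebra (Completion D))
    (hN : LNm Q A N) (hU : UVac Q) :
    (∃ l, IsPot Q T l ∧ ∀ ν, N86.WeakLoc Q fun f => l (pd ν f)) ∧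
    (Rec Q → ∃ J, IsVirial Q T J ∧ ∀ Q' : Theory D, IsEnl Q Q' →
      IsImpr Q' T (improveJ T J) ∧ ConfAct Q' (improveJ T J)) :=
  let ⟨_, _, _, h⟩ := tp_of Q T hT A hA hG N hN hU
  final1 (fun c => (main c).2) Q T hT A hA hG N hN hU h

end Vale.Agent.P352X
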