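import Vale.Agent.P352X.TPD.Spec
import Vale.Agent.P352X.Api1P
import Vale.Agent.P352X.Api2d

/-!
# P352X, block TPD: row IRG
-/

set_option linter.all false

open MeasureTheory Filter Topology
open scoped SchwartzMap ComplexConjugate ENNReal ContDiff

namespace Vale.Agent.P352X.TPD

open Vale.Agent.P352 Vale.Agent.P352.GF Vale.Agent.P352.BW Vale.Agent.P352.H246
open Vale.Agent.P352.H496 Vale.Agent.P352.H755 Vale.Agent.P352.H15
open UniformSpace (Completion)

noncomputable section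

/-- a ball and its translates in a transverse direction lie in opposite wedges -/
theorem Irg.geo {ρ : ℝ} (h0 : 0 ≤ ρ) {y : R2} (hy : 6 * ρ + 3 ≤ ‖y‖) :
    ∃ a b v, IsNull a ∧ IsNull b ∧ 0 < mdot a b ∧ ∀ z : V, ‖z‖ ≤ ρ → z ∈ Wdg b a v ∧
      ∀ t : ℝ, |t| ≤ 1 → z + (bas o t + tv y) ∈ Wdg a b v := by
  obtain ⟨s, s0, hs⟩ : ∃ s : ℝ, 0 ≤ s ∧ s * s = y 0 * y 0 + y 1 * y 1 :=
    ⟨_, Real.sqrt_nonneg _, Real.mul_self_sqrt (add_nonneg (mul_self_nonneg _) (mul_self_nonneg _))⟩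
  have y0 : |y 0| ≤ s := abs_le_of_sq_le_sq' (by nlinarith [mul_self_nonneg (y 1)]) s0 |> abs_le.2
  have y1 : |y 1| ≤ s := abs_le_of_sq_le_sq' (by nlinarith [mul_self_nonneg (y 0)]) s0 |> abs_le.2
  have s1 : 6 * ρ + 3 ≤ s := hy.trans ((pi_norm_le_iff_of_nonneg s0).2 fun i => by
    fin_cases i
    exacts [y0, y1])
  have s2 : 0 < s := by linarith
  refine ⟨![s, 0, y 0, y 1], ![s, 0, -y 0, -y 1], tv ((1 / 2 : ℝ) • y),
    ⟨by simp [mdot_eq]; linarith, s2⟩, ⟨by simp [mdot_eq]; linarith, s2⟩, ?_, fun z hz => ?_⟩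
  · simp [mdot_eq]
    nlinarith
  have b : ∀ i (u : ℝ), |u| ≤ s → |u * z i| ≤ s * ρ := fun i u hu => by
    rw [abs_mul]
    exact mul_le_mul hu ((norm_le_pi_norm z i).trans hz) (abs_nonneg _) s0
  have b0 := abs_le.1 (b 0 s (abs_of_pos s2).le)
  have b2 := abs_le.1 (b 2 _ y0)
  have b3 := abs_le.1 (b 3 _ y1)
  have b4 := mul_le_mul_of_nonneg_left s1 s0
  refine ⟨?_, fun t ht => ?_⟩
  · simp only [Wdg, Set.mem_setOf_eq, mdot_eq, Pi.sub_apply]
    simp [tv, pt]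
    constructor <;> nlinarith
  · have b5 := abs_le.1 ht
    have b6 := mul_le_mul_of_nonneg_left b5.1 s0
    have b7 := mul_le_mul_of_nonneg_left b5.2 s0
    simp only [Wdg, Set.mem_setOf_eq, mdot_eq, Pi.sub_apply, Pi.add_apply]
    simp [tv, pt, bas, o]
    constructor <;> nlinarith

variable {D : Type*} [NormedAddCommGroup D] [InnerProductSpace ℂ D]

theorem irg_row (c : Ctx D) (b : B0 c) : IRG c := fun σ K x f hx hl hK hf => by
  obtain ⟨r, hr⟩ := hK.exists_norm_le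
  obtain ⟨r', hr'⟩ := hf.isCompact.isBounded.exists_norm_le
  refine ⟨6 * (|r'| + |r|) + 3, fun t y ht hy => ?_⟩
  obtain ⟨a, a', v, ha, ha', hp, h⟩ := Irg.geo (by positivity) hy
  have n1 : ∀ z ∈ tsupport f, ‖z‖ ≤ |r'| + |r| := fun z hz =>
    ((hr' z hz).trans (le_abs_self _)).trans (le_add_of_nonneg_right (abs_nonneg _))
  have n2 : ∀ z ∈ tsupport f, ∀ u ∈ K, ‖z + u‖ ≤ |r'| + |r| := fun z hz u hu =>
    (norm_add_le _ _).trans (add_le_add ((hr' z hz).trans (le_abs_self _))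
      ((hr u hu).trans (le_abs_self _)))
  set p : V := bas o t + tv y with hp'
  have sp : ∀ z ∈ tsupport (ST.tsl p f), z - p ∈ tsupport f :=
    Ap.tsupp_sub (K := (· - p) ⁻¹' tsupport f)
      ((isClosed_tsupport _).preimage (continuous_sub_right p)) fun z hz => subset_tsupport _ hz
  have h1 := hl a' a v f ha' ha (by rwa [H755.mdot_comm]) hf (fun z hz => (h z (n1 z hz)).1)
    fun z hz u hu => (h _ (n2 z hz u hu)).1
  have h2 := hl a a' v (ST.tsl p f) ha ha' hp (hf.comp_homeomorph (Homeomorph.subRight p))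
    (fun z hz => sub_add_cancel z p ▸ (h _ (n1 _ (sp z hz))).2 t ht) fun z hz u hu => by
      have := (h _ (n2 _ (sp z hz) u hu)).2 t ht
      rwa [← hp', add_right_comm, sub_add_cancel] at this
  have e : ng (ST.tsl p f) = ST.tsl (-p) (ng f) := by
    ext z
    rw [ng_apply, ST.tsl_apply, ST.tsl_apply, ng_apply]
    congr 1
    abel
  rw [e, ← hx.tra, ← hx.tra, Ut, Ut, b.ba.th_ug _ _ _ _ one_pos H496.isLor_one, neg_neg] at h2
  rw [ContinuousLinearMap.map_smul_of_tower]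
  exact h1.symm.pair' h2 (fun X hX => (b.jc.dual a' a v ha' ha (by rwa [H755.mdot_comm])).symm ▸ hX)
    (b.grp.rs _ (Ap.open_wdg _ _ _) ⟨_, (h 0 (by rw [norm_zero]; positivity)).2 t ht⟩)

end

end Vale.Agent.P352X.TPD
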