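import Vale.Agent.P352X.TPD.Spec
import Vale.Agent.P352X.Api3
import Vale.Agent.P352X.Api2d
import Mathlib.Analysis.SpecialFunctions.Gaussian.FourierTransform

/-!
# P352X, block TPD: row IRQ
-/

noncomputable section

open MeasureTheory Complex Set Metric
open scoped Real

namespace Vale.Agent.P352X.TPD

open Vale.Agent.P352 Vale.Agent.P352.GF Vale.Agent.P352.BW

namespace Irq

/-- the Fourier transform of the Gaussian -/
def G (s : ℝ) (q : R2) : ℝ := π / s ^ 2 * rexp (-(d2 q q / (4 * s ^ 2)))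

variable {s R : ℝ} {m : Measure V} [IsFiniteMeasure m]

lemma G_le (s : ℝ) (q : R2) : ‖G s q‖ ≤ π / s ^ 2 := by
  rw [G, Real.norm_of_nonneg (by positivity)]
  exact mul_le_of_le_one_right (by positivity) (Real.exp_le_one_iff.2
    (neg_nonpos.2 (div_nonneg (d2_nonneg q) (by positivity))))

lemma int_e (hs : 0 < s) : Integrable fun x : R2 => rexp (-(s ^ 2 * d2 x x)) := by
  refine (GaussianFourier.integrable_cexp_neg_mul_sum_add (ι := Fin 2) (b := (s ^ 2 : ℝ))
    (by rw [ofReal_re]; positivity) 0).norm.congr (.of_forall fun x => ?_)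
  simp [norm_exp, d2, pow_two]

lemma gau (hs : 0 < s) (a : ℝ) (q : R2) :
    ∫ x : R2, rexp (-(s ^ 2 * d2 x x)) * Real.sin (a - d2 q x) = Real.sin a * G s q := by
  have hb : 0 < ((s ^ 2 : ℝ) : ℂ).re := by rw [ofReal_re]; positivity
  have := (imCLM.integral_comp_comm ((GaussianFourier.integrable_cexp_neg_mul_sum_add hb
    fun i => -I * q i).const_mul (cexp (I * a))))
  rw [integral_const_mul, GaussianFourier.integral_cexp_neg_mul_sum_add hb] at this
  convert this using 1
  · refine integral_congr_ae (.of_forall fun x => ?_)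
    simp [← Complex.exp_add, exp_im, d2, pow_two]
    congr 2
    ring
  · have e : ((π : ℂ) / (s ^ 2 : ℝ)) ^ ((Fintype.card (Fin 2) : ℂ) / 2) *
        cexp ((∑ i, (-I * q i) ^ 2) / (4 * (s ^ 2 : ℝ))) = G s q := by
      simp [G, d2, mul_pow]
      left
      congr 1
      ring
    rw [e]
    simp [exp_im]

lemma step1 (hs : 0 < s) {t : ℝ}
    (h : ∀ x : R2, R ≤ ‖x‖ → ∫ p, Real.sin (t * p o - d2 (tx p) x) ∂m = 0) :
    ‖∫ p, Real.sin (t * p o) * G s (tx p) ∂m‖ ≤ volume.real (ball (0 : R2) R) * m.real univ := by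
  simp only [← gau hs]
  rw [integral_integral_swap (((int_e hs).comp_snd m).mono' (Continuous.aestronglyMeasurable
    (by unfold Function.uncurry; fun_prop)) (.of_forall fun z => by
      rw [Function.uncurry, norm_mul, Real.norm_of_nonneg (Real.exp_nonneg _)]
      exact mul_le_of_le_one_right (Real.exp_nonneg _) (Real.abs_sin_le_one _))),
    ← smul_eq_mul, ← integral_indicator_const _ measurableSet_ball]
  refine norm_integral_le_of_norm_le ((integrableOn_const measure_ball_lt_top.ne).integrable_indicator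
    measurableSet_ball) (.of_forall fun x => ?_)
  rw [integral_const_mul]
  by_cases hx : x ∈ ball (0 : R2) R
  · rw [indicator_of_mem hx, norm_mul, Real.norm_of_nonneg (Real.exp_nonneg _)]
    refine (mul_le_of_le_one_left (norm_nonneg _) (Real.exp_le_one_iff.2 (neg_nonpos.2
      (mul_nonneg (sq_nonneg _) (d2_nonneg x))))).trans ?_
    exact (norm_integral_le_of_norm_le_const (C := 1)
      (.of_forall fun p => Real.abs_sin_le_one _)).trans_eq (one_mul _)
  · rw [h x (by simpa using hx), indicator_of_notMem hx]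
    simp

lemma sig (E : ℝ) : ∫ t in Ioc (0 : ℝ) 1, Real.sin (t * E) = (1 - Real.cos E) / E := by
  rcases eq_or_ne E 0 with rfl | h
  · simp
  rw [← intervalIntegral.integral_of_le zero_le_one, intervalIntegral.integral_comp_mul_right _ h]
  simp [div_eq_inv_mul]

lemma step2 (hs : 0 < s) (h : ∀ (t : ℝ) (x : R2), |t| ≤ 1 → R ≤ ‖x‖ →
    ∫ p, Real.sin (t * p o - d2 (tx p) x) ∂m = 0) :
    Integrable (fun p : V => (1 - Real.cos (p o)) / p o * G s (tx p)) m ∧
    ∫ p, (1 - Real.cos (p o)) / p o * G s (tx p) ∂m ≤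
      volume.real (ball (0 : R2) R) * m.real univ := by
  have i : Integrable (Function.uncurry fun (p : V) (t : ℝ) => Real.sin (t * p o) * G s (tx p))
      (m.prod (volume.restrict (Ioc 0 1))) := .of_bound (Continuous.aestronglyMeasurable
    (by unfold Function.uncurry G; fun_prop)) (π / s ^ 2) (.of_forall fun z => by
      rw [Function.uncurry, norm_mul]
      exact (mul_le_of_le_one_left (norm_nonneg _) (Real.abs_sin_le_one _)).trans (G_le _ _))
  simp only [← sig, ← integral_mul_const]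
  refine ⟨i.integral_prod_left, ?_⟩
  rw [integral_integral_swap i]
  refine (le_abs_self _).trans ?_
  simpa using norm_setIntegral_le_of_norm_le_const (μ := volume) (s := Ioc (0 : ℝ) 1)
    measure_Ioc_lt_top fun t ht => step1 hs fun x => h t x (by rw [abs_of_pos ht.1]; exact ht.2)

lemma shell (hc : ∀ᵐ p ∂m, 0 ≤ p o ∧ 0 ≤ mu p) (h : ∀ (t : ℝ) (x : R2), |t| ≤ 1 → R ≤ ‖x‖ →
    ∫ p, Real.sin (t * p o - d2 (tx p) x) ∂m = 0) : ∃ C : ℝ, 0 ≤ C ∧ ∀ s, 0 < s →
    m {p | s / 2 < ‖tx p‖ ∧ ‖tx p‖ ≤ s ∧ p o ≤ 1} ≤ ENNReal.ofReal (C * s) := by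
  refine ⟨π * rexp (1 / 2) * (volume.real (ball (0 : R2) R) * m.real univ), by positivity,
    fun s hs => ?_⟩
  obtain ⟨i, b⟩ := step2 hs h
  have := (mul_meas_ge_le_integral_of_nonneg (hc.mono fun p hp => mul_nonneg (div_nonneg
    (sub_nonneg.2 (Real.cos_le_one _)) hp.1) (by unfold G; positivity)) i
    (π * s * rexp (1 / 2))⁻¹).trans b
  rw [inv_mul_le_iff₀ (by positivity)] at this
  refine (measure_mono_ae (t := {p | (π * s * rexp (1 / 2))⁻¹ ≤ (1 - Real.cos (p o)) / p o *
    G s (tx p)}) ?_).trans ?_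
  · filter_upwards [hc] with p hp ⟨h1, h2, h3⟩
    have h4 : s / 2 < p o := h1.trans_le (le_of_sq_le_sq ((norm_sq_le_d2 _).trans (by
      have := hp.2
      simp only [mu, mdot_eq, d2, tx_0, tx_1, o] at this ⊢
      nlinarith [mul_self_nonneg (p 1)])) hp.1)
    have h5 : 0 < p o := (half_pos hs).trans h4
    have h6 : 2 / π ^ 2 * (s / 2) ≤ (1 - Real.cos (p o)) / p o := by
      have := Real.cos_le_one_sub_mul_cos_sq (x := p o)
        (by rw [abs_of_pos h5]; linarith [Real.two_le_pi])
      rw [le_div_iff₀ h5]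
      nlinarith [mul_le_mul_of_nonneg_left (mul_le_mul_of_nonneg_right h4.le h5.le)
        (show 0 ≤ 2 / π ^ 2 by positivity)]
    have h7 : π / s ^ 2 * rexp (-(1 / 2)) ≤ G s (tx p) := by
      refine mul_le_mul_of_nonneg_left (Real.exp_le_exp.2 (neg_le_neg ?_)) (by positivity)
      rw [div_le_iff₀ (by positivity)]
      nlinarith [d2_le_norm (tx p), pow_le_pow_left₀ (norm_nonneg _) h2 2]
    refine le_trans (le_of_eq ?_) (mul_le_mul h6 h7 (by positivity) ((by positivity :
      0 ≤ 2 / π ^ 2 * (s / 2)).trans h6))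
    rw [Real.exp_neg]
    field_simp
  · rw [← ofReal_measureReal]
    exact ENNReal.ofReal_le_ofReal (this.trans_eq (by ring))

end Irq

open Irq in
/-- **row IRQ** -/
theorem irq_row {D : Type*} [NormedAddCommGroup D] [InnerProductSpace ℂ D] (c : Ctx D) (b : B0 c) :
    IRQ c := fun ψ ψ' R h0 h => by
  obtain ⟨C, C0, hC⟩ := shell (m := c.nu ψ + c.nu ψ') (R := R)
    (ae_add_measure_iff.2 ⟨b.bas.cone ψ, b.bas.cone ψ'⟩) fun t x ht hx => by
      have i := fun v => (SN.isPair_mdot.bd (bas o t + tv x)).integrable (c.nu v)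
      have e : ∀ v, ∫ p, Real.sin (t * p o - d2 (tx p) x) ∂c.nu v =
          (inner ℂ v (Ut c.Q (bas o t + tv x) v)).im := fun v => by
        rw [← c.bt.char SN.isPair_mdot]
        refine .trans (integral_congr_ae (.of_forall fun p => ?_)) (imCLM.integral_comp_comm (i v))
        simp [SN.ch, exp_im, H755.md_add, Ap.md_bas, md_tv', mul_comm t, sub_eq_add_neg]
      have j : ∀ v, Integrable (fun p : V => Real.sin (t * p o - d2 (tx p) x)) (c.nu v) := fun v =>
        .of_bound (Continuous.aestronglyMeasurable (by fun_prop)) 1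
          (.of_forall fun p => Real.abs_sin_le_one _)
      rw [integral_add_measure (j ψ) (j ψ'), e, e, h t x ht hx, ← inner_conj_symm ψ',
        conj_im, add_neg_cancel]
  refine ⟨2 * C, fun s hs => ?_⟩
  refine (measure_mono (t := {p | tx p = 0} ∪ ⋃ k : ℕ, {p | s * (1 / 2) ^ k / 2 < ‖tx p‖ ∧
    ‖tx p‖ ≤ s * (1 / 2) ^ k ∧ p o ≤ 1}) fun p hp => ?_).trans ((measure_union_le _ _).trans ?_)
  · refine (em (tx p = 0)).imp id fun k => ?_
    obtain ⟨n, h1, h2⟩ := exists_nat_pow_near_of_lt_one (div_pos (norm_pos_iff.2 k) hs)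
      ((div_le_one hs).2 hp.1) one_half_pos one_half_lt_one
    rw [lt_div_iff₀ hs] at h1
    rw [div_le_iff₀ hs] at h2
    exact mem_iUnion.2 ⟨n, by rw [pow_succ] at h1; linarith, by linarith, hp.2⟩
  rw [(b.bas.ker ψ h0).2.2.1, zero_add]
  refine (measure_iUnion_le _).trans ((ENNReal.tsum_le_tsum fun k => (Measure.le_add_right le_rfl
    _).trans (hC _ (by positivity))).trans_eq ?_)
  rw [← ENNReal.ofReal_tsum_of_nonneg (fun k => by positivity)
    ((summable_geometric_two.mul_left s).mul_left C), tsum_mul_left, tsum_mul_left,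
    tsum_geometric_two]
  ring_nf

end Vale.Agent.P352X.TPD

end
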