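import Vale.Agent.P352X.TPD.Spec

/-!
# P352X, block TPD: rows KILL and LIM
-/

set_option linter.all false

open MeasureTheory Filter Topology
open scoped SchwartzMap ComplexConjugate ENNReal ContDiff

namespace Vale.Agent.P352X.TPD

open Vale.Agent.P352 Vale.Agent.P352.GF Vale.Agent.P352.BW Vale.Agent.P352.H246
open Vale.Agent.P352.H496 Vale.Agent.P352.H755 Vale.Agent.P352.H15
open UniformSpace (Completion)

noncomputable section

variable {D : Type*} [NormedAddCommGroup D] [InnerProductSpace ℂ D] {c : Ctx D}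

namespace Lim

/-- geometric convergence of distributions -/
lemma exists_lim (x : ℕ → TT D) {q C : ℝ} {m : ℕ} (h0 : 0 ≤ q) (h1 : q < 1)
    (h : ∀ n f, ‖x (n + 1) f - x n f‖ ≤ C * q ^ n * sn m f) :
    ∃ y : TT D, ∀ f, Tendsto (fun n => x n f) atTop (𝓝 (y f)) := by
  have hd : ∀ f n, dist (x n f) (x (n + 1) f) ≤ C * sn m f * q ^ n := fun f n => by
    rw [dist_comm, dist_eq_norm, mul_right_comm]
    exact h n f
  choose y hy using fun f => cauchySeq_tendsto_of_complete (cauchySeq_of_le_geometric q _ h1 (hd f))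
  refine ⟨x 0 + SchwartzMap.mkCLMtoNormedSpace (σ := RingHom.id ℂ) (fun f => y f - x 0 f)
    (fun f g => ?_) (fun a f => ?_) ⟨Finset.Iic (m, m), |C| / (1 - q),
      div_nonneg (abs_nonneg C) (sub_pos.2 h1).le, fun f => ?_⟩, fun f => ?_⟩
  · rw [tendsto_nhds_unique (hy (f + g)) (by simpa using (hy f).add (hy g)), map_add]
    abel
  · rw [tendsto_nhds_unique (hy (a • f)) (by simpa using (hy f).const_smul a), map_smul, smul_sub,
      RingHom.id_apply]
  · rw [← dist_eq_norm, dist_comm]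
    refine (dist_le_of_le_geometric_of_tendsto₀ q _ h1 (hd f) (hy f)).trans ?_
    rw [div_mul_eq_mul_div]
    exact div_le_div_of_nonneg_right (mul_le_mul_of_nonneg_right (le_abs_self C)
      (apply_nonneg _ f)) (sub_pos.2 h1).le
  · convert hy f using 2
    exact add_sub_cancel _ _

lemma ani_pow (b : B0 c) (A : ANI c) {σ : ℝ} {K : Set V} {x : TT D} {r s : ℝ} (h1 : TC c x)
    (h2 : Loc c σ K x) (h3 : Bornology.IsBounded K) (r0 : 0 < r) (r1 : r < 1) (s0 : 0 < s)
    (s1 : s < 1) : ∃ (m : ℕ) (C : ℝ), ∀ N f, ‖(act c (Real.sqrt (r * s)) (Lsc r s))^[N] x f‖ ≤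
      C * ((r * s) ^ (-(15 / 8 : ℝ))) ^ N * sn m f := by
  obtain ⟨m, C, h⟩ := A σ K x r s h1 h2 h3 r0 r1 s0 s1
  obtain ⟨hL, hs, -⟩ := b.ten.lsc r s r0 s0
  have e : ∀ N f, ‖(act c (Real.sqrt (r * s)) (Lsc r s))^[N] x f‖ =
      ‖x ((pS (Real.sqrt (r * s)) (Lsc r s))^[N] f)‖ ∧
      ∀ z, (pS (Real.sqrt (r * s)) (Lsc r s))^[N] f z = f (scp (r ^ N) (s ^ N) z) := fun N => by
    induction N with
    | zero => simp
    | succ N ih =>
      refine fun f => ⟨?_, fun z => ?_⟩
      · rw [Function.iterate_succ_apply', b.ba.nrm, (ih _).1, Function.iterate_succ_apply]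
      · rw [Function.iterate_succ_apply, (ih _).2, pS_apply (by positivity) hL, hs,
          scp_scp _ r0.le s0.le, pow_succ', pow_succ']
  exact ⟨m, C, fun N f => (e N f).1.trans_le (h N f _ (e N f).2)⟩

/-- the distribution of a difference of two cutoffs -/
def Ps (w : WW D) (S : V → Tn (Fin 4)) (η η' : EC) : TT D := psi w (cs (η.1 - η'.1) S)

variable (b : B0 c) {w : WW D} (hw : Src c w) {S : V → Tn (Fin 4)} (hS : ContDiff ℝ ∞ S)
include b hw hS

lemma ok (η η' : EC) : Ok (cs (η.1 - η'.1) S) ∧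
    tsupport (cs (η.1 - η'.1) S) ⊆ tsupport η.1 ∪ tsupport η'.1 :=
  have h := b.ten.okc _ S (b.ten.ec η η').1 (b.ten.ec η η').2 hS
  ⟨h.1, h.2.trans (tsupport_sub _ _)⟩

lemma ps_add (η η' η'' : EC) : Ps w S η η' + Ps w S η' η'' = Ps w S η η'' := by
  rw [Ps, Ps, ← (b.bp w hw).add _ _ (ok b hw hS _ _).1 (ok b hw hS _ _).1]
  congr 1
  funext u
  simp only [cs, Pi.add_apply, Pi.sub_apply, ← add_smul, sub_add_sub_cancel]

lemma ps_tc (η η' : EC) : TC c (Ps w S η η') := (b.bp w hw).tc _ (ok b hw hS _ _).1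

lemma ps_loc {σ : ℝ} (hσ : σ * σ = 1) (he : ∀ u, S (-u) = σ • S u) (η η' : EC) :
    Loc c σ (tsupport η.1 ∪ tsupport η'.1) (Ps w S η η') :=
  b.ba.loc_mono _ _ _ _ (ok b hw hS _ _).2 ((b.bp w hw).loc σ _ hσ (ok b hw hS _ _).1 fun u => by
    simp only [cs, Pi.sub_apply, η.2.2, η'.2.2, he, smul_comm σ])

lemma ps_cov {s κ : ℝ} {L : Ix → V} (hs : 0 < s) (hL : IsLor L) (h : pf s L S = κ • S) (η η' : EC) :
    κ • act c s L (Ps w S (η.pull s L) (η'.pull s L)) = Ps w S η η' := by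
  rw [← map_smul, Ps, ← (b.bp w hw).smul _ _ (ok b hw hS _ _).1, Ps,
    ← (b.bp w hw).cov s L _ hs hL (ok b hw hS η η').1]
  congr 2
  funext u
  have := congrFun h u
  simp only [pf, Pi.smul_apply] at this
  simp only [pf, cs, Pi.smul_apply, Pi.sub_apply, map_smul, this, EC.pull_apply _ hs hL,
    smul_comm κ]

end Lim

open Lim

/-- **Row KILL.** -/
theorem kill_row (c : Ctx D) (b : B0 c) (A : ANI c) : KILL c := by
  intro σ y r s a h1 h2 r0 r1 s0 s1 h ha
  obtain ⟨m, C, hC⟩ := ani_pow b A h1 h2 Bornology.isBounded_empty r0 r1 s0 s1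
  have h0 : 0 < (r * s) ^ (-(15 / 8 : ℝ)) := by positivity
  have e : ∀ N, (act c (Real.sqrt (r * s)) (Lsc r s))^[N] y = a ^ N • y := fun N => by
    induction N with
    | zero => simp
    | succ N ih => rw [Function.iterate_succ_apply', ih, map_smul, h, smul_smul, pow_succ]
  refine ContinuousLinearMap.ext fun f => norm_le_zero_iff.1 ?_
  have t := (tendsto_pow_atTop_nhds_zero_of_lt_one (div_pos h0 (h0.trans ha)).le
    ((div_lt_one (h0.trans ha)).2 ha)).const_mul (C * sn m f)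
  rw [mul_zero] at t
  refine ge_of_tendsto' t fun N => ?_
  have := hC N f
  rw [e, ContinuousLinearMap.smul_apply, norm_smul, Real.norm_of_nonneg (pow_pos (h0.trans ha) N).le,
    ← le_div_iff₀' (pow_pos (h0.trans ha) N)] at this
  rw [div_pow, ← mul_div_assoc, mul_right_comm]
  exact this

/-- **Row LIM.** -/
theorem lim_row (c : Ctx D) (b : B0 c) (A : ANI c) : LIM c := by
  intro w hw σ S r s a hσ hS he r0 r1 s0 s1 h a0 ha
  obtain ⟨hL, hg, -⟩ := b.ten.lsc r s r0 s0
  obtain ⟨hL', hg', -⟩ := b.ten.lsc r⁻¹ s⁻¹ (inv_pos.2 r0) (inv_pos.2 s0)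
  have l0 : 0 < Real.sqrt (r * s) := by positivity
  have l0' : 0 < Real.sqrt (r⁻¹ * s⁻¹) := by positivity
  set P : EC → EC := fun η => η.pull (Real.sqrt (r⁻¹ * s⁻¹)) (Lsc r⁻¹ s⁻¹) with hP
  have i1 : ∀ z, scp r⁻¹ s⁻¹ (scp r s z) = z := fun z => by
    rw [scp_scp _ (inv_pos.2 r0).le (inv_pos.2 s0).le, inv_mul_cancel₀ r0.ne',
      inv_mul_cancel₀ s0.ne', scp_one]
  have i2 : ∀ z, scp r s (scp r⁻¹ s⁻¹ z) = z := fun z => by
    rw [scp_scp _ r0.le s0.le, mul_inv_cancel₀ r0.ne', mul_inv_cancel₀ s0.ne', scp_one]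
  have p0 : ∀ η u, (P η).1 u = η.1 (scp r⁻¹ s⁻¹ u) := fun η u => by
    rw [hP, EC.pull_apply _ l0' hL', hg']
  have p1 : ∀ η η' N, Ps w S (P^[N] η) (P^[N] η') =
      a ^ N • (act c (Real.sqrt (r * s)) (Lsc r s))^[N] (Ps w S η η') := fun η η' N => by
    have e : ∀ η, (P η).pull (Real.sqrt (r * s)) (Lsc r s) = η := fun η =>
      Subtype.ext (funext fun u => by rw [EC.pull_apply _ l0 hL, hg, p0, i1])
    induction N with
    | zero => simp
    | succ N ih =>
      simp only [Function.iterate_succ_apply']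
      rw [← ps_cov b hw hS l0 hL h, e, e, ih, map_smul, smul_smul, pow_succ']
  have p2 : ∀ η η' : EC, ∃ (m : ℕ) (C : ℝ), ∀ N f, ‖Ps w S (P^[N] η) (P^[N] η') f‖ ≤
      C * (a * (r * s) ^ (-(15 / 8 : ℝ))) ^ N * sn m f := fun η η' => by
    obtain ⟨m, C, hC⟩ := ani_pow b A (ps_tc b hw hS η η') (ps_loc b hw hS hσ he η η')
      (η.2.1.1.2.union η'.2.1.1.2).isBounded r0 r1 s0 s1
    refine ⟨m, C, fun N f => ?_⟩
    rw [p1, ContinuousLinearMap.smul_apply, norm_smul, Real.norm_of_nonneg (pow_nonneg a0 N)]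
    refine (mul_le_mul_of_nonneg_left (hC N f) (pow_nonneg a0 N)).trans_eq ?_
    rw [mul_pow]
    ring
  have q0 : 0 ≤ a * (r * s) ^ (-(15 / 8 : ℝ)) := by positivity
  have p3 : ∀ η : EC, ∃ y : TT D, ∀ f,
      Tendsto (fun N => Ps w S η (P^[N] η) f) atTop (𝓝 (y f)) := fun η => by
    obtain ⟨m, C, hC⟩ := p2 η (P η)
    refine exists_lim (fun N => Ps w S η (P^[N] η)) (C := C) (m := m) q0 ha fun N f => ?_
    rw [← ps_add b hw hS η (P^[N] η) (P^[N + 1] η), ContinuousLinearMap.add_apply,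
      add_sub_cancel_left, Function.iterate_succ_apply]
    exact hC N f
  choose x hx using p3
  have p4 : ∀ (η : EC) N, tsupport (P^[N] η).1 ⊆ scp (r ^ N) (s ^ N) '' tsupport η.1 := fun η N => by
    induction N with
    | zero => simp
    | succ N ih =>
      intro u hu
      rw [Function.iterate_succ_apply'] at hu
      obtain ⟨v, hv, e⟩ := ih ((b.ten.pull _ _ 1 _ _ l0' one_pos hL' hL').2.2 ▸
        Set.mem_image_of_mem _ hu)
      refine ⟨v, hv, ?_⟩
      rw [pow_succ', pow_succ', ← scp_scp _ r0.le s0.le, e, hg', i2]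
  refine ⟨x, ⟨fun η => ⟨fun y f => ?_, fun f => ?_⟩, fun η => ?_, fun η η' => ?_⟩,
    fun s' L κ hs' hL1 hc hκ => funext fun η => ContinuousLinearMap.ext fun f => ?_⟩
  · refine tendsto_nhds_unique (((Ut c.Q y).continuous.tendsto _).comp (hx η f)) ?_
    simpa only [Function.comp_def, (ps_tc b hw hS _ _).tra] using hx η (ST.tsl y f)
  · refine tendsto_nhds_unique (tendsto_const_nhds.inner (hx η f)) ?_
    simpa only [(ps_tc b hw hS _ _).perp] using tendsto_const_nhds
  · refine b.ba.loc_lim σ _ _ _ (hx η) fun ε hε => ?_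
    have hc : Continuous fun z : (ℝ × ℝ) × V => scp z.1.1 z.1.2 z.2 := by
      unfold scp
      fun_prop
    have t := ((tendsto_pow_atTop_nhds_zero_of_lt_one r0.le r1).prodMk_nhds
      (tendsto_pow_atTop_nhds_zero_of_lt_one s0.le s1)).eventually
        (η.2.1.1.2.isCompact.eventually_forall_of_forall_eventually
          (P := fun (t : ℝ × ℝ) z => scp t.1 t.2 z ∈ Metric.ball 0 ε) fun z _ =>
            (hc.tendsto' ((0, 0), z) 0 (null_ext (by simp) (by simp) (by simp))).eventually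
              (Metric.ball_mem_nhds 0 hε))
    refine t.mono fun N hN => b.ba.loc_mono _ _ _ _ (Set.union_subset_union_right _ ?_)
      (ps_loc b hw hS hσ he η _)
    refine (p4 η N).trans ?_
    rintro _ ⟨v, hv, rfl⟩
    exact hN v hv
  · refine ContinuousLinearMap.ext fun f => tendsto_nhds_unique ((hx η f).sub (hx η' f)) ?_
    obtain ⟨m, C, hC⟩ := p2 η η'
    have t := ((tendsto_pow_atTop_nhds_zero_of_lt_one q0 ha).const_mul C).mul_const (sn m f)
    rw [mul_zero, zero_mul] at t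
    have t2 := (squeeze_zero_norm (fun N => hC N f) t).const_sub (Ps w S η η' f)
    rw [sub_zero] at t2
    refine t2.congr fun N => ?_
    have := (ps_add b hw hS η (P^[N] η) (P^[N] η')).trans (ps_add b hw hS η η' (P^[N] η')).symm
    rw [sub_eq_sub_iff_add_eq_add, ← ContinuousLinearMap.add_apply, ← this,
      ContinuousLinearMap.add_apply]
  · have e : ∀ N, P^[N] (η.pull s' L) = (P^[N] η).pull s' L := fun N => by
      induction N with
      | zero => rfl
      | succ N ih =>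
        simp only [Function.iterate_succ_apply', ih]
        refine Subtype.ext (funext fun u => ?_)
        have e1 : ∀ z, sim s' L 0 z = s' • sim 1 L 0 z := fun z => funext fun n => by simp [sim]
        have e2 := hc (scp r⁻¹ s⁻¹ u)
        rw [i2] at e2
        rw [p0, EC.pull_apply _ hs' hL1, EC.pull_apply _ hs' hL1, p0, e1, e1 u, e2,
          ← scpL_apply (s' • _), map_smul, scpL_apply, i1]
    refine tendsto_nhds_unique ((((Ug c.Q s' L 0).continuous.tendsto _).comp
      (hx (η.pull s' L) (pS s' L f))).const_smul κ) ((hx η f).congr fun N => ?_)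
    rw [← ps_cov b hw hS hs' hL1 hκ, ← e, ContinuousLinearMap.smul_apply, act_apply,
      Function.comp_apply]

end

end Vale.Agent.P352X.TPD
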