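import Vale.Agent.P352X.TPD.Spec

/-!
# P352X, block TPD: the row NODES
-/

set_option linter.all false

namespace Vale.Agent.P352X.TPD

open Vale.Agent.P352 Vale.Agent.P352.GF Vale.Agent.P352.H496

noncomputable section

/-- nine null vectors -/
def nod : Fin 9 → V := ![![1, 1, 0, 0], ![1, -1, 0, 0], ![1, 0, 1, 0], ![1, 0, -1, 0],
  ![1, 0, 0, 1], ![1, 0, 0, -1], ![5, 3, 4, 0], ![5, 3, 0, 4], ![5, 0, 3, 4]]

/-- an entry of the traceless part -/
def tle (m n : Ix) : Tn (Fin 2) →ₗ[ℝ] ℝ where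
  toFun k := tl k ![m, n]
  map_add' k k' := by
    simp only [tl, trc, Pi.add_apply, mul_add, Finset.sum_add_distrib]
    ring
  map_smul' a k := by
    simp only [tl, trc, Pi.smul_apply, smul_eq_mul, RingHom.id_apply, Fin.sum_univ_four]
    ring

/-- the coefficients -/
def noc : Fin 9 → Tn (Fin 2) →ₗ[ℝ] ℝ :=
  ![(1 / 2 : ℝ) • (tle 1 1 - tle 0 1) - tle 1 2 - tle 1 3,
    (1 / 2 : ℝ) • (tle 1 1 + tle 0 1) + (1 / 4 : ℝ) • (tle 1 2 + tle 1 3),
    (1 / 2 : ℝ) • (tle 2 2 - tle 0 2) - (3 / 2 : ℝ) • tle 1 2 - tle 2 3,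
    (1 / 2 : ℝ) • (tle 2 2 + tle 0 2) + (1 / 6 : ℝ) • tle 1 2 + (1 / 4 : ℝ) • tle 2 3,
    (1 / 2 : ℝ) • (tle 3 3 - tle 0 3) - (3 / 2 : ℝ) • (tle 1 3 + tle 2 3),
    (1 / 2 : ℝ) • (tle 3 3 + tle 0 3) + (1 / 6 : ℝ) • (tle 1 3 + tle 2 3),
    (1 / 12 : ℝ) • tle 1 2, (1 / 12 : ℝ) • tle 1 3, (1 / 12 : ℝ) • tle 2 3]

lemma tle_symm (k : Tn (Fin 2)) (m n : Ix) : tle m n k = tle n m k := by
  have e : et ![m, n] = et ![n, m] := by
    show bas m (eta m) n = bas n (eta n) m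
    by_cases h : n = m
    · rw [h]
    · rw [bas, bas, if_neg h, if_neg (Ne.symm h)]
  show tl k ![m, n] = tl k ![n, m]
  simp only [tl, e, Matrix.cons_val_zero, Matrix.cons_val_one]
  ring

lemma tle_tr (k : Tn (Fin 2)) : tle 0 0 k = tle 1 1 k + tle 2 2 k + tle 3 3 k := by
  simp [tle, tl, trc, et, eta, bas, o, Fin.sum_univ_four]
  ring

theorem nodes_row : NODES := by
  refine ⟨9, nod, noc, fun i => ?_, fun k => funext fun ν => ?_⟩
  · fin_cases i <;> simp [IsNull, nod, GF.mdot, eta, o, Fin.sum_univ_four] <;> norm_num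
  · obtain ⟨m, n, rfl⟩ : ∃ m n, ν = ![m, n] :=
      ⟨ν 0, ν 1, funext fun i => by fin_cases i <;> rfl⟩
    show _ = tle m n k
    have s := tle_symm k
    have t := tle_tr k
    simp only [Fin.sum_univ_succ, nod, noc, sq, Matrix.cons_val_zero, Matrix.cons_val_succ,
      Matrix.cons_val_one, Finset.sum_apply, Pi.smul_apply, smul_eq_mul, LinearMap.sub_apply,
      LinearMap.add_apply, LinearMap.smul_apply, Finset.univ_eq_empty, Finset.sum_empty,
      Pi.add_apply, Pi.zero_apply]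
    fin_cases m <;> fin_cases n <;> simp [eta, o] <;>
      linarith [s 0 1, s 0 2, s 0 3, s 1 2, s 1 3, s 2 3]

end

end Vale.Agent.P352X.TPD
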