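import Vale.Agent.P352X.TPD.Ut
import Vale.Agent.P352X.R.JC.A2

/-!
# P352X, block TPD, row PHI: data for `u^2 η ⊗ n n`
-/

set_option linter.all false

open MeasureTheory Filter Topology
open scoped SchwartzMap ComplexConjugate ENNReal ContDiff

namespace Vale.Agent.P352X.TPD

open Vale.Agent.P352 Vale.Agent.P352.GF Vale.Agent.P352.BW Vale.Agent.P352.H246
open Vale.Agent.P352.H496 Vale.Agent.P352.H755 Vale.Agent.P352.H15
open UniformSpace (Completion)
open Complex (I)

noncomputable section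

namespace Phi

lemma pf_a (t : TEN) {s l : ℝ} {L : Ix → V} (hL : IsLor L) (h : sim 1 L 0 va = l • va)
    (hl : l ≠ 0) : pf s L (h0 (sq va)) = (s ^ 2 / l ^ 2) • h0 (sq va) := by
  have h1 := t.sq L va hL
  rw [h, sq_smul, map_smul] at h1
  have h2 : pb L (sq va) = (l ^ 2)⁻¹ • sq va := by
    rw [eq_inv_smul_iff₀ (pow_ne_zero 2 hl), h1]
  rw [t.h0 s L _ hL, h2, ((t.h0s _).2.2 0 _).2, smul_smul, div_eq_mul_inv]

lemma comm {l l' : ℝ} {L : Ix → V} (hL : IsLor L) (h : sim 1 L 0 va = l • va)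
    (h' : sim 1 L 0 vb = l' • vb) (hl : l ≠ 0) (hl' : l' ≠ 0) (r s : ℝ) (z : V) :
    sim 1 L 0 (scp r s z) = scp r s (sim 1 L 0 z) := by
  have h1 : ∀ x, al (sim 1 L 0 (tv x)) = 0 := fun x => by
    have := md_LL hL vb (tv x)
    rw [h', md_smul_l, md_vb, md_vb, al_tv] at this
    exact (mul_eq_zero.1 this).resolve_left hl'
  have h2 : ∀ x, be (sim 1 L 0 (tv x)) = 0 := fun x => by
    have := md_LL hL va (tv x)
    rw [h, md_smul_l, md_va, md_va, be_tv] at this
    exact (mul_eq_zero.1 this).resolve_left hl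
  have e : ∀ α β x, sim 1 L 0 (pt α β x) = (α * l) • va + (β * l') • vb + sim 1 L 0 (tv x) :=
    fun α β x => by rw [pt_eq, simL_add, simL_add, simL_smul, simL_smul, h, h', smul_smul, smul_smul]
  conv_rhs => rw [← pt_eta z, e]
  rw [scp, e, tv_smul, simL_smul]
  exact null_ext (by simp [h1, mul_assoc]) (by simp [h2, mul_assoc]) (by simp)

lemma ex_L (t : TEN) {n : V} (hn : IsNull n) : ∃ L, IsLor L ∧ sim 1 L 0 va = n := by
  obtain ⟨d, h1, -, h3⟩ := JCa.ex_null hn
  obtain ⟨L, s, -, k1, k2, -, k4, -⟩ := JCa.rl hn h1 h3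
  refine ⟨T.cm (Lb (-Real.log s)) L, (t.lcm _ _ k1 (t.lb _).1).1, ?_⟩
  rw [T.sim_cm, (t.lb _).2.1, show scp (Real.exp (-Real.log s)) (Real.exp (- -Real.log s)) va =
    s⁻¹ • va from null_ext (by simp [Real.exp_neg, Real.exp_log k2]) (by simp) (by simp),
    simL_smul, k4, inv_smul_smul₀ k2.ne']

variable {D : Type*} [NormedAddCommGroup D] [InnerProductSpace ℂ D] {c : Ctx D} {w : WW D}

/-- the highest weight datum -/
structure Top (c : Ctx D) (w : WW D) (β : Fam D) : Prop where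
  dat : Dat c w 1 (h0 (sq va)) β
  dil : ∀ s : ℝ, 0 < s → s ^ 2 • ga c s GF.one β = β
  fix : ∀ L (l l' : ℝ), IsLor L → sim 1 L 0 va = l • va → sim 1 L 0 vb = l' • vb → l ≠ 0 →
    l' ≠ 0 → ga c 1 L β = l ^ 2 • β

lemma ex_top (b : B0 c) (lim : LIM c) (hw : Src c w) : ∃ β, Top c w β := by
  have t := b.ten
  have hr : (0 : ℝ) < 2 ^ (-1 : ℝ) := by positivity
  have hs : (0 : ℝ) < 2 ^ (-16 : ℝ) := by positivity
  set r : ℝ := 2 ^ (-1 : ℝ) with er
  set s : ℝ := 2 ^ (-16 : ℝ) with es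
  have hq : 0 < Real.sqrt (r * s) := Real.sqrt_pos.2 (mul_pos hr hs)
  obtain ⟨h1, h2, -⟩ := t.lsc r s hr hs
  have h3 : sim 1 (Lsc r s) 0 va = (r / Real.sqrt (r * s)) • va := by
    have := h2 va
    rw [sim_s, show scp r s va = r • va from null_ext (by simp) (by simp) (by simp)] at this
    rw [div_eq_inv_mul, ← smul_smul, eq_inv_smul_iff₀ hq.ne', this]
  have h4 := pf_a t (s := Real.sqrt (r * s)) h1 h3 (div_pos hr hq).ne'
  rw [div_pow, Real.sq_sqrt (mul_pos hr hs).le,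
    show r * s / (r ^ 2 / (r * s)) = s ^ 2 by field_simp] at h4
  obtain ⟨β, hβ, cov⟩ := lim w hw 1 _ r s _ (one_mul _) (t.h0s _).1
    (fun u => by rw [(t.h0s _).2.1, one_smul]) hr
    (Real.rpow_lt_one_of_one_lt_of_neg one_lt_two (by norm_num)) hs
    (Real.rpow_lt_one_of_one_lt_of_neg one_lt_two (by norm_num)) h4 (sq_nonneg _) (by
      rw [er, es, ← Real.rpow_add two_pos, ← Real.rpow_mul zero_le_two, ← Real.rpow_natCast,
        ← Real.rpow_mul zero_le_two, ← Real.rpow_add two_pos]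
      exact Real.rpow_lt_one_of_one_lt_of_neg one_lt_two (by norm_num))
  refine ⟨β, hβ, fun s' h => cov s' _ _ h (lor_one t) (fun z => by rw [sim_id, sim_id]) ?_,
    fun L l l' hL e e' hl hl' => ?_⟩
  · simpa using pf_a t (s := s') (l := 1) (lor_one t) (by rw [sim_id, one_smul]) one_ne_zero
  · have := cov 1 L _ one_pos hL (comm hL e e' hl hl' r s) (pf_a t hL e hl)
    rw [one_pow, one_div, inv_smul_eq_iff₀ (pow_ne_zero 2 hl)] at this
    exact this

variable {β : Fam D}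

lemma Top.rot (h : Top c w β) (b : B0 c) (wl : WL c) (hw : Src c w) (v : R2) :
    ga c 1 (Lg v) β = β := by
  have t := b.ten
  have P := b.bp w hw
  have hS := (t.h0s (sq va)).1
  obtain ⟨η⟩ := ec0 t
  have hg := fun v => (t.lg v).1
  have e : ∀ v, sim 1 (Lg v) 0 va = (1 : ℝ) • va := fun v => by
    rw [(t.lg v).2.1]
    exact null_ext (by simp) (by simp) (by simp)
  have d : Dat c w 1 (h0 (sq va)) (ga c 1 (Lg v) β) := P.dact 1 1 _ _ _ one_pos (hg v) hS
    (by simpa [pf_a t (hg v) (e v) one_ne_zero] using h.dat)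
  obtain ⟨y, hy, ey⟩ := P.dhom 1 2 _ (P.dsub hS d h.dat) fun s hs => by
    rw [map_sub, smul_sub, h.dil s hs, ← (ga_dil b hs (hg v) β).2, (ga_dil b hs (hg v) β).1,
      ← map_smul, h.dil s hs]
  obtain ⟨z, z1, z2, z3, -⟩ := wl 1 2 y (one_mul _) hy
  have eb : ∀ τ, ga c 1 (Lb τ) β = Real.exp τ ^ 2 • β := fun τ =>
    h.fix _ _ (Real.exp (-τ)) (t.lb τ).1
      (by rw [(t.lb τ).2.1]; exact null_ext (by simp) (by simp) (by simp))
      (by rw [(t.lb τ).2.1]; exact null_ext (by simp) (by simp) (by simp))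
      (Real.exp_pos _).ne' (Real.exp_pos _).ne'
  have l := (wt_lim b (s := Finset.Icc (-3) 3) (y := 0) (m := 2) (fun n => (z1 n).2) fun f => by
    have l0 : Tendsto (fun τ : ℝ => Lg (Real.exp τ • v)) atBot (𝓝 GF.one) := by
      have := (t.lg0.2.tendsto _).comp (Real.tendsto_exp_atBot.smul_const v)
      rwa [zero_smul, t.lg0.1] at this
    have l1 := (P.dcont 1 _ β ℝ atBot _ _ η f hS h.dat (fun τ => hg _) (lor_one t) l0).sub_const
      (β η f)
    rw [b.ba.gone, sub_self] at l1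
    refine l1.congr fun τ => ?_
    have : act c 1 (Lb τ) y = (Real.exp τ ^ 2 • (ga c 1 (Lg (Real.exp τ • v)) β - β)) η := by
      rw [← ey (η.pull 1 (Lb τ)), ← ga_apply, map_sub, ga_cm b (t.lb τ).1 (hg v),
        (t.lb τ).2.2.2, ← ga_cm b (hg _) (t.lb τ).1, eb, map_smul, smul_sub]
    rw [← z3, this, Pi.smul_apply, ContinuousLinearMap.smul_apply, smul_smul, ← Real.exp_nat_mul,
      ← Real.exp_add]
    simp).1
  have y0 : y = 0 := z3.trans (Finset.sum_eq_zero fun n hn => by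
    rcases lt_or_ge n 2 with k | k
    exacts [l n hn k, z2 n (by simpa using k.trans (le_abs_self n))])
  exact sub_eq_zero.1 (funext fun η => (ey η).trans y0)

lemma Top.stab (h : Top c w β) (b : B0 c) (wl : WL c) (hw : Src c w) {L : Ix → V} {l : ℝ}
    (hL : IsLor L) (e : sim 1 L 0 va = l • va) (hl : l ≠ 0) : ga c 1 L β = l ^ 2 • β := by
  have t := b.ten
  set q := sim 1 L 0 vb with hq
  have h1 : be q = l⁻¹ := by
    have := md_LL hL va vb
    rw [e, md_smul_l, md_ab, md_va] at this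
    exact eq_inv_of_mul_eq_one_right this
  have h2 : mdot q q = 0 := (md_LL hL vb vb).trans null_vb.1
  set v := l • tx q with hv
  have h3 : tx (gap (-v) q) = 0 := by
    rw [tx_gap, h1, hv, smul_neg, inv_smul_smul₀ hl, add_neg_cancel]
  have h4 : al (gap (-v) q) = 0 := by
    have := (md_gap q q (-v)).trans h2
    rw [mdot_null, h3, be_gap, h1, d2_zero, sub_zero, mul_comm, ← two_mul] at this
    simpa [hl] using this
  have k1 := (t.lcm _ _ (t.lg (-v)).1 hL).1
  have k2 := h.fix _ l l⁻¹ k1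
    (by rw [T.sim_cm, e, (t.lg _).2.1]; exact null_ext (by simp) (by simp) (by simp))
    (by rw [T.sim_cm, (t.lg _).2.1]
        exact null_ext (by simpa using h4) (by simpa using h1) (by simpa using h3))
    hl (inv_ne_zero hl)
  have k3 : T.cm (T.cm L (Lg (-v))) (Lg v) = L := T.mat_ext fun x => by
    rw [T.sim_cm, T.sim_cm, (t.lg _).2.1, (t.lg _).2.1, gap_gap, add_neg_cancel, gap_zero]
  rw [← k3, ← ga_cm b (t.lg v).1 k1, k2, map_smul, h.rot b wl hw]

lemma Top.ray (h : Top c w β) (b : B0 c) (wl : WL c) (hw : Src c w) {L L' : Ix → V} {l : ℝ}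
    (hL : IsLor L) (hL' : IsLor L') (e : sim 1 L' 0 va = l • sim 1 L 0 va) (hl : l ≠ 0) :
    ga c 1 L' β = l ^ 2 • ga c 1 L β := by
  have k1 := (b.ten.lcm _ _ (isLor_linv hL) hL').1
  have k3 : T.cm (T.cm L' (linv L)) L = L' := T.mat_ext fun x => by
    rw [T.sim_cm, T.sim_cm, sim_linv hL]
  rw [← k3, ← ga_cm b hL k1, h.stab b wl hw k1 (l := l)
    (by rw [T.sim_cm, e, simL_smul, linv_sim _ hL]) hl, map_smul]

end Phi

variable {D : Type*} [NormedAddCommGroup D] [InnerProductSpace ℂ D]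

/-- **row PHI** -/
theorem phi_row (c : Ctx D) (b : B0 c) (lim : LIM c) (wl : WL c) : PHI c := by
  intro w hw
  have t := b.ten
  obtain ⟨β, h⟩ := Phi.ex_top b lim hw
  choose! M hM eM using fun n (hn : IsNull n) => Phi.ex_L t hn
  refine ⟨fun n => ga c 1 (M n) β, fun n hn => ?_, fun n s hn hs => ?_, fun s L n hs hL hn => ?_⟩
  · refine (b.bp w hw).dact 1 1 _ _ _ one_pos (hM n hn) (t.h0s _).1 ?_
    have := t.sq _ va (hM n hn)
    rw [eM n hn] at this
    rw [t.h0 _ _ _ (hM n hn), this, one_pow, one_smul]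
    exact h.dat
  · have hn' : IsNull (s • n) :=
      ⟨by rw [md_smul, md_smul_l, hn.1, mul_zero, mul_zero], mul_pos hs hn.2⟩
    exact h.ray b wl hw (hM n hn) (hM _ hn') (by rw [eM n hn, eM _ hn']) hs.ne'
  · have hn' := isNull_lor hL hn
    have k := (t.lcm _ _ hL (hM n hn)).1
    have := h.ray b wl hw (l := 1) k (hM _ hn') (by rw [eM _ hn', T.sim_cm, eM n hn, one_smul])
      one_ne_zero
    rw [this, one_pow, one_smul, b.ba.gmul _ _ _ _ _ hs one_pos hL (hM n hn), mul_one,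
      (ga_dil b hs k β).1, ← map_smul, h.dil s hs]

end

end Vale.Agent.P352X.TPD
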