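import Vale.Agent.P352X.TPD.Spec

/-! # P352X, block TPD: row POLYN -/

set_option linter.all false

open Finset

namespace Vale.Agent.P352X.TPD

open Vale.Agent.P352.GF Vale.Agent.P352.H496

noncomputable section

namespace Polyn

/-- the coefficients of the interpolation polynomial with the nodes `0, ..., 4` -/
def cf (g : ℕ → ℂ) : ℕ → ℂ
  | 0 => g 0
  | 1 => -25 / 12 * g 0 + 4 * g 1 - 3 * g 2 + 4 / 3 * g 3 - g 4 / 4
  | 2 => 35 / 24 * g 0 - 13 / 3 * g 1 + 19 / 4 * g 2 - 7 / 3 * g 3 + 11 / 24 * g 4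
  | 3 => -5 / 12 * g 0 + 3 / 2 * g 1 - 2 * g 2 + 7 / 6 * g 3 - g 4 / 4
  | _ => g 0 / 24 - g 1 / 6 + g 2 / 4 - g 3 / 6 + g 4 / 24

/-- the interpolation polynomial -/
def ip (g : ℕ → ℂ) (u : ℂ) : ℂ := ∑ a ∈ range 5, cf g a * u ^ a

lemma nat (g : ℕ → ℂ) (h : ∀ k, g (k + 5) =
    5 * g (k + 4) - 10 * g (k + 3) + 10 * g (k + 2) - 5 * g (k + 1) + g k) (k : ℕ) :
    g k = ip g k := by
  induction k using Nat.strong_induction_on with
  | _ k ih =>
    match k, ih with
    | 0, _ => simp [ip, cf, sum_range_succ]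
    | 1, _ => simp only [ip, cf, sum_range_succ, range_zero, sum_empty]; push_cast; ring
    | 2, _ => simp only [ip, cf, sum_range_succ, range_zero, sum_empty]; push_cast; ring
    | 3, _ => simp only [ip, cf, sum_range_succ, range_zero, sum_empty]; push_cast; ring
    | 4, _ => simp only [ip, cf, sum_range_succ, range_zero, sum_empty]; push_cast; ring
    | k + 5, ih =>
      rw [h k, ih (k + 4) (by omega), ih (k + 3) (by omega), ih (k + 2) (by omega),
        ih (k + 1) (by omega), ih k (by omega)]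
      simp only [ip, sum_range_succ, range_zero, sum_empty]
      push_cast
      ring

lemma aff (g : ℕ → ℂ) (n M t : ℂ) :
    ip g (n * (t + M)) = ip (fun j => ip g (n * (j + M))) t := by
  simp only [ip, sum_range_succ, range_zero, sum_empty]
  generalize cf g 0 = c0, cf g 1 = c1, cf g 2 = c2, cf g 3 = c3, cf g 4 = c4
  simp only [cf]
  push_cast
  ring

lemma one (g : ℝ → ℂ) (hc : Continuous g) (h : ∀ x w, g (x + 5 * w) = 5 * g (x + 4 * w) -
    10 * g (x + 3 * w) + 10 * g (x + 2 * w) - 5 * g (x + w) + g x) (t : ℝ) :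
    g t = ip (fun j => g j) t := by
  refine congrFun (Rat.denseRange_cast.equalizer hc
    (h := fun t : ℝ => ip (fun j => g j) t) (by unfold ip; fun_prop) (funext fun q => ?_)) t
  obtain ⟨M, k, hk⟩ : ∃ M k : ℕ, (k : ℝ) = q.den * (q + M) := by
    refine ⟨q.num.natAbs, (q.num + q.den * q.num.natAbs).toNat, ?_⟩
    have h1 : 0 ≤ q.num + q.den * q.num.natAbs := by
      have : (1 : ℤ) ≤ q.den := by exact_mod_cast q.pos
      nlinarith [neg_abs_le q.num, abs_nonneg q.num, Int.natCast_natAbs q.num]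
    have h2 : ((q.num + q.den * q.num.natAbs).toNat : ℝ) =
        ((q.num + q.den * q.num.natAbs : ℤ) : ℝ) := by
      rw [← Int.cast_natCast, Int.toNat_of_nonneg h1]
    have h3 : (q.den : ℝ) * q = q.num := by exact_mod_cast Rat.den_mul_eq_num q
    rw [h2, mul_add, h3, Int.cast_add, Int.cast_mul, Int.cast_natCast, Int.cast_natCast]
  have d0 : (q.den : ℝ) ≠ 0 := Nat.cast_ne_zero.2 q.den_nz
  have key := nat (fun k => g (-M + k / q.den)) fun k => by
    have := h (-M + k / q.den) (1 / q.den)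
    push_cast
    simp only [add_div, ← add_assoc]
    simpa only [mul_one_div] using this
  have e1 : g q = ip (fun k => g (-M + k / q.den)) (q.den * ((q : ℝ) + M)) := by
    have := key k
    rw [hk, mul_div_cancel_left₀ _ d0, neg_add_cancel_comm_assoc] at this
    rw [this, ← Complex.ofReal_natCast k, hk]
    push_cast
    rfl
  have e2 : (fun j : ℕ => g j) =
      fun j : ℕ => ip (fun k => g (-M + k / q.den)) (q.den * (j + M)) := funext fun j => by
    have := key (q.den * (j + M))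
    push_cast at this
    rwa [mul_div_cancel_left₀ _ d0, neg_add_cancel_comm_assoc] at this
  show g q = ip (fun j : ℕ => g j) (q : ℝ)
  rw [e2, ← aff, e1]

lemma lin (c : ℕ → ℕ → ℂ) (y : ℂ) (a : ℕ) :
    cf (fun i => ip (c i) y) a = ∑ b ∈ range 5, cf (fun i => cf (c i) b) a * y ^ b := by
  simp only [ip, sum_range_succ, range_zero, sum_empty]
  generalize (fun i b => cf (c i) b) = d
  match a with
  | 0 => rfl
  | 1 | 2 | 3 | a + 4 => simp only [cf]; ring

lemma two (P : R2 → ℂ) (hc : Continuous P) (h : ∀ x w, df5 P x w = 0) : ∃ p : ℕ → ℕ → ℂ,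
    ∀ x, P x = ∑ a ∈ range 5, (∑ b ∈ range 5, p a b * (x 1 : ℂ) ^ b) * (x 0 : ℂ) ^ a := by
  have h' : ∀ (x w : R2) (t : ℝ), P (x + t • w) = ip (fun j => P (x + (j : ℝ) • w)) t :=
    fun x w => one (fun t => P (x + t • w)) (by fun_prop) fun s u => by
      have := h (x + s • w) (u • w)
      simp only [df5, sum_range_succ, range_zero, sum_empty, smul_smul, add_assoc, ← add_smul,
        Complex.real_smul] at this
      norm_num [Nat.choose] at this
      linear_combination this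
  refine ⟨fun a b => cf (fun i => cf (fun j => P ![i, j]) b) a, fun x => ?_⟩
  have e1 : ∀ s t : ℝ, (![0, t] + s • ![1, 0] : R2) = ![s, t] := fun s t => by
    ext i; fin_cases i <;> simp
  have e2 : ∀ s t : ℝ, (![s, 0] + t • ![0, 1] : R2) = ![s, t] := fun s t => by
    ext i; fin_cases i <;> simp
  have e3 : x = ![x 0, x 1] := by ext i; fin_cases i <;> rfl
  have k1 := h' ![0, x 1] ![1, 0] (x 0)
  have k2 := fun i : ℕ => h' ![i, 0] ![0, 1] (x 1)
  simp only [e1, e2] at k1 k2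
  rw [← e3] at k1
  simp only [k1, k2, ← lin]
  rfl

/-- the homogeneous parts -/
def hp (p : ℕ → ℕ → ℂ) (x y : ℂ) (k : ℕ) : ℂ :=
  ∑ a ∈ range 5, ∑ b ∈ range 5, if a + b = k then p a b * y ^ b * x ^ a else 0

lemma ray (p : ℕ → ℕ → ℂ) (x y t : ℂ) :
    ∑ a ∈ range 5, (∑ b ∈ range 5, p a b * (t * y) ^ b) * (t * x) ^ a =
      ∑ k ∈ range 9, hp p x y k * t ^ k := by
  simp [hp, sum_range_succ]
  ring

open Polynomial in
lemma cmp (A B : ℕ → ℂ) (h : ∀ t : ℝ, t ≠ 0 →
    ∑ k ∈ range 9, A k * (t : ℂ) ^ (k + 4) = ∑ k ∈ range 9, B k * (t : ℂ) ^ (8 - k)) :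
    ∑ k ∈ range 9, A k = A 0 + A 1 + A 2 + B 1 + B 0 := by
  have e : ∑ k ∈ range 9, C (A k) * X ^ (k + 4) = ∑ k ∈ range 9, C (B k) * X ^ (8 - k) := by
    refine eq_of_infinite_eval_eq _ _ ((((Set.finite_singleton (0 : ℝ)).infinite_compl).image
      Complex.ofReal_injective.injOn).mono ?_)
    rintro _ ⟨t, ht, rfl⟩
    simpa [eval_finset_sum] using h t ht
  have k := fun j => congrArg (coeff · j) e
  have k7 := k 7
  have k8 := k 8
  have k9 := k 9
  have k10 := k 10
  have k11 := k 11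
  have k12 := k 12
  simp only [finset_sum_coeff, coeff_C_mul_X_pow] at k7 k8 k9 k10 k11 k12
  simp [sum_range_succ] at k7 k8 k9 k10 k11 k12
  simp [sum_range_succ, k7, k8, k9, k10, k11, k12]

end Polyn

open Polyn in
/-- row POLYN -/
theorem polyn_row : POLYN := by
  intro φ hom c1 c2 d1 d2'
  obtain ⟨p, hP⟩ := two _ c1 d1
  obtain ⟨q, hQ⟩ := two _ c2 d2'
  have nul : ∀ x : R2, IsNull (na x) ∧ IsNull (nb x) := fun x => by
    simp [IsNull, Vale.Agent.P352.GF.mdot, na, nb, P352X.pt, d2, Fin.sum_univ_four, eta, o]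
    refine ⟨⟨by ring, ?_⟩, by ring, ?_⟩ <;> nlinarith [mul_self_nonneg (x 0), mul_self_nonneg (x 1)]
  have key : ∀ w : R2, φ (nb w) = p 0 0 + (p 1 0 * w 0 + p 0 1 * w 1) +
      (p 2 0 * w 0 ^ 2 + p 1 1 * w 0 * w 1 + p 0 2 * w 1 ^ 2) +
      (d2 w w / 2 : ℝ) * (q 1 0 * w 0 + q 0 1 * w 1) + (d2 w w / 2 : ℝ) ^ 2 * q 0 0 := fun w => by
    by_cases hw : d2 w w = 0
    · have h0 : w 0 = 0 := by unfold d2 at hw; nlinarith [mul_self_nonneg (w 1)]
      have h1 : w 1 = 0 := by unfold d2 at hw; nlinarith [mul_self_nonneg (w 0)]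
      rw [hP]
      simp [hw, h0, h1, sum_range_succ]
    have d0 : 0 < d2 w w := lt_of_le_of_ne
      (add_nonneg (mul_self_nonneg _) (mul_self_nonneg _)) (Ne.symm hw)
    have d0' : (d2 w w : ℂ) ≠ 0 := Complex.ofReal_ne_zero.2 hw
    have := cmp (hp p (w 0) (w 1)) (fun k => (d2 w w / 2 : ℝ) ^ 2 *
      hp q (2 / d2 w w * w 0) (2 / d2 w w * w 1) k) fun t ht => by
      have t0 : (t : ℂ) ≠ 0 := Complex.ofReal_ne_zero.2 ht
      have e : nb (t • w) = (t ^ 2 * d2 w w / 2) • na ((t⁻¹ * (2 / d2 w w)) • w) := by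
        have e1 : ∀ s : ℝ, d2 (s • w) (s • w) = s ^ 2 * d2 w w := fun s => by
          simp only [d2, Pi.smul_apply, smul_eq_mul]; ring
        ext i
        fin_cases i <;> simp [na, nb, P352X.pt, e1] <;> field_simp
      have e2 := hom _ _ (nul ((t⁻¹ * (2 / d2 w w)) • w)).1
        (show 0 < t ^ 2 * d2 w w / 2 by positivity)
      rw [← e, hP, hQ] at e2
      simp only [Pi.smul_apply, smul_eq_mul, mul_assoc t⁻¹, Complex.ofReal_mul, ray] at e2
      simp only [pow_add, ← mul_assoc, ← sum_mul]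
      rw [e2]
      simp only [sum_range_succ, range_zero, sum_empty]
      push_cast
      field_simp
      ring
    have e3 := ray p (w 0) (w 1) 1
    simp only [one_mul, one_pow, mul_one] at e3
    rw [hP, e3, this]
    simp [hp, sum_range_succ]
    field_simp
    ring
  refine ⟨![![p 0 0 + q 0 0 / 4, 2 * p 0 0 - q 0 0 / 2, -p 1 0 - q 1 0 / 2, -p 0 1 - q 0 1 / 2],
    ![0, p 0 0 + q 0 0 / 4, -p 1 0 + q 1 0 / 2, -p 0 1 + q 0 1 / 2], ![0, 0, p 2 0, p 1 1],
    ![0, 0, 0, p 0 2]], fun n hn => ?_⟩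
  obtain ⟨h1, h2⟩ := hn
  simp [Vale.Agent.P352.GF.mdot, Fin.sum_univ_four, eta, o] at h1 h2
  have h3 : 0 ≤ n 0 - n 1 := by nlinarith [mul_self_nonneg (n 2), mul_self_nonneg (n 3)]
  rcases h3.eq_or_lt with h3 | h3
  · have e1 : n 1 = n 0 := by linarith
    have e2 : n 2 = 0 := by rw [e1] at h1; nlinarith [mul_self_nonneg (n 3)]
    have e3 : n 3 = 0 := by rw [e1] at h1; nlinarith [mul_self_nonneg (n 2)]
    have e : n = n 0 • na 0 := by
      ext i
      fin_cases i <;> simp [na, P352X.pt, d2, e1, e2, e3]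
    rw [e, hom _ _ (nul 0).1 h2, hQ, ← e]
    simp [sq, Fin.sum_univ_four, eta, o, sum_range_succ, e1, e2, e3]
    ring
  · set x : R2 := ![n 2 / (n 0 - n 1), n 3 / (n 0 - n 1)] with hx
    have e1 : d2 x x / 2 = (n 0 + n 1) / 2 / (n 0 - n 1) := by
      simp only [d2, hx, Matrix.cons_val_zero, Matrix.cons_val_one]
      field_simp
      linarith
    have e : n = (n 0 - n 1) • nb x := by
      rw [nb, e1]
      ext i
      fin_cases i <;> simp [P352X.pt, hx] <;> field_simp <;> ring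
    have h4 : (n 0 : ℂ) - n 1 ≠ 0 := by exact_mod_cast h3.ne'
    rw [e, hom _ _ (nul x).2 h3, key, e1, ← e]
    simp [sq, Fin.sum_univ_four, eta, o, hx]
    field_simp
    ring

end

end Vale.Agent.P352X.TPD
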