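import Vale.Agent.P352X.TPD.Spec
import Vale.Agent.P352X.SN.Tool2

/-!
# P352X, block TPD: row POT (helper83)
-/

set_option linter.all false

open MeasureTheory Filter Topology
open scoped SchwartzMap ComplexConjugate ENNReal ContDiff

namespace Vale.Agent.P352X.TPD

open Vale.Agent.P352 Vale.Agent.P352.GF Vale.Agent.P352.BW Vale.Agent.P352.H246
open Vale.Agent.P352.H496 Vale.Agent.P352.H755 Vale.Agent.P352.H15
open UniformSpace (Completion)
open Complex (I)
open SN SN.Calc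

noncomputable section

namespace Ptr

section gen

variable {X : Type*} [MeasurableSpace X] {H : Type*} [NormedAddCommGroup H]
  [InnerProductSpace ℂ H] [CompleteSpace H] {C : Calc X H} {F : X → ℂ} {v : H} {A : Set X}

lemma P_Psi (hA : MeasurableSet A) (hF : C.Dom F v) :
    C.P A (C.Psi F v) = C.Psi (A.indicator F) v := by
  rw [P, Phi_Psi (Bd.ind hA) hF]
  congr 1
  funext p
  by_cases hp : p ∈ A <;> simp [hp]

lemma dom_ind (hA : MeasurableSet A) (hF : C.Dom F v) : C.Dom (A.indicator F) v :=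
  hF.of_le (hF.1.indicator hA) (K := 1) (Eventually.of_forall fun p => by
    rw [one_mul]; exact norm_indicator_le_norm_self _ _)

/-- cancellation -/
lemma null_of_P (hA : MeasurableSet A) (hF : C.Dom F v) (h : C.P A (C.Psi F v) = 0) :
    ∀ᵐ p ∂C.nu v, p ∈ A → F p = 0 := by
  have hd := dom_ind hA hF
  have h1 := norm_Psi_sq hd
  rw [← P_Psi hA hF, h, norm_zero, zero_pow two_ne_zero, eq_comm,
    integral_eq_zero_iff_of_nonneg (fun p => by positivity) hd.integrable_sq] at h1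
  filter_upwards [h1] with p hp hpA
  simpa [hpA] using hp

lemma eq_zero_of_ae (h : ∀ᵐ p ∂C.nu v, False) : v = 0 := by
  have h1 := C.nu_univ v
  rw [Measure.real, show C.nu v Set.univ = 0 by simpa [ae_iff] using h] at h1
  simpa using h1.symm

end gen

variable {D : Type*} [NormedAddCommGroup D] [InnerProductSpace ℂ D] {c : Ctx D}

/-- the symbol of the derivative -/
abbrev rr (v : V) : V → ℂ := fun p => (mdot p v : ℝ)

/-- the mass -/
abbrev mm : V → ℂ := fun p => (mu p : ℝ)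

lemma mZ : MeasurableSet {p : V | mu p = 0} := meas_mu (measurableSet_singleton 0)

lemma mN : MeasurableSet {p : V | mu p ≠ 0} := mZ.compl

lemma der2 (B : BA c) {x : TT D} (h : TC c x) (v w : V) (f : Sch) :
    c.bt.Dom (fun p => rr v p * rr w p) (x f) ∧
      x (KDa.dS v (KDa.dS w f)) = -c.bt.Psi (fun p => rr v p * rr w p) (x f) := by
  obtain ⟨d1, e1⟩ := B.tc_psi w x f h
  obtain ⟨d2, e2⟩ := B.tc_psi v x (KDa.dS w f) h
  rw [e1] at d2 e2
  have d3 : c.bt.Dom (rr v) (c.bt.Psi (rr w) (x f)) := by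
    have := d2.smul_vec I
    rwa [smul_smul, mul_neg, Complex.I_mul_I, neg_neg, one_smul] at this
  obtain ⟨d4, e4⟩ := Psi_mul d1 d3
  refine ⟨d4, ?_⟩
  rw [e2, Psi_smul_vec _ d3, smul_smul, neg_mul_neg, Complex.I_mul_I, e4, neg_one_smul]

lemma mu_sum : mm = fun p => ∑ m, (eta m : ℂ) * (rr (bas m 1) p * rr (bas m 1) p) := by
  funext p
  simp only [mm, rr, mu, mdot_eq, Fin.sum_univ_four]
  simp [bas, eta, o]
  ring

lemma bx_psi (B : BA c) {x : TT D} (h : TC c x) (f : Sch) :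
    c.bt.Dom mm (x f) ∧ x (bx f) = -c.bt.Psi mm (x f) := by
  have d := fun m => ((der2 B h (bas m 1) (bas m 1) f).1.smul (eta m : ℂ))
  rw [mu_sum]
  refine ⟨Dom.sum _ fun m _ => d m, ?_⟩
  rw [Psi_sum _ fun m _ => d m, ← Finset.sum_neg_distrib, bx, ContinuousLinearMap.sum_apply,
    map_sum]
  refine Finset.sum_congr rfl fun m _ => ?_
  rw [ContinuousLinearMap.smul_apply, ContinuousLinearMap.map_smul_of_tower,
    ContinuousLinearMap.comp_apply, (der2 B h _ _ f).2, Psi_smul _ (der2 B h _ _ f).1, smul_neg,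
    Complex.coe_smul]

lemma tc_dvg (B : BA c) {n : V → TT D} (h : ∀ v, TC c (n v)) : TC c (dvg n) :=
  Finset.sum_induction _ (TC c) B.tc_add B.tc0 fun m _ => B.tc_smul _ _ (B.tc_der _ _ (h _))

lemma loc_dvg (B : BA c) {n : V → TT D} {σ K} (h : ∀ v, Loc c σ K (n v)) :
    Loc c (-σ) K (dvg n) :=
  Finset.sum_induction _ (Loc c (-σ) K) (B.loc_add _ _) (B.loc0 _ _) fun m _ =>
    B.loc_smul _ _ _ _ (B.loc_der _ _ _ _ (h _))

lemma tc_sub (B : BA c) {x y : TT D} (hx : TC c x) (hy : TC c y) : TC c (x - y) := by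
  have := B.tc_add _ _ hx (B.tc_smul (-1) _ hy)
  rwa [neg_one_smul, ← sub_eq_add_neg] at this

lemma tc_bx (B : BA c) {x : TT D} (h : TC c x) : TC c (x ∘L bx) := by
  have : x ∘L bx = dvg fun v => x ∘L KDa.dS v := by
    ext1 f
    simp [bx, dvg]
  rw [this]
  exact tc_dvg B fun v => B.tc_der _ _ h

lemma ae_pos (b : BAS c) {z : Completion D} (h : inner ℂ c.Om z = 0) :
    ∀ᵐ p ∂c.nu z, 0 < p o ∧ al p ≠ 0 ∧ be p ≠ 0 := by
  obtain ⟨h1, h2, -⟩ := b.ker z h
  filter_upwards [b.cone z, measure_eq_zero_iff_ae_notMem.1 h1,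
    measure_eq_zero_iff_ae_notMem.1 h2] with p hp h1 h2
  refine ⟨lt_of_le_of_ne hp.1 fun e => h1 ?_, h2, h1⟩
  have h3 := hp.2
  have e' : p 0 = 0 := e.symm
  rw [mu, mdot_eq, e'] at h3
  show be p = 0
  rw [be_eq, e']
  nlinarith [mul_self_nonneg (p 1), mul_self_nonneg (p 2), mul_self_nonneg (p 3)]

lemma mu_le {F G : V → ℂ} {x : TT D} (h : Mu c G x) {K : ℝ} (hK : 0 ≤ K)
    (hle : ∀ f, ∀ᵐ p ∂c.nu (x f), ‖F p‖ ≤ K * ‖G p‖) : Mu c F x := by
  obtain ⟨m, C, hC⟩ := h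
  refine ⟨m, K * C, fun f => ?_⟩
  calc ∫⁻ p, ENNReal.ofReal (‖F p‖ ^ 2) ∂c.nu (x f)
      ≤ ∫⁻ p, ENNReal.ofReal (K ^ 2) * ENNReal.ofReal (‖G p‖ ^ 2) ∂c.nu (x f) := by
        refine lintegral_mono_ae ?_
        filter_upwards [hle f] with p hp
        rw [← ENNReal.ofReal_mul (by positivity), ← mul_pow]
        exact ENNReal.ofReal_le_ofReal (pow_le_pow_left₀ (norm_nonneg _) hp 2)
    _ ≤ ENNReal.ofReal (K ^ 2) * ENNReal.ofReal ((C * sn m f) ^ 2) := by
        rw [lintegral_const_mul' _ _ ENNReal.ofReal_ne_top]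
        exact mul_le_mul_right (hC f) _
    _ = _ := by rw [← ENNReal.ofReal_mul (by positivity), ← mul_pow, mul_assoc]

/-- the inverse of the derivative on `A` -/
def iv (a : V) (A : Set V) : V → ℂ := A.indicator fun p => I * (rr a p)⁻¹

lemma meas_iv (a : V) {A : Set V} (hA : MeasurableSet A) : Measurable (iv a A) :=
  Measurable.indicator (by fun_prop) hA

lemma norm_iv (a : V) (A : Set V) (p : V) : ‖iv a A p‖ ≤ |(mdot p a)⁻¹| := by
  refine (norm_indicator_le_norm_self _ _).trans_eq ?_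
  simp [rr, abs_inv]

lemma cancel (B : BA c) {a : V} {A : Set V} (hA : MeasurableSet A) {x : TT D} (h : TC c x)
    (f : Sch) (h0 : ∀ᵐ p ∂c.nu (x f), mdot p a ≠ 0) :
    c.bt.Dom (iv a A) (x (KDa.dS a f)) ∧ c.bt.Psi (iv a A) (x (KDa.dS a f)) = c.bt.P A (x f) := by
  obtain ⟨d1, e1⟩ := B.tc_psi a x f h
  have e : (fun p => iv a A p * rr a p) =ᵐ[c.nu (x f)] fun p => I * A.indicator (fun _ => 1) p := by
    filter_upwards [h0] with p hp
    have : rr a p ≠ 0 := by simpa [rr] using hp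
    by_cases hpA : p ∈ A <;> simp [iv, hpA, mul_assoc, inv_mul_cancel₀ this]
  have bd := (Bd.ind hA).smul I
  have d2 : c.bt.Dom (fun p => iv a A p * rr a p) (x f) :=
    (Dom.of_bd bd _).congr_ae ((meas_iv a hA).mul d1.1) e.symm
  have d3 := (dom_Psi d1 (meas_iv a hA)).2 d2
  rw [e1]
  refine ⟨d3.smul_vec _, ?_⟩
  rw [Psi_smul_vec _ d3, Psi_Psi d1 (meas_iv a hA) d2, Psi_congr_ae d2 bd.1 e, Psi_bd bd,
    c.bt.smul I (Bd.ind hA), ContinuousLinearMap.smul_apply, smul_smul, neg_mul, Complex.I_mul_I,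
    neg_neg, one_smul, P]

/-- the potential on the set `A` -/
lemma half (B : BA c) (hM : MUL c) {n : V →ₗ[ℝ] TT D} (hn : ∀ v, TC c (n v)) {a : V}
    {A : Set V} (hA : MeasurableSet A)
    (h0 : ∀ z, inner ℂ c.Om z = 0 → ∀ᵐ p ∂c.nu z, mdot p a ≠ 0)
    (h1 : Mu c (iv a A) (n a)) (h2 : Mu c (fun p => (mm p)⁻¹ * iv a A p) (dcr n a))
    (h3 : ∀ v f, c.bt.P {p | mu p = 0} (crl n v a f) = 0) :
    ∃ y, TC c y ∧ (∀ f, c.bt.P {p | mu p ≠ 0} (y (bx f)) =
      c.bt.P {p | mu p ≠ 0} (c.bt.P A (dvg (fun v => n v) f))) ∧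
      ∀ v f, c.bt.P {p | mu p = 0} (y (KDa.dS v f)) =
        c.bt.P {p | mu p = 0} (c.bt.P A (n v f)) := by
  have tD := tc_dvg B hn
  have tZ : TC c (dcr n a) := tc_sub B (tc_bx B (hn a)) (B.tc_der _ _ tD)
  have m1 := meas_iv a hA
  obtain ⟨y1, t1, e1⟩ := hM _ _ (hn a) m1 h1
  obtain ⟨y2, t2, e2⟩ := hM _ _ tZ (by fun_prop) h2
  refine ⟨y1 + y2, B.tc_add _ _ t1 t2, fun f => ?_, fun v f => ?_⟩
  · obtain ⟨d1, c1⟩ := cancel B hA tD f (h0 _ (tD.perp f))
    obtain ⟨d2, c2⟩ := bx_psi B t2 f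
    rw [(e2 f).2] at d2 c2
    obtain ⟨d3, c3⟩ := Psi_mul (e2 f).1 d2
    have d4 : c.bt.Dom (iv a A) (dcr n a f) := (e1 (bx f)).1.sub_vec d1
    have c4 : c.bt.Psi (iv a A) (dcr n a f) = y1 (bx f) - c.bt.P A (dvg (fun v => n v) f) := by
      rw [(e1 (bx f)).2, ← c1]
      exact Psi_sub_vec (e1 (bx f)).1 d1
    have c5 : c.bt.P {p | mu p ≠ 0} (c.bt.Psi (fun p => mm p * ((mm p)⁻¹ * iv a A p)) (dcr n a f)) =
        c.bt.P {p | mu p ≠ 0} (c.bt.Psi (iv a A) (dcr n a f)) := by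
      rw [P_Psi mN d3, P_Psi mN d4]
      congr 1
      refine Set.indicator_congr fun p hp => ?_
      have : mm p ≠ 0 := by simpa [mm] using hp
      exact mul_inv_cancel_left₀ this _
    rw [ContinuousLinearMap.add_apply, c2, ← c3, map_add, map_neg, c5, c4, map_sub]
    abel
  · obtain ⟨d1, c1⟩ := cancel B hA (hn v) f (h0 _ ((hn v).perp f))
    have c2 : c.bt.P {p | mu p = 0} (y2 (KDa.dS v f)) = 0 := by
      rw [(e2 _).2, P_Psi mZ (e2 _).1, show {p : V | mu p = 0}.indicator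
        (fun p => (mm p)⁻¹ * iv a A p) = fun _ => 0 from
        funext fun p => by by_cases hp : mu p = 0 <;> simp [mm, hp],
        Psi_bd (Bd.const 0), c.bt.zero]
      rfl
    have c3 : c.bt.P {p | mu p = 0} (n v (KDa.dS a f)) =
        c.bt.P {p | mu p = 0} (n a (KDa.dS v f)) := by
      rw [← sub_eq_zero, ← map_sub]
      exact h3 v f
    rw [ContinuousLinearMap.add_apply, map_add, c2, add_zero, ← c1, (e1 _).2, P,
      ← Psi_Phi_comm (e1 _).1 (Bd.ind mZ), ← Psi_Phi_comm d1 (Bd.ind mZ)]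
    exact congrArg _ c3.symm

lemma ex (b : B0 c) (hM : MUL c) (n : V →ₗ[ℝ] TT D) (hn : ∀ v, TC c (n v))
    (h1 : ∀ v, Mu c (fun p => ((p o)⁻¹ : ℝ)) (n v))
    (h2 : Mu c (fun p => ((mu p * be p)⁻¹ : ℝ)) (dcr n va))
    (h3 : Mu c (fun p => ((mu p * al p)⁻¹ : ℝ)) (dcr n vb))
    (h4 : ∀ v v' f, c.bt.P {p | mu p = 0} (crl n v v' f) = 0) : ∃ m, Pot c n m := by
  have hA : MeasurableSet {p : V | 2 * al p ≤ be p} := measurableSet_le (by fun_prop) meas_be
  have k1 : ∀ (a : V) (A : Set V), (∀ p ∈ A, 0 < p o → p o ≤ 2 * mdot p a) →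
      Mu c (iv a A) (n a) := fun a A h => by
    refine mu_le (h1 a) zero_le_two fun f => ?_
    filter_upwards [ae_pos b.bas ((hn a).perp f)] with p hp
    by_cases hpA : p ∈ A
    · have h5 := h p hpA hp.1
      have h6 : 0 < mdot p a := by linarith [hp.1]
      refine (norm_iv a A p).trans ?_
      rw [Complex.norm_real, Real.norm_eq_abs, abs_of_pos (inv_pos.2 h6),
        abs_of_pos (inv_pos.2 hp.1), ← div_eq_mul_inv, inv_eq_one_div,
        div_le_div_iff₀ h6 hp.1]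
      linarith
    · rw [iv, Set.indicator_of_notMem hpA, norm_zero]
      positivity
  have k2 : ∀ (a : V) (A : Set V), Mu c (fun p => ((mu p * mdot p a)⁻¹ : ℝ)) (dcr n a) →
      Mu c (fun p => (mm p)⁻¹ * iv a A p) (dcr n a) := fun a A h => by
    refine mu_le h zero_le_one fun f => Eventually.of_forall fun p => ?_
    rw [one_mul, norm_mul, Complex.norm_real, mul_inv, norm_mul, norm_inv, norm_inv,
      Complex.norm_real]
    exact mul_le_mul_of_nonneg_left (norm_iv a A p) (by positivity)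
  obtain ⟨y, ty, y1, y2⟩ := half b.ba hM hn hA
    (fun z hz => (ae_pos b.bas hz).mono fun p hp => by rw [md_va']; exact hp.2.2)
    (k1 va _ fun p hp h => by
      have := time_eq p
      rw [md_va']
      simp only [Set.mem_setOf_eq] at hp
      linarith)
    (k2 va _ (by simpa only [md_va'] using h2)) fun v => h4 v va
  obtain ⟨z, tz, z1, z2⟩ := half b.ba hM hn hA.compl
    (fun z hz => (ae_pos b.bas hz).mono fun p hp => by rw [md_vb']; exact hp.2.1)
    (k1 vb _ fun p hp h => by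
      have := time_eq p
      rw [md_vb']
      simp only [Set.mem_compl_iff, Set.mem_setOf_eq, not_le] at hp
      linarith)
    (k2 vb _ (by simpa only [md_vb'] using h3)) fun v => h4 v vb
  refine ⟨y + z, b.ba.tc_add _ _ ty tz, fun f => ?_, fun v f => ?_⟩
  · rw [ContinuousLinearMap.add_apply, map_add, y1, z1, P_compl hA, ← map_add, add_sub_cancel]
  · rw [ContinuousLinearMap.add_apply, map_add, y2, z2, P_compl hA, ← map_add, add_sub_cancel]

lemma uq (b : B0 c) (n : V →ₗ[ℝ] TT D) (m m' : TT D) (h : Pot c n m) (h' : Pot c n m') :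
    m = m' := by
  have t := tc_sub b.ba h.tc h'.tc
  refine ContinuousLinearMap.ext fun f => sub_eq_zero.1 (eq_zero_of_ae (C := c.bt.toCalc) ?_)
  obtain ⟨d1, e1⟩ := bx_psi b.ba t f
  obtain ⟨d2, e2⟩ := b.ba.tc_psi (bas o 1) _ f t
  have a1 := null_of_P mN d1 (by
    rw [← neg_eq_zero, ← map_neg, ← e1, ContinuousLinearMap.sub_apply, map_sub, h.pos, h'.pos,
      sub_self])
  have a2 := null_of_P mZ d2 (by
    rw [← smul_eq_zero_iff_right (neg_ne_zero.2 Complex.I_ne_zero), ← map_smul, ← e2,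
      ContinuousLinearMap.sub_apply, map_sub, h.nul, h'.nul, sub_self])
  filter_upwards [a1, a2, ae_pos b.bas (t.perp f)] with p h1 h2 h3
  have h4 : mu p = 0 := by
    by_contra h0
    exact h0 (by simpa [mm] using h1 h0)
  have h5 : mdot p (bas o 1) = 0 := by simpa using h2 h4
  have h6 : mdot p (bas o 1) = p o := by simp [mdot_eq, bas, o]
  linarith [h3.1]

lemma phi_pr (B : BA c) (hH : HMU c) {a b y : V} (ha : IsNull a) (hb : IsNull b)
    (hab : 0 < mdot a b) {h : ℝ → ℝ} (hh : Bd fun t => (h t : ℂ)) {σ : ℝ} {u u' : Completion D}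
    (hp : Pr (c.N (Wdg a b y)) c.Om u (σ • Th c u')) :
    Pr (c.N (Wdg a b y)) c.Om (c.bt.Phi (fun p => h (mu p)) u)
      (σ • Th c (c.bt.Phi (fun p => h (mu p)) u')) := by
  have := hH a b y _ _ h ha hb hab hh hp
  rw [B.th_phi _ _ (hh.comp meas_mu)]
  simpa only [Complex.conj_ofReal, ContinuousLinearMap.map_smul_of_tower] using this

/-- the cut inverse -/
def hk (k : ℕ) (t : ℝ) : ℝ := if ((k : ℝ) + 1)⁻¹ ≤ |t| then -t⁻¹ else 0

lemma mK (k : ℕ) : MeasurableSet {p : V | ((k : ℝ) + 1)⁻¹ ≤ |mu p|} :=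
  measurableSet_le measurable_const meas_mu.abs

lemma hk_bd (k : ℕ) : Bd fun t => (hk k t : ℂ) := by
  refine Bd.ofReal (Measurable.ite (measurableSet_le measurable_const measurable_abs)
    measurable_inv.neg measurable_const) (C := k + 1) fun t => ?_
  unfold hk
  split_ifs with h
  · rw [abs_neg, abs_inv]
    exact inv_le_of_inv_le₀ (by positivity) h
  · rw [abs_zero]
    positivity

lemma hk_phi (B : BA c) {n : V →ₗ[ℝ] TT D} {m : TT D} (h : Pot c n m) (k : ℕ) (g : Sch) :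
    c.bt.Phi (fun p => hk k (mu p)) (dvg (fun v => n v) g) =
      c.bt.P {p | ((k : ℝ) + 1)⁻¹ ≤ |mu p|} (m g) := by
  have bd : Bd fun p : V => (hk k (mu p) : ℂ) := (hk_bd k).comp meas_mu
  have k0 : (0 : ℝ) < ((k : ℝ) + 1)⁻¹ := by positivity
  have e : ∀ u, c.bt.Phi (fun p => hk k (mu p)) u =
      c.bt.Phi (fun p => hk k (mu p)) (c.bt.P {p | mu p ≠ 0} u) := fun u => by
    rw [P, ← c.bt.mul_apply bd (Bd.ind mN)]
    congr 2
    funext p
    by_cases hp : mu p = 0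
    · simp [hk, hp, not_le.2 k0]
    · simp [hp]
  obtain ⟨d, e1⟩ := bx_psi B h.tc g
  rw [e, ← h.pos, ← e, e1, map_neg, Phi_Psi bd d, ← Psi_neg (d.bd_mul bd), P,
    ← Psi_bd (Bd.ind (mK k))]
  congr 1
  funext p
  by_cases hp : ((k : ℝ) + 1)⁻¹ ≤ |mu p|
  · have : mu p ≠ 0 := abs_pos.1 (k0.trans_le hp)
    simp [hk, hp, mm, this]
  · simp [hk, hp]

lemma tend (u : Completion D) : Tendsto (fun k : ℕ => c.bt.P {p | ((k : ℝ) + 1)⁻¹ ≤ |mu p|} u)
    atTop (𝓝 (c.bt.P {p | mu p = 0}ᶜ u)) := by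
  refine tendsto_P mK mZ.compl (Eventually.of_forall fun p => ?_)
  by_cases hp : mu p = 0
  · refine Eventually.of_forall fun k => ?_
    have k0 : (0 : ℝ) < ((k : ℝ) + 1)⁻¹ := by positivity
    simp [hp, not_le.2 k0]
  · have h1 : Tendsto (fun n : ℕ => ((n : ℝ) + 1)⁻¹) atTop (𝓝 0) :=
      (tendsto_natCast_atTop_atTop.atTop_add tendsto_const_nhds).inv_tendsto_atTop
    filter_upwards [h1.eventually_le_const (abs_pos.2 hp)] with k hk
    simp [hp, hk]

lemma loc (B : BA c) (hH : HMU c) (hD : DL0 c) (n : V →ₗ[ℝ] TT D) (m : TT D) (K : Set V)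
    (hl : ∀ v, Loc c (-1) K (n v)) (h : Pot c n m) : Loc c 1 K m := by
  refine hD 1 K m h.tc fun v a b y f ha hb hab h1 h2 h3 => ?_
  have e0 : c.bt.Phi (fun p => (({0} : Set ℝ).indicator (fun _ => (1 : ℝ)) (mu p) : ℝ)) =
      c.bt.P {p | mu p = 0} := by
    rw [P]
    congr 1
    funext p
    by_cases hp : mu p = 0 <;> simp [hp]
  have p1 := phi_pr B hH ha hb hab (h := ({0} : Set ℝ).indicator fun _ => (1 : ℝ))
    (Bd.ofReal (measurable_const.indicator (measurableSet_singleton 0)) (C := 1) fun t => by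
      by_cases ht : t = 0 <;> simp [ht]) (hl v a b y f ha hb hab h1 h2 h3)
  rw [e0, ← h.nul, ← h.nul] at p1
  have l2 := B.loc_der _ _ v _ (loc_dvg B hl) a b y f ha hb hab h1 h2 h3
  rw [neg_neg] at l2
  have p2 := KDa.pr_lim (Eventually.of_forall fun k => by
      have := phi_pr B hH ha hb hab (hk_bd k) l2
      rwa [ContinuousLinearMap.comp_apply, ContinuousLinearMap.comp_apply, hk_phi B h,
        hk_phi B h] at this)
    (tend _) ((((Th c).continuous.tendsto _).comp (tend _)).const_smul (-1 : ℝ))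
  have p3 := KDa.pr_add p1 p2
  rwa [← smul_add, ← map_add, P_compl mZ, P_compl mZ, add_sub_cancel, add_sub_cancel] at p3

end Ptr

variable {D : Type*} [NormedAddCommGroup D] [InnerProductSpace ℂ D]

/-- **row POT** -/
theorem pot_row (c : Ctx D) : B0 c → MUL c → HMU c → DL0 c → POT c := fun b hM hH hD =>
  ⟨Ptr.ex b hM, Ptr.uq b, fun n m K _ hl h => Ptr.loc b.ba hH hD n m K hl h⟩

end

end Vale.Agent.P352X.TPD
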