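import Vale.Agent.P352X.TPD.Spec
import Vale.Agent.P352Y.W0

/-!
# P352X, rows TPD.PRE and TPD.SRC (helper17)
-/

set_option linter.all false

namespace Vale.Agent.P352X.TPD

open Vale.Agent.P352 Vale.Agent.P352.GF Vale.Agent.P352.BW

variable {D : Type*} [NormedAddCommGroup D] [InnerProductSpace ℂ D]

theorem pre_row (c : Ctx D) : B0 c → PRE c := fun b => by
  obtain ⟨W, hW⟩ := P352Y.exists_wker c.hT
  obtain ⟨w, hw⟩ := P352Y.exists_w0 c.hT hW
  exact ⟨w, hw.fac hW, hw.swap, hw.ind,
    fun s L a I J F G hs hL hF e => hw.cov hW a I J F G hs hL e hF,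
    fun n J G hG => hw.cons hW c.hT n J hG, fun a b' y I J G G' _ _ _ hG _ hs e =>
      hw.loc hW (Th c) (fun m n k l _ _ ⟨f, hf⟩ ⟨g, hg⟩ => hf ▸ hg ▸ b.ba.th_two (m, n) (k, l) f g)
        (Ap.open_wdg a b' y) (fun m n f => Grp.afs_T c.hN c.hT m n) I J hG hs e⟩

theorem src_row (c : Ctx D) : B0 c → SRC c := fun b w h => by
  have s : ∀ I J F, w I J F = w J I (Str.sw F) := fun I J F => h.swap I J F _ fun _ _ => rfl
  refine ⟨fun I J F => (b.ba.pp _).1, fun I J => by rw [← h.ind], fun I J => ?_,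
    fun s L a I J F G hs hL hF e => ?_, fun n J G hG => ?_, fun I n G hG => ?_,
    fun a b' y I J G G' ha hb hab hG k1 k2 e => ?_⟩
  · ext F
    simp only [ContinuousLinearMap.comp_apply]
    rw [s I J, s I J.swap, ← h.ind]
  · simp only [ContinuousLinearMap.comp_apply, h.cov s L a I J F G hs hL hF e, map_sum, map_smul,
      (b.ba.pp _).2.2.2.2]
  · simpa only [dv1, map_sum, map_zero, ContinuousLinearMap.comp_apply] using
      congrArg (Pp c) (h.c1 n J G hG)
  · have := congrArg (Pp c) (h.c1 n I (Str.sw G) (P352Y.OffD.sw hG))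
    simp only [dv1, map_sum, map_zero] at this
    refine (Finset.sum_congr rfl fun m _ => congrArg (Pp c) ((s _ _ _).trans
      (congrArg _ (SchwartzMap.ext fun z => ?_)))).trans this
    exact (DFunLike.congr_fun ((ContinuousLinearEquiv.prodComm ℝ V V).comp_right_fderiv
      (f := G) (x := z)) (bas m 1, 0)).symm
  · simpa only [ContinuousLinearMap.comp_apply, (b.ba.pp _).2.1] using
      b.ba.pp_pr _ _ _ (h.loc a b' y I J G G' ha hb hab hG k1 k2 e)

end Vale.Agent.P352X.TPD
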