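import Vale.Agent.P352X.TPD.Spec

/-!
# P352X, block TPD: row SC
-/

set_option linter.all false

open MeasureTheory Filter Topology
open scoped SchwartzMap ComplexConjugate ENNReal ContDiff

namespace Vale.Agent.P352X.TPD

open Vale.Agent.P352 Vale.Agent.P352.GF Vale.Agent.P352.BW Vale.Agent.P352.H246
open Vale.Agent.P352.H496 Vale.Agent.P352.H755 Vale.Agent.P352.H15
open UniformSpace (Completion)

noncomputable section

namespace Sc

/-- `u^2 η ⊗ v` -/
def Y : V →ₗ[ℝ] V → Tn (Fin 3) where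
  toFun v u ν := mu u * et ![ν 0, ν 1] * (eta (ν 2) * v (ν 2))
  map_add' v v' := by funext u ν; simp [mul_add]
  map_smul' a v := by funext u ν; simp; ring

/-- the derivative of `Y` -/
def hh : V →ₗ[ℝ] Tn (Fin 4 ⊕ Fin 1) where
  toFun v μ := 2 * et ![μ (.inl 2), μ (.inr 0)] * et ![μ (.inl 0), μ (.inl 1)] *
    (eta (μ (.inl 3)) * v (μ (.inl 3)))
  map_add' v v' := by funext ν; simp [mul_add]
  map_smul' a v := by funext ν; simp; ring

/-- `e_r ⊗ v` -/
def kk (r : Ix) : V →ₗ[ℝ] Tn (Fin 2) where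
  toFun v ν := bas r 1 (ν 0) * (eta (ν 1) * v (ν 1))
  map_add' v v' := by funext ν; simp [mul_add]
  map_smul' a v := by funext ν; simp; ring

lemma Y_smooth (v : V) : ContDiff ℝ ∞ (Y v) := contDiff_pi.2 fun ν => by
  show ContDiff ℝ ∞ fun u => mu u * _ * _
  unfold mu GF.mdot
  fun_prop

lemma Y_neg (v u : V) : Y v (-u) = -(-1 : ℝ) • Y v u := by
  funext ν
  simp [Y, mu, GF.mdot]

lemma i3_Y (r : Ix) (v : V) : i3 r (Y v) = h0 (kk r v) := by
  funext u ν
  simp [i3, h0, Y, kk]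
  ring

lemma pol_one (h : Tn (Fin 4 ⊕ Fin 1)) (u : V) (ν : Fin 4 → Ix) :
    pol h u ν = ∑ g, h (Sum.elim ν fun _ => g) * u g := by
  rw [pol, ← (Equiv.funUnique (Fin 1) Ix).symm.sum_comp]
  simp only [Fin.prod_univ_one]
  rfl

lemma pol_inj {h h' : Tn (Fin 4 ⊕ Fin 1)} (e : pol h = pol h') : h = h' := by
  funext μ
  have := congrFun (congrFun e (bas (μ (.inr 0)) 1)) (μ ∘ .inl)
  have e' : (Sum.elim (μ ∘ .inl) fun _ => μ (.inr 0)) = μ := by
    funext i
    rcases i with i | i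
    · rfl
    · rw [Subsingleton.elim i 0]; rfl
  simpa [pol_one, bas, e'] using this

lemma d3_Y (v : V) : d3 (Y v) = pol (hh v) := by
  funext u ν
  have e : ∀ m t, mu (u + bas m t) = mu u + 2 * eta m * u m * t + eta m * t ^ 2 := fun m t => by
    fin_cases m <;> simp [mu, GF.mdot, bas, Fin.sum_univ_four] <;> ring
  have := (((((hasDerivAt_id' (0 : ℝ)).const_mul (2 * eta (ν 2) * u (ν 2))).const_add (mu u)).fun_add
    ((hasDerivAt_pow 2 (0 : ℝ)).const_mul (eta (ν 2)))).mul_const (et ![ν 0, ν 1])).mul_const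
    (eta (ν 3) * v (ν 3))
  refine Eq.trans ?_ (this.deriv.trans ?_)
  · simp only [← e]
    rfl
  · simp [pol_one, hh, et]
    by_cases h : ν 1 = ν 0 <;> simp [bas, h]
    ring

lemma trc_kk (r : Ix) (v : V) : trc (kk r v) = v r := by
  fin_cases r <;> simp [trc, kk, bas, eta, o]

lemma sy_h0 (χ : V → ℝ) (k : Tn (Fin 2)) (u : V) :
    sy (cs χ (h0 k) u) = sy ((cs χ (h0 (tl k)) + (trc k / 4) • cs χ (h0 et)) u) := by
  have e : ∀ a b, et ![a, b] = et ![b, a] := fun a b => by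
    rcases eq_or_ne a b with rfl | h
    · rfl
    · simp [et, bas, h, h.symm]
  funext ν
  simp [sy, cs, h0, tl, e (ν 1) (ν 0), e (ν 3) (ν 2)]
  ring

variable {L : Ix → V}

lemma pb_kk (T : TEN) (hL : IsLor L) (t : Ix) (v : V) :
    pb L (kk t (sim 1 L 0 v)) = ∑ r, L r t • kk r v := by
  have e : kk t (sim 1 L 0 v) = fun ν => ∏ i,
      (![bas t 1, fun m => eta m * sim 1 L 0 v m] : Fin 2 → V) i (ν i) := by
    funext ν
    simp [kk]
  have e' : ∀ a, ∑ m, L a m * (eta m * sim 1 L 0 v m) = eta a * v a := fun a => by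
    have : ∑ n, v n * GF.mdot (L a) (L n) = eta a * v a := by simp [hL.1, bas, mul_comm]
    simp only [← this, sim, GF.mdot, Finset.mul_sum, Pi.zero_apply, zero_add, one_mul]
    rw [Finset.sum_comm]
    exact Finset.sum_congr rfl fun _ _ => Finset.sum_congr rfl fun _ _ => by ring
  rw [e, T.pure]
  funext ν
  simp [e', kk, bas, Finset.sum_apply]

lemma pf_Y (T : TEN) (hL : IsLor L) (s : ℝ) (v : V) :
    pf s L (Y (sim 1 L 0 v)) = s ^ 2 • Y v := by
  funext u ν
  have h := T.i3 s L (Y (sim 1 L 0 v)) o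
  rw [i3_Y, T.h0 s L _ hL, pb_kk T hL] at h
  have h' := congrFun (congrFun h u) ![ν 0, ν 1, o, ν 2]
  have e : ![ν 0, ν 1, ν 2] = ν := by
    funext i
    fin_cases i <;> rfl
  simp [Finset.sum_apply, i3, h0, kk, e] at h'
  simp [bas] at h'
  refine mul_left_cancel₀ hL.2.1.ne' (h'.symm.trans ?_)
  simp [Y]
  ring

lemma pb_hh (T : TEN) (hL : IsLor L) (v : V) : pb L (hh (sim 1 L 0 v)) = hh v := by
  have h := (T.d1 1 L _ (Y_smooth (sim 1 L 0 v))).2
  rw [pf_Y T hL, d3_Y, T.pol] at h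
  simp only [one_pow, one_smul, d3_Y] at h
  exact pol_inj h.symm

variable {D : Type*} [NormedAddCommGroup D] [InnerProductSpace ℂ D] {c : Ctx D} {w : WW D}

lemma der_sum (x : TT D) (v : V) :
    x ∘L KDa.dS v = ∑ r, v r • (x ∘L KDa.dS (bas r 1)) := by
  ext f
  have e : KDa.dS v f = ∑ r, v r • KDa.dS (bas r 1) f := by
    have e : v = ∑ m, v m • bas m 1 := by
      funext n
      simp [bas, Finset.sum_apply]
    ext z
    rw [SchwartzMap.sum_apply]
    show fderiv ℝ f z v = ∑ r, v r • fderiv ℝ f z (bas r 1)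
    conv_lhs => rw [e]
    simp only [map_sum, map_smul]
  simp [e, ContinuousLinearMap.sum_apply]

/-- the derivative of a family -/
def dd (r : Ix) : Fam D →ₗ[ℝ] Fam D where
  toFun x η := x η ∘L KDa.dS (bas r 1)
  map_add' x y := rfl
  map_smul' a x := rfl

lemma ga_dd (b : BA c) {s : ℝ} (hs : 0 < s) (hL : IsLor L) (r : Ix) (x : Fam D) :
    ga c s L (dd r x) = s • ∑ t, L r t • dd t (ga c s L x) := by
  funext η
  rw [ga_apply, Pi.smul_apply]
  refine (b.der s L _ _ hs hL).trans ?_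
  rw [show sim 1 L 0 (bas r 1) = L r from funext fun n => by simp [sim, bas], der_sum,
    Finset.sum_apply]
  rfl

lemma tc_sum (b : BA c) {x : Ix → TT D} (h : ∀ r, TC c (x r)) : TC c (∑ r, x r) :=
  Finset.sum_induction _ _ b.tc_add b.tc0 fun r _ => h r

lemma loc_sum (b : BA c) {σ K} {x : Ix → TT D} (h : ∀ r, Loc c σ K (x r)) : Loc c σ K (∑ r, x r) :=
  Finset.sum_induction _ _ (b.loc_add σ K) (b.loc0 σ K) fun r _ => h r

end Sc

open Sc in
theorem sc_row {D : Type*} [NormedAddCommGroup D] [InnerProductSpace ℂ D] (c : Ctx D) :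
    B0 c → A1 c → TL c → DIV c → SC c := fun b a1 tl dv w S => by
  obtain ⟨B1, h1, c1⟩ := a1 w S 1 one_lt_two
  obtain ⟨B0, h0, c0⟩ := tl w S
  have T := b.ten
  have P := b.bp w S
  have G := fun v => P.g3 (-1) (Y v) (by norm_num) (Y_smooth v) (Y_neg v)
  have ok := fun (η η' : EC) k => (T.okc _ _ (T.ec η η').1 (T.ec η η').2 (T.h0s k).1).1
  let p : V →ₗ[ℝ] Fam D :=
    { toFun := fun v η => psi w (b3 η.1 (Y v))
      map_add' := fun v v' => funext fun η => by
        rw [map_add]; exact ((G v).2.2.2 _ 0 η (Y_smooth v')).1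
      map_smul' := fun a v => funext fun η => by
        rw [map_smul]; exact ((G v).2.2.2 _ a η (Y_smooth v)).2 }
  let n : V →ₗ[ℝ] Fam D :=
    { toFun := fun v => (4 : ℝ) • (p v + B1 (hh v) + (-1 : ℝ) • ∑ r, dd r (B0 (kk r v)))
      map_add' := fun v v' => by
        simp only [map_add, Finset.sum_add_distrib]
        module
      map_smul' := fun a v => by
        simp only [map_smul, ← Finset.smul_sum, RingHom.id_apply]
        module }
  have hn : ∀ v, n v = (4 : ℝ) • (p v + B1 (hh v) + (-1 : ℝ) • ∑ r, dd r (B0 (kk r v))) :=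
    fun v => rfl
  have hn' : ∀ v η, n v η = (4 : ℝ) • (psi w (b3 η.1 (Y v)) + B1 (hh v) η +
      (-1 : ℝ) • ∑ r, B0 (kk r v) η ∘L KDa.dS (bas r 1)) := fun v η => by
    rw [hn]
    simp only [Pi.smul_apply, Pi.add_apply, Finset.sum_apply]
    rfl
  rw [pow_one] at h1
  refine (dv n (fun η η' => psi w (cs (η.1 - η'.1) (TPD.h0 et)))
    (fun v η => hn' v η ▸ b.ba.tc_smul _ _ (b.ba.tc_add _ _ (b.ba.tc_add _ _ ((G v).1 η).1
      ((h1 _).tc η)) (b.ba.tc_smul _ _ (tc_sum b.ba fun r => b.ba.tc_der _ _ ((h0 _).tc η)))))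
    (fun v η => hn' v η ▸ b.ba.loc_smul _ _ _ _ (b.ba.loc_add _ _ _ _ (b.ba.loc_add _ _ _ _
      ((G v).1 η).2 ((h1 _).loc η)) (b.ba.loc_smul _ _ _ _ (loc_sum b.ba fun r =>
        b.ba.loc_der _ _ _ _ ((h0 _).loc η)))))
    (fun η η' => P.tc _ (ok η η' et)) (fun v η η' => ?_) fun s L v hs hL => ?_).imp
    fun m h => ⟨⟨fun η => (h.1 η).1, fun η => (h.1 η).2, h.2.1⟩, h.2.2⟩
  · have e1 := (G v).2.1 η η'
    have e2 : ∀ r, psi w (cs (η.1 - η'.1) (i3 r (Y v))) = B0 (kk r v) η - B0 (kk r v) η' +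
        (v r / 4) • psi w (cs (η.1 - η'.1) (TPD.h0 et)) := fun r => by
      have o1 := (T.okc _ _ (T.ec η η').1 (T.ec η η').2 ((T.h0s et).1.const_smul (v r / 4))).1
      have o2 : (v r / 4) • cs (η.1 - η'.1) (TPD.h0 et) =
          cs (η.1 - η'.1) fun u => (v r / 4) • TPD.h0 et u := funext fun u => smul_comm (v r / 4) _ _
      have o3 := (T.okc _ _ (T.ec η η').1 (T.ec η η').2 ((T.h0s (TPD.tl (kk r v))).1.add
        ((T.h0s et).1.const_smul (v r / 4)))).1
      rw [i3_Y, (h0 _).coc, ← P.smul _ _ (ok η η' et), ← P.add _ _ (ok η η' _) (o2 ▸ o1)]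
      refine P.sy _ _ (ok η η' _) ?_ (trc_kk r v ▸ sy_h0 _ _)
      convert o3 using 1
      rw [o2]
      exact funext fun u => (smul_add _ _ _).symm
    rw [d3_Y, ← (h1 _).coc] at e1
    simp only [e2, ContinuousLinearMap.add_comp, ContinuousLinearMap.sub_comp,
      ContinuousLinearMap.smul_comp, Finset.sum_add_distrib, Finset.sum_sub_distrib,
      div_eq_inv_mul, ← smul_smul, ← Finset.smul_sum, ← der_sum] at e1
    rw [hn', hn']
    linear_combination (norm := module) (4 : ℝ) • e1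
  · have e1 := (G (sim 1 L 0 v)).2.2.1 s L hs hL
    have e2 := c1 s L (hh (sim 1 L 0 v)) hs hL
    have e3 := fun t => c0 s L (kk t (sim 1 L 0 v)) hs hL
    rw [pf_Y T hL, ← map_smul] at e1
    have e4 : s • ga c s L (p v) = p (sim 1 L 0 v) := smul_right_injective _ hs.ne' (by
      simp only [smul_smul, ← pow_two]
      rw [← map_smul, ← map_smul]
      exact e1)
    rw [pb_hh T hL, pow_one] at e2
    simp only [pb_kk T hL, map_sum, map_smul] at e3
    rw [hn, hn, ← e4, ← e2]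
    simp only [← e3, map_smul, map_add, map_sum, ga_dd b.ba hs hL, ← Finset.smul_sum]
    rw [Finset.sum_comm]
    module

end

end Vale.Agent.P352X.TPD
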