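import Vale.Agent.P352X.TPD.Spec

/-!
# P352X, block TPD, row SPAN
-/

set_option linter.all false

namespace Vale.Agent.P352X.TPD

open Vale.Agent.P352 Vale.Agent.P352.GF Vale.Agent.P352.BW Vale.Agent.P352.H246
open Vale.Agent.P352.H496 Vale.Agent.P352.H755 Vale.Agent.P352.H15

noncomputable section

namespace Spn

/-- the null frame of covectors -/
def fr : Ix → V := ![![1, -1, 0, 0], ![1, 1, 0, 0], ![0, 0, 1, 0], ![0, 0, 0, 1]]

/-- the inverse of the frame -/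
def fi : Ix → V := ![![1 / 2, -(1 / 2), 0, 0], ![1 / 2, 1 / 2, 0, 0], ![0, 0, 1, 0], ![0, 0, 0, 1]]

/-- the weights -/
def wz : Ix → ℤ := ![1, -1, 0, 0]

/-- exchanges the null directions -/
def sg : Ix → Ix := ![1, 0, 2, 3]

/-- the factors of `sw` -/
def sc : Ix → ℝ := ![1 / 2, 2, -1, 1]

lemma cm_apply (L L' : Ix → V) (n k : Ix) : T.cm L L' n k = ∑ m, L n m * L' m k := by
  simp [T.cm, sim]

lemma fr_fi : T.cm (fun n m => fr m n) fi = GF.one := by
  funext n k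
  rw [cm_apply]
  fin_cases n <;> fin_cases k <;> simp [fr, fi, GF.one, bas, Fin.sum_univ_four] <;> norm_num

lemma lsc_fr {r s : ℝ} (hr : 0 < r) (hs : 0 < s) (k n : Ix) :
    ∑ m, Lsc r s n m * fr k m = Real.sqrt (s / r) ^ wz k * fr k n := by
  have h : Real.sqrt (r / s) = (Real.sqrt (s / r))⁻¹ := by rw [← Real.sqrt_inv, inv_div]
  rw [Lsc, h]
  generalize Real.sqrt (s / r) = x
  simp only [bst, Pi.add_apply, Pi.smul_apply, smul_eq_mul, bas, Fin.sum_univ_four]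
  fin_cases k <;> fin_cases n <;> simp [fr, wz, va, vb, eta, o] <;> ring

lemma sw_fr (k n : Ix) : ∑ m, sw n m * fr k m = sc k * fr (sg k) n := by
  fin_cases k <;> fin_cases n <;> simp [sw, fr, sc, sg, Fin.sum_univ_four] <;> norm_num

lemma r1_fr (k n : Ix) : ∑ m, r1 n m * fr k m = (-1 * (-1 : ℝ) ^ wz k) * fr k n := by
  fin_cases k <;> fin_cases n <;> simp [r1, fr, wz, sj, bas, Fin.sum_univ_four]

lemma wz_sg (k : Ix) : wz (sg k) = -wz k := by fin_cases k <;> simp [wz, sg]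

lemma cyc3 : T.cm cyc (T.cm cyc cyc) = GF.one := by
  funext n k
  simp only [cm_apply]
  fin_cases n <;> fin_cases k <;> simp [cyc, GF.one, bas, Fin.sum_univ_four]

lemma rc3 : T.cm (T.cm r1 cyc) (T.cm (T.cm r1 cyc) (T.cm r1 cyc)) = GF.one := by
  funext n k
  simp only [cm_apply]
  fin_cases n <;> fin_cases k <;> simp [cyc, r1, sj, GF.one, bas, Fin.sum_univ_four]

lemma prod_zpow {ι : Type} (s : Finset ι) {x : ℝ} (hx : x ≠ 0) (w : ι → ℤ) :
    ∏ i ∈ s, x ^ w i = x ^ ∑ i ∈ s, w i := by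
  classical
  induction s using Finset.induction_on with
  | empty => simp
  | insert i s hi ih => rw [Finset.prod_insert hi, Finset.sum_insert hi, ih, zpow_add₀ hx]

variable {ι : Type} [Fintype ι] [DecidableEq ι]

/-- pure tensors in the null frame -/
def pu (μ : ι → Ix) : Tn ι := fun ν => ∏ i, fr (μ i) (ν i)

lemma pb_pu (t : TEN) {L : Ix → V} {a : Ix → ℝ} {σ : Ix → Ix}
    (h : ∀ k n, ∑ m, L n m * fr k m = a k * fr (σ k) n) (μ : ι → Ix) :
    pb L (pu μ) = (∏ i, a (μ i)) • pu fun i => σ (μ i) := by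
  refine (t.pure ι L fun i => fr (μ i)).trans (funext fun ν => ?_)
  simp only [h, Finset.prod_mul_distrib, Pi.smul_apply, smul_eq_mul, pu]

lemma eq_sum (t : TEN) (h : Tn ι) : h = ∑ μ, pb fi h μ • pu μ := by
  conv_lhs => rw [← t.one ι h, ← fr_fi, ← t.mul]
  funext ν
  rw [Finset.sum_apply]
  exact Finset.sum_congr rfl fun μ _ => mul_comm _ _

end Spn

open Spn in
theorem span_row (t : TEN) : SPAN := by
  intro G hinv hpos
  have hG : ∀ L h, IsLor L → h ∈ G → pb L h ∈ G := fun L h hL hh => by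
    obtain ⟨L', h1, -, h2⟩ := t.inv L hL
    exact hinv L' _ h1 (by rwa [t.mul, h2, t.one])
  have hp : ∀ μ : Fin 4 ⊕ Fin 3 → Ix, 0 < ∑ i, wz (μ i) → pu μ ∈ G := fun μ hμ => by
    refine hpos _ (∑ i, wz (μ i)).toNat (by omega) fun r s hr hs => ?_
    rw [pb_pu t (σ := id) (lsc_fr hr hs), prod_zpow _ (Real.sqrt_pos.2 (div_pos hs hr)).ne',
      ← zpow_natCast, Int.toNat_of_nonneg hμ.le]
    rfl
  have h1 : ∀ h, pb r1 h + h ∈ G := fun h => by
    rw [eq_sum t h, map_sum, ← Finset.sum_add_distrib]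
    refine G.sum_mem fun μ _ => ?_
    rw [map_smul, ← smul_add]
    refine G.smul_mem _ ?_
    rcases lt_trichotomy 0 (∑ i, wz (μ i)) with h | h | h
    · exact add_mem (hG _ _ t.r1.1 (hp μ h)) (hp μ h)
    · rw [pb_pu t (σ := id) r1_fr, Finset.prod_mul_distrib, prod_zpow _ (by norm_num), ← h]
      norm_num
    · have h2 : pu μ ∈ G := hinv sw _ t.sw.1 (by
        rw [pb_pu t sw_fr]
        exact G.smul_mem _ (hp _ (by simp only [wz_sg, Finset.sum_neg_distrib]; omega)))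
      exact add_mem (hG _ _ t.r1.1 h2) h2
  refine eq_top_iff.2 fun h _ => ?_
  have hc := fun x => hG cyc x t.cyc.1
  have h2 : ∀ x, pb (T.cm r1 cyc) x + pb cyc x ∈ G := fun x => by
    rw [← t.mul]
    exact h1 _
  have h3 := add_mem (sub_mem (h2 (pb (T.cm r1 cyc) (pb (T.cm r1 cyc) h)))
    (hc _ (h2 (pb (T.cm r1 cyc) h)))) (hc _ (hc _ (h2 h)))
  have h4 : pb (T.cm r1 cyc) (pb (T.cm r1 cyc) (pb (T.cm r1 cyc) h)) = h := by
    rw [t.mul, t.mul, ← t.mul, ← t.mul, t.mul _ (T.cm r1 cyc) (T.cm r1 cyc) h, t.mul, rc3, t.one]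
  have h5 : pb cyc (pb cyc (pb cyc h)) = h := by
    rw [t.mul _ cyc cyc h, t.mul, cyc3, t.one]
  simp only [map_add, h4, h5] at h3
  convert G.smul_mem (1 / 2 : ℝ) h3 using 1
  module

end

end Vale.Agent.P352X.TPD
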