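import Vale.Agent.P352X.TPD.Ten2
import Vale.Agent.P352X.TPD.Ten3
import Vale.Agent.P352X.TPD.Ba1
import Vale.Agent.P352X.TPD.Ba2
import Vale.Agent.P352X.TPD.Bp2
import Vale.Agent.P352X.TPD.EXP
import Vale.Agent.P352X.TPD.SPAN
import Vale.Agent.P352X.TPD.EQ1
import Vale.Agent.P352X.TPD.EQ2
import Vale.Agent.P352X.TPD.POLYN
import Vale.Agent.P352X.TPD.NODES
import Vale.Agent.P352X.TPD.RHO
import Vale.Agent.P352X.TPD.IRQ
import Vale.Agent.P352X.TPD.IRG
import Vale.Agent.P352X.TPD.ANI
import Vale.Agent.P352X.TPD.LIM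
import Vale.Agent.P352X.TPD.WL2
import Vale.Agent.P352X.TPD.EU
import Vale.Agent.P352X.TPD.PHI
import Vale.Agent.P352X.TPD.FIVE
import Vale.Agent.P352X.TPD.TL
import Vale.Agent.P352X.TPD.HMU
import Vale.Agent.P352X.TPD.DL0
import Vale.Agent.P352X.TPD.IRN
import Vale.Agent.P352X.TPD.CVX
import Vale.Agent.P352X.TPD.POT
import Vale.Agent.P352X.TPD.CRL
import Vale.Agent.P352X.TPD.DIV
import Vale.Agent.P352X.TPD.SC
import Vale.Agent.P352X.TPD.PRE
import Vale.Agent.P352X.TPD.FIN
import Vale.Agent.P352X.TPD.CMP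

/-!
# P352X, block TPD: the wiring of the rows for the products of two components
-/

set_option linter.all false

namespace Vale.Agent.P352X.TPD

variable {D : Type*} [NormedAddCommGroup D] [InnerProductSpace ℂ D]

theorem ten_thm : TEN := TEN.of ten1_row ten2_row ten3_row

theorem b0_of (c : Ctx D) (t : T3 c) : B0 c :=
  have b1 := ba1_row c t ten_thm
  have ba := BA.of b1 (ba2_row c t ten_thm b1)
  ⟨t, ten_thm, exp_row, ba, bp_row c t ten_thm ba⟩

/-- The time ordered and the anti-time ordered products of two components exist. -/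
theorem two_of (c : Ctx D) (b : B0 c) :
    ∃ wp wm, TP2 c.Q c.T true wp ∧ TP2 c.Q c.T false wm ∧ Cmp c wp wm := by
  have rho := rho_row c b
  have ani := ani_row c b rho (irq_row c b) (irg_row c b)
  have lim := lim_row c b ani
  have wl := wl_row c b (kill_row c b ani)
  have a3 := a3_row c b (span_row b.ten) lim wl (eu_row c b)
  have a1 := a1_row c b (eq1_row b.ten)
  have tl := tl_row c b polyn_row nodes_row (phi_row c b lim wl) (five_row c b wl)
  have div := div_row c b (irn_row c b rho)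
    (pot_row c b (mul_row c b) (hmu_row c b) (dl0_row c b)) (crl_row c b (cvx_row c b))
  have a2 := a2_row c b (eq2_row b.ten) a3 tl (sc_row c b a1 tl div)
  obtain ⟨w, hw⟩ := pre_row c b
  have hs := src_row c b w hw
  obtain ⟨wp, tp, hl⟩ := fin_row c b (src_row c b) w hw fun k => by
    rcases lt_trichotomy k 2 with h | rfl | h
    exacts [a1 _ hs k h, a2 _ hs, a3 _ hs k h]
  obtain ⟨wm, tm, hc⟩ := cmp_row c b wp tp hl
  exact ⟨wp, wm, tp, tm, hc⟩

end Vale.Agent.P352X.TPD
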