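import Vale.Agent.P352X.Main
import Vale.Agent.P352X.TPD.Wire
import Vale.Agent.P352X.TPD.T3P

/-!
# P352X, block TPD: the time ordered products exist
-/

set_option linter.all false

namespace Vale.Agent.P352X

variable {D : Type*} [NormedAddCommGroup D] [InnerProductSpace ℂ D]

/-- **The time ordered products of two and three components of the stress tensor exist.** -/
theorem tp_thm (c : Ctx D) : ∃ wp wm t, TP c.Q c.T wp wm t := by
  have b := TPD.b0_of c (t3_thm c)
  obtain ⟨wp, wm, tp, tm, hc⟩ := TPD.two_of c b
  exact ⟨wp, wm, TPD.t3p_row c b wp wm tp tm hc⟩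

end Vale.Agent.P352X
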