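import Vale.Agent.P352X.TPD.Defs

/-!
# P352X, block TPD: the rows (see notes/P352/tpd.md)
-/

set_option linter.all false

open MeasureTheory Filter Topology
open scoped SchwartzMap ComplexConjugate ENNReal ContDiff

namespace Vale.Agent.P352X.TPD

open Vale.Agent.P352 Vale.Agent.P352.GF Vale.Agent.P352.BW Vale.Agent.P352.H246
open Vale.Agent.P352.H496 Vale.Agent.P352.H755 Vale.Agent.P352.H15
open UniformSpace (Completion)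
open Complex (I)

noncomputable section

/-! ## pure rows -/

/-- row TEN: tensors and matrices -/
structure TEN : Prop where
  one : ∀ (ι : Type) [Fintype ι] [DecidableEq ι] (h : Tn ι), pb GF.one h = h
  mul : ∀ (ι : Type) [Fintype ι] [DecidableEq ι] L L' (h : Tn ι),
    pb L' (pb L h) = pb (T.cm L' L) h
  perm : ∀ (ι κ : Type) [Fintype ι] [DecidableEq ι] [Fintype κ] [DecidableEq κ] (e : ι ≃ κ) L
    (h : Tn ι), pb L (fun ν : κ → Ix => h (ν ∘ e)) = fun ν => pb L h (ν ∘ e)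
  adj : ∀ (ι : Type) [Fintype ι] [DecidableEq ι] (L : Ix → V) (h h' : Tn ι),
    ∑ ν, pb L h ν * h' ν = ∑ ν, h ν * pb (fun m n => L n m) h' ν
  pure : ∀ (ι : Type) [Fintype ι] [DecidableEq ι] (L : Ix → V) (v : ι → V),
    pb L (fun ν => ∏ i, v i (ν i)) = fun ν => ∏ i, ∑ m, L (ν i) m * v i m
  four : ∀ (L : Ix → V) (t : Tn (Fin 4)) (K M : I2), (pb L t ![K.1, K.2, M.1, M.2] : ℂ) =
    ∑ I : I2, ∑ J : I2, L2 L K I * L2 L M J * (t ![I.1, I.2, J.1, J.2] : ℝ)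
  pol : ∀ (κ : Type) [Fintype κ] [DecidableEq κ] (k : ℕ) (s : ℝ) L (h : Tn (κ ⊕ Fin k)),
    pf s L (pol h) = s ^ k • pol (pb L h)
  add : ∀ (κ : Type) (k : ℕ) (a : ℝ) (h h' : Tn (κ ⊕ Fin k)),
    TPD.pol (h + h') = TPD.pol h + TPD.pol h' ∧ TPD.pol (a • h) = a • TPD.pol h
  smooth : ∀ (κ : Type) [Fintype κ] [DecidableEq κ] (k : ℕ) (h : Tn (κ ⊕ Fin k)),
    ContDiff ℝ ∞ (TPD.pol h) ∧ ∀ u, TPD.pol h (-u) = (-1 : ℝ) ^ k • TPD.pol h u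
  pfm : ∀ (ι : Type) [Fintype ι] [DecidableEq ι] (s s' : ℝ) L L' (S : V → Tn ι),
    pf s' L' (pf s L S) = pf (s * s') (T.cm L' L) S
  pfs : ∀ (ι : Type) [Fintype ι] [DecidableEq ι] (s : ℝ) L (S : V → Tn ι), ContDiff ℝ ∞ S →
    ContDiff ℝ ∞ (pf s L S)
  h0 : ∀ (s : ℝ) L k, IsLor L → pf s L (h0 k) = s ^ 2 • h0 (pb L k)
  h0s : ∀ k, ContDiff ℝ ∞ (TPD.h0 k) ∧ (∀ u, TPD.h0 k (-u) = TPD.h0 k u) ∧
    ∀ k' (a : ℝ), TPD.h0 (k + k') = TPD.h0 k + TPD.h0 k' ∧ TPD.h0 (a • k) = a • TPD.h0 k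
  et : ∀ L, IsLor L → pb L et = et
  sq : ∀ L n, IsLor L → pb L (sq (sim 1 L 0 n)) = sq n
  tl : ∀ L k, IsLor L → trc (pb L k) = trc k ∧ tl (pb L k) = pb L (tl k)
  sy : ∀ L t, sy (pb L t) = pb L (sy t)
  d1 : ∀ (s : ℝ) L X, ContDiff ℝ ∞ X → d1 (pf s L X) = s • pf s L (d1 X) ∧
    d3 (pf s L X) = s • pf s L (d3 X)
  b1 : ∀ (s : ℝ) L (χ : V → ℝ) X, ContDiff ℝ ∞ χ →
    b1 (fun u => χ (sim s L 0 u)) (pf s L X) = s • pf s L (b1 χ X) ∧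
    b3 (fun u => χ (sim s L 0 u)) (pf s L X) = s • pf s L (b3 χ X)
  i3 : ∀ (s : ℝ) L Y t, pf s L (i3 t Y) = ∑ r, L r t • i3 r (pf s L Y)
  okc : ∀ (χ : V → ℝ) S, Tst χ → (0 : V) ∉ tsupport χ → ContDiff ℝ ∞ S →
    Ok (cs χ S) ∧ tsupport (cs χ S) ⊆ tsupport χ
  okb : ∀ (χ : V → ℝ) X, Tst χ → (∀ᶠ u in 𝓝 (0 : V), χ u = χ 0) → ContDiff ℝ ∞ X →
    Ok (TPD.b1 χ X) ∧ tsupport (TPD.b1 χ X) ⊆ tsupport χ ∧
    Ok (b3 χ X) ∧ tsupport (b3 χ X) ⊆ tsupport χ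
  okp : ∀ (s : ℝ) L φ, 0 < s → IsLor L → Ok φ → Ok (pf s L φ)
  ec : ∀ η η' : EC, Tst (η.1 - η'.1) ∧ (0 : V) ∉ tsupport (η.1 - η'.1)
  small : ∀ ε : ℝ, 0 < ε → ∃ η : EC, tsupport η.1 ⊆ Metric.ball 0 ε
  pull : ∀ (η : EC) (s s' : ℝ) L L', 0 < s → 0 < s' → IsLor L → IsLor L' →
    (η.pull s L).pull s' L' = η.pull (s * s') (T.cm L' L) ∧ η.pull 1 GF.one = η ∧
    sim s L 0 '' tsupport (η.pull s L).1 = tsupport η.1
  lcm : ∀ L L', IsLor L → IsLor L' → IsLor (T.cm L' L) ∧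
    ∀ s s' z, sim (s * s') (T.cm L' L) 0 z = sim s L 0 (sim s' L' 0 z)
  inv : ∀ L, IsLor L → ∃ L', IsLor L' ∧ T.cm L L' = GF.one ∧ T.cm L' L = GF.one
  tra : ∀ L, IsLor L → IsLor fun m n => L n m
  r1 : IsLor r1 ∧ ∀ z, sim 1 r1 0 z = -jr z
  cyc : IsLor cyc ∧ ∀ z, sim 1 cyc 0 z = ![z 0, z 3, z 1, z 2]
  sw : IsLor sw ∧ ∀ α β x, sim 1 sw 0 (pt α β x) = pt β α ![-x 0, x 1]
  lsc : ∀ r s, 0 < r → 0 < s → IsLor (Lsc r s) ∧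
    (∀ z, sim (Real.sqrt (r * s)) (Lsc r s) 0 z = scp r s z) ∧ Lsc r r = GF.one
  lb : ∀ t, IsLor (Lb t) ∧ (∀ z, sim 1 (Lb t) 0 z = scp (Real.exp t) (Real.exp (-t)) z) ∧
    (∀ t', T.cm (Lb t') (Lb t) = Lb (t + t')) ∧
    ∀ w, T.cm (Lg w) (Lb t) = T.cm (Lb t) (Lg (Real.exp t • w))
  lb0 : Lb 0 = GF.one ∧ Continuous Lb ∧ ∀ r s, 0 < r → 0 < s → Lsc r s = Lb (Real.log (r / s) / 2)
  lg : ∀ w, IsLor (Lg w) ∧ (∀ z, sim 1 (Lg w) 0 z = gap w z) ∧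
    ∀ w', T.cm (Lg w') (Lg w) = Lg (w + w')
  lg0 : Lg 0 = GF.one ∧ Continuous Lg

/-- row PER: functions that continue periodically to a strip are exponential polynomials -/
def PER : Prop := ∀ (G G' : ℝ → ℂ) (C : ℝ) (N : ℕ), Continuous G → Continuous G' →
  (∀ t, ‖G t‖ ≤ C * Real.exp (N * |t|)) → (∀ t, ‖G' t‖ ≤ C * Real.exp (N * |t|)) →
  (∀ τ : ℂ, ∫ t : ℝ, Complex.exp (-(t - τ) ^ 2) * G t =
    ∫ t : ℝ, Complex.exp (-(t - τ + Real.pi * I) ^ 2) * G' t) →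
  (∀ τ : ℂ, ∫ t : ℝ, Complex.exp (-(t - τ) ^ 2) * G' t =
    ∫ t : ℝ, Complex.exp (-(t - τ + Real.pi * I) ^ 2) * G t) →
  ∃ a : ℤ → ℂ, ∀ t : ℝ, G t = ∑ n ∈ Finset.Icc (-N : ℤ) N, a n * (Real.exp (n * t) : ℝ) ∧
    G' t = ∑ n ∈ Finset.Icc (-N : ℤ) N, (-1) ^ n * a n * (Real.exp (n * t) : ℝ)

/-- row EXP: limits of exponential polynomials, and interpolation -/
structure EXP : Prop where
  lim : ∀ (s : Finset ℤ) (a : ℤ → ℂ) (b : ℂ) (m : ℤ), Tendsto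
    (fun t : ℝ => ∑ n ∈ s, Real.exp ((n - m) * t) • a n) atBot (𝓝 b) →
    (∀ n ∈ s, n < m → a n = 0) ∧ (m ∈ s → a m = b) ∧ (m ∉ s → b = 0)
  lag : ∀ s : Finset ℤ, ∃ (M : ℕ) (q : ℤ → ℕ → ℝ), ∀ n ∈ s, ∀ m ∈ s,
    ∑ j ∈ Finset.range M, q n j * Real.exp (m * j) = if m = n then 1 else 0

/-- row SPAN: tensors of odd rank are spanned by tensors of positive boost weight -/
def SPAN : Prop := ∀ G : Submodule ℝ (Tn (Fin 4 ⊕ Fin 3)),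
  (∀ L h, IsLor L → pb L h ∈ G → h ∈ G) →
  (∀ h (j : ℕ), 1 ≤ j → (∀ r s, 0 < r → 0 < s → pb (Lsc r s) h = Real.sqrt (s / r) ^ j • h) →
    h ∈ G) → G = ⊤

/-- row EQ1: constant and linear sources are pure gauge -/
def EQ1 : Prop := ∀ k : ℕ, k < 2 → ∃ σ : Tn (Fin 4 ⊕ Fin k) →ₗ[ℝ] Tn (Fin 3 ⊕ Fin (k + 1)),
  (∀ L h, IsLor L → σ (pb L h) = pb L (σ h)) ∧ ∀ h u, sy (pol h u) = sy (d1 (pol (σ h)) u)

/-- row EQ2: quadratic sources are pure gauge up to `u^2 η ⊗ k` -/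
def EQ2 : Prop := ∃ (σ1 σ2 : Tn (Fin 4 ⊕ Fin 2) →ₗ[ℝ] Tn (Fin 3 ⊕ Fin 3))
  (σ3 : Tn (Fin 4 ⊕ Fin 2) →ₗ[ℝ] Tn (Fin 2)),
  (∀ L h, IsLor L → σ1 (pb L h) = pb L (σ1 h) ∧ σ2 (pb L h) = pb L (σ2 h) ∧
    σ3 (pb L h) = pb L (σ3 h)) ∧
  ∀ h u, sy (pol h u) = sy (d1 (pol (σ1 h)) u + d3 (pol (σ2 h)) u + h0 (σ3 h) u)

/-- the fifth difference -/
def df5 {E : Type*} [AddCommGroup E] [Module ℝ E] (φ : R2 → E) (x w : R2) : E :=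
  ∑ j ∈ Finset.range 6, ((-1) ^ (5 - j) * (Nat.choose 5 j : ℝ)) • φ (x + (j : ℝ) • w)

/-- row POLYN: a function on the light cone with vanishing fifth differences in both stereographic
charts is a quadratic form -/
def POLYN : Prop := ∀ φ : V → ℂ, (∀ n (t : ℝ), IsNull n → 0 < t → φ (t • n) = (t ^ 2 : ℝ) * φ n) →
  Continuous (fun x => φ (nb x)) → Continuous (fun x => φ (na x)) →
  (∀ x w, df5 (fun x => φ (nb x)) x w = 0) → (∀ x w, df5 (fun x => φ (na x)) x w = 0) →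
  ∃ q : Ix → Ix → ℂ, ∀ n, IsNull n → φ n = ∑ m, ∑ k, q m k * (sq n ![m, k] : ℝ)

/-- row NODES: squares of null vectors span the traceless tensors -/
def NODES : Prop := ∃ (N : ℕ) (n : Fin N → V) (l : Fin N → Tn (Fin 2) →ₗ[ℝ] ℝ),
  (∀ i, IsNull (n i)) ∧ ∀ k, ∑ i, l i k • sq (n i) = tl k

variable {D : Type*} [NormedAddCommGroup D] [InnerProductSpace ℂ D] (c : Ctx D)

/-! ## tools -/

/-- row BA: the calculus of `Th`, `act`, `TC`, `Loc` -/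
structure BA : Prop where
  th_ug : ∀ s L a z, 0 < s → IsLor L → Th c (Ug c.Q s L a z) = Ug c.Q s L (-a) (Th c z)
  th_om : Th c c.Om = c.Om
  th_th : ∀ z, Th c (Th c z) = z
  j_th : ∀ z, c.J (Th c z) = Ug c.Q 1 r1 0 z
  th_inner : ∀ v w, inner ℂ (Th c v) (Th c w) = inner ℂ w v
  th_phi : ∀ F z, SN.Bd F → Th c (c.bt.Phi F z) = c.bt.Phi (fun p => conj (F p)) (Th c z)
  th_two : ∀ (K M : I2) (f g : Sch),
    Th c (c.T K.1 K.2 (ev f) (c.T M.1 M.2 (ev g) c.Q.vac) : D) =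
      (c.T K.1 K.2 (bar (ev (ng f))) (c.T M.1 M.2 (bar (ev (ng g))) c.Q.vac) : D)
  pp : ∀ z, inner ℂ c.Om (Pp c z) = 0 ∧ Th c (Pp c z) = Pp c (Th c z) ∧
    (∃ κ : ℂ, z = Pp c z + κ • c.Om) ∧ (inner ℂ c.Om z = 0 → Pp c z = z) ∧
    ∀ s L a, Ug c.Q s L a (Pp c z) = Pp c (Ug c.Q s L a z)
  pp_pr : ∀ O ψ ψ', Pr (c.N O) c.Om ψ ψ' → Pr (c.N O) c.Om (Pp c ψ) (Pp c ψ')
  mul : ∀ s s' L L' x, 0 < s → 0 < s' → IsLor L → IsLor L' →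
    act c s L (act c s' L' x) = act c (s * s') (T.cm L' L) x
  one : ∀ x, act c 1 GF.one x = x
  gmul : ∀ s s' L L' x, 0 < s → 0 < s' → IsLor L → IsLor L' →
    ga c s L (ga c s' L' x) = ga c (s * s') (T.cm L' L) x
  gone : ∀ x, ga c 1 GF.one x = x
  nrm : ∀ s L x f, ‖act c s L x f‖ = ‖x (pS s L f)‖
  der : ∀ (s : ℝ) L x v, 0 < s → IsLor L →
    act c s L (x ∘L KDa.dS v) = s • (act c s L x ∘L KDa.dS (sim 1 L 0 v))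
  cont : ∀ (ι : Type) (l : Filter ι) (L : ι → Ix → V) L0 x f, (∀ i, IsLor (L i)) → IsLor L0 →
    Tendsto L l (𝓝 L0) → Tendsto (fun i => act c 1 (L i) x f) l (𝓝 (act c 1 L0 x f))
  gro : ∀ x : TT D, ∃ N : ℕ, ∀ f, ∃ C : ℝ, ∀ t, ‖act c 1 (Lb t) x f‖ ≤ C * Real.exp (N * |t|)
  tc0 : TC c 0
  tc_add : ∀ x y, TC c x → TC c y → TC c (x + y)
  tc_smul : ∀ (a : ℝ) x, TC c x → TC c (a • x)
  tc_act : ∀ s L x, 0 < s → IsLor L → TC c x → TC c (act c s L x)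
  tc_der : ∀ v x, TC c x → TC c (x ∘L KDa.dS v)
  tc_gn : ∀ v x f, TC c x → Gn (fun t => Ut c.Q (t • v)) (x f) (I • x (KDa.dS v f))
  tc_psi : ∀ v x f, TC c x → c.bt.Dom (fun p => (mdot p v : ℝ)) (x f) ∧
    x (KDa.dS v f) = -I • c.bt.Psi (fun p => (mdot p v : ℝ)) (x f)
  tc_rel : ∀ x f g, TC c x → c.bt.Phi (ft (ev g)) (x f) = c.bt.Phi (ft (ev f)) (x g)
  loc0 : ∀ σ K, Loc c σ K 0
  loc_add : ∀ σ K x y, Loc c σ K x → Loc c σ K y → Loc c σ K (x + y)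
  loc_smul : ∀ σ K (a : ℝ) x, Loc c σ K x → Loc c σ K (a • x)
  loc_mono : ∀ σ K K' x, K ⊆ K' → Loc c σ K x → Loc c σ K' x
  loc_act : ∀ σ K s L x, 0 < s → IsLor L → Loc c σ K x →
    Loc c σ (sim s L 0 '' K) (act c s L x)
  loc_der : ∀ σ K v x, Loc c σ K x → Loc c (-σ) K (x ∘L KDa.dS v)
  loc_small : ∀ σ K x, (∀ ε : ℝ, 0 < ε → Loc c σ (K ∪ Metric.ball 0 ε) x) → Loc c σ K x
  loc_lim : ∀ σ K (x : ℕ → TT D) y, (∀ f, Tendsto (fun n => x n f) atTop (𝓝 (y f))) →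
    (∀ ε : ℝ, 0 < ε → ∀ᶠ n in atTop, Loc c σ (K ∪ Metric.ball 0 ε) (x n)) → Loc c σ K y
  hom0 : ∀ σ k, Hom c σ k 0
  hom_add : ∀ σ k x y, Hom c σ k x → Hom c σ k y → Hom c σ k (x + y)
  hom_smul : ∀ σ k (a : ℝ) x, Hom c σ k x → Hom c σ k (a • x)
  hom_act : ∀ σ k L x, IsLor L → Hom c σ k x → Hom c σ k (act c 1 L x)

/-- row BP: the calculus of `psi` and `Dat` -/
structure BP (w : WW D) : Prop where
  add : ∀ φ φ', Ok φ → Ok φ' → psi w (φ + φ') = psi w φ + psi w φ'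
  smul : ∀ (a : ℝ) φ, Ok φ → psi w (a • φ) = a • psi w φ
  tc : ∀ φ, Ok φ → TC c (psi w φ)
  loc : ∀ σ φ, σ * σ = 1 → Ok φ → (∀ u, φ (-u) = σ • φ u) → Loc c σ (tsupport φ) (psi w φ)
  cov : ∀ s L φ, 0 < s → IsLor L → Ok φ → act c s L (psi w (pf s L φ)) = psi w φ
  sy : ∀ φ φ', Ok φ → Ok φ' → (∀ u, sy (φ u) = sy (φ' u)) → psi w φ = psi w φ'
  c1 : ∀ χ X, Tst χ → (0 : V) ∉ tsupport χ → ContDiff ℝ ∞ X →
    psi w (b1 χ X) + psi w (cs χ (d1 X)) = 0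
  c3 : ∀ χ Y, Tst χ → (0 : V) ∉ tsupport χ → ContDiff ℝ ∞ Y →
    psi w (b3 χ Y) + psi w (cs χ (d3 Y)) = ∑ r, psi w (cs χ (i3 r Y)) ∘L KDa.dS (bas r 1)
  dzero : ∀ σ, Dat c w σ 0 0
  dadd : ∀ σ S S' x x', ContDiff ℝ ∞ S → ContDiff ℝ ∞ S' → Dat c w σ S x → Dat c w σ S' x' →
    Dat c w σ (S + S') (x + x')
  dsmul : ∀ σ (a : ℝ) S x, ContDiff ℝ ∞ S → Dat c w σ S x → Dat c w σ (a • S) (a • x)
  dsy : ∀ σ S S' x, ContDiff ℝ ∞ S → ContDiff ℝ ∞ S' → (∀ u, TPD.sy (S u) = TPD.sy (S' u)) →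
    Dat c w σ S x → Dat c w σ S' x
  dact : ∀ σ s L S x, 0 < s → IsLor L → ContDiff ℝ ∞ S → Dat c w σ (pf s L S) x →
    Dat c w σ S (ga c s L x)
  dhom : ∀ σ (k : ℕ) x, Dat c w σ 0 x → (∀ s : ℝ, 0 < s → s ^ k • ga c s GF.one x = x) →
    ∃ y, Hom c σ k y ∧ ∀ η, x η = y
  dcont : ∀ σ S x (ι : Type) (l : Filter ι) (L : ι → Ix → V) L0 η f, ContDiff ℝ ∞ S →
    Dat c w σ S x → (∀ i, IsLor (L i)) → IsLor L0 → Tendsto L l (𝓝 L0) →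
    Tendsto (fun i => ga c 1 (L i) x η f) l (𝓝 (ga c 1 L0 x η f))
  g1 : ∀ σ X, σ * σ = 1 → ContDiff ℝ ∞ X → (∀ u, X (-u) = -σ • X u) →
    Dat c w σ (d1 X) (g1 w X) ∧
    (∀ s L, 0 < s → IsLor L → ga c s L (g1 w (pf s L X)) = s • g1 w X) ∧
    ∀ X' (a : ℝ), ContDiff ℝ ∞ X' → g1 w (X + X') = g1 w X + g1 w X' ∧ g1 w (a • X) = a • g1 w X
  g3 : ∀ σ Y, σ * σ = 1 → ContDiff ℝ ∞ Y → (∀ u, Y (-u) = -σ • Y u) →
    (∀ η : EC, TC c (psi w (b3 η.1 Y)) ∧ Loc c σ (tsupport η.1) (psi w (b3 η.1 Y))) ∧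
    (∀ η η' : EC, psi w (b3 η.1 Y) - psi w (b3 η'.1 Y) + psi w (cs (η.1 - η'.1) (d3 Y)) =
      ∑ r, psi w (cs (η.1 - η'.1) (i3 r Y)) ∘L KDa.dS (bas r 1)) ∧
    (∀ s L, 0 < s → IsLor L → ga c s L (fun η => psi w (b3 η.1 (pf s L Y))) =
      s • fun η : EC => psi w (b3 η.1 Y)) ∧
    ∀ Y' (a : ℝ) (η : EC), ContDiff ℝ ∞ Y' →
      psi w (b3 η.1 (Y + Y')) = psi w (b3 η.1 Y) + psi w (b3 η.1 Y') ∧
      psi w (b3 η.1 (a • Y)) = a • psi w (b3 η.1 Y)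

/-- the tools -/
structure B0 : Prop extends T3 c where
  ten : TEN
  exp : EXP
  ba : BA c
  bp : ∀ w, Src c w → BP c w

/-! ## infrared bounds -/

/-- row RHO: the two point measure -/
def RHO : Prop := ∀ x, TC c x → ∃ ρ : Measure V, IsLocallyFiniteMeasure ρ ∧
  (∀ f : Sch, c.nu (x f) = ρ.withDensity fun p => ENNReal.ofReal (‖ft (ev f) p‖ ^ 2)) ∧
  (∀ᵐ p ∂ρ, 0 < p o ∧ 0 ≤ mu p) ∧
  ∃ M : ℕ, ∫⁻ p, ENNReal.ofReal (((1 + ‖p‖) ^ M)⁻¹) ∂ρ < ⊤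

/-- row IRQ: small transverse momenta -/
def IRQ : Prop := ∀ ψ ψ' (R : ℝ), inner ℂ c.Om ψ = 0 → (∀ (t : ℝ) (x : R2), |t| ≤ 1 → R ≤ ‖x‖ →
    inner ℂ ψ (Ut c.Q (bas o t + tv x) ψ) = inner ℂ (Ut c.Q (bas o t + tv x) ψ') ψ') →
  ∃ C : ℝ, ∀ s, 0 < s → c.nu ψ {p | ‖tx p‖ ≤ s ∧ p o ≤ 1} ≤ ENNReal.ofReal (C * s)

/-- row IRG: the commutator function of a local distribution -/
def IRG : Prop := ∀ σ K x (f : Sch), TC c x → Loc c σ K x → Bornology.IsBounded K →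
  HasCompactSupport f → ∃ R : ℝ, ∀ (t : ℝ) (y : R2), |t| ≤ 1 → R ≤ ‖y‖ →
    inner ℂ (x f) (Ut c.Q (bas o t + tv y) (x f)) =
      inner ℂ (Ut c.Q (bas o t + tv y) (σ • Th c (x (ng f)))) (σ • Th c (x (ng f)))

/-- row ANI: the gain under anisotropic scalings -/
def ANI : Prop := ∀ σ K x (r s : ℝ), TC c x → Loc c σ K x → Bornology.IsBounded K → 0 < r →
  r < 1 → 0 < s → s < 1 → ∃ (m : ℕ) (C : ℝ), ∀ (N : ℕ) (f g : Sch),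
    (∀ z, g z = f (scp (r ^ N) (s ^ N) z)) →
    ‖x g‖ ≤ C * ((r * s) ^ (-(15 / 8 : ℝ))) ^ N * sn m f

/-- row KILL: no local eigenvectors of low twist -/
def KILL : Prop := ∀ σ y (r s a : ℝ), TC c y → Loc c σ ∅ y → 0 < r → r < 1 → 0 < s → s < 1 →
  act c (Real.sqrt (r * s)) (Lsc r s) y = a • y → (r * s) ^ (-(15 / 8 : ℝ)) < a → y = 0

/-- row LIM: data as anisotropic limits -/
def LIM : Prop := ∀ w, Src c w → ∀ σ S (r s a : ℝ), σ * σ = 1 → ContDiff ℝ ∞ S →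
  (∀ u, S (-u) = σ • S u) → 0 < r → r < 1 → 0 < s → s < 1 →
  pf (Real.sqrt (r * s)) (Lsc r s) S = a • S → 0 ≤ a → a * (r * s) ^ (-(15 / 8 : ℝ)) < 1 →
  ∃ x, Dat c w σ S x ∧ ∀ (s' : ℝ) L (κ : ℝ), 0 < s' → IsLor L →
    (∀ z, sim 1 L 0 (scp r s z) = scp r s (sim 1 L 0 z)) → pf s' L S = κ • S →
    κ • ga c s' L x = x

/-! ## boost weights -/

/-- row GK: the KMS condition with Gaussians -/
def GK : Prop := ∀ ψ ψ' (τ : ℂ), Pr (c.N (Wdg va vb 0)) c.Om ψ ψ' →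
  ∫ t : ℝ, Complex.exp (-(t - τ) ^ 2) • Bo c.Q t ψ =
    ∫ t : ℝ, Complex.exp (-(t - τ + Real.pi * I) ^ 2) • Bo c.Q t (c.J ψ')

/-- row SHF: continuation of the boosted distribution -/
def SHF : Prop := ∀ σ y ξ f (τ : ℂ), TC c y → Loc c σ ∅ y →
  ∫ t : ℝ, Complex.exp (-(t - τ) ^ 2) * inner ℂ ξ (act c 1 (Lb t) y f) =
    ∫ t : ℝ, Complex.exp (-(t - τ + Real.pi * I) ^ 2) *
      inner ℂ ξ (act c 1 (Lb t) (σ • act c 1 r1 y) f)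

/-- row WL: the weight lemma -/
def WL : Prop := ∀ σ (k : ℕ) y, σ * σ = 1 → Hom c σ k y → ∃ z : ℤ → TT D,
  (∀ n, Hom c σ k (z n) ∧ ∀ t, act c 1 (Lb t) (z n) = Real.exp (n * t) • z n) ∧
  (∀ n, 4 - (k : ℤ) ≤ |n| → z n = 0) ∧ y = ∑ n ∈ Finset.Icc (-3 : ℤ) 3, z n ∧
  σ • act c 1 r1 y = ∑ n ∈ Finset.Icc (-3 : ℤ) 3, (-1 : ℝ) ^ n • z n

/-- row EU: existence and uniqueness give covariance -/
def EU : Prop := ∀ w, Src c w → ∀ k : ℕ, (∀ y, Hom c ((-1) ^ k) k y → y = 0) →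
  (∀ h : Tn (Fin 4 ⊕ Fin k), ∃ x, HD c w h x) → Ext c w k

/-- degrees three and higher -/
def A3 : Prop := ∀ w, Src c w → ∀ k, 3 ≤ k → Ext c w k

/-- degrees zero and one -/
def A1 : Prop := ∀ w, Src c w → ∀ k, k < 2 → Ext c w k

/-! ## degree two, the traceless class -/

/-- data for `u^2 η ⊗ n n` -/
structure Phi (w : WW D) (Φ : V → Fam D) : Prop where
  dat : ∀ n, IsNull n → Dat c w 1 (h0 (sq n)) (Φ n)
  hom : ∀ n (t : ℝ), IsNull n → 0 < t → Φ (t • n) = t ^ 2 • Φ n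
  cov : ∀ (s : ℝ) L n, 0 < s → IsLor L → IsNull n → s ^ 2 • ga c s L (Φ n) = Φ (sim 1 L 0 n)

/-- row PHI -/
def PHI : Prop := ∀ w, Src c w → ∃ Φ, Phi c w Φ

/-- row FIVE -/
def FIVE : Prop := ∀ w Φ, Src c w → Phi c w Φ → ∀ x y, df5 (fun x => Φ (nb x)) x y = 0

/-- row TL -/
def TL : Prop := ∀ w, Src c w → ∃ B : Tn (Fin 2) →ₗ[ℝ] Fam D,
  (∀ k, Dat c w 1 (h0 (tl k)) (B k)) ∧
  ∀ (s : ℝ) L k, 0 < s → IsLor L → s ^ 2 • ga c s L (B (pb L k)) = B k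

/-! ## degree two, the scalar class -/

/-- row HMU: functions of the mass preserve wedge locality -/
def HMU : Prop := ∀ a b y ψ ψ' (h : ℝ → ℝ), IsNull a → IsNull b → 0 < mdot a b →
  SN.Bd (fun t => (h t : ℂ)) → Pr (c.N (Wdg a b y)) c.Om ψ ψ' →
  Pr (c.N (Wdg a b y)) c.Om (c.bt.Phi (fun p => h (mu p)) ψ) (c.bt.Phi (fun p => h (mu p)) ψ')

/-- row DL0: a distribution with local gradient is local -/
def DL0 : Prop := ∀ σ K x, TC c x → (∀ v, Loc c (-σ) K (x ∘L KDa.dS v)) → Loc c σ K x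

/-- `F(P) x` is a tempered distribution -/
def Mu (F : V → ℂ) (x : TT D) : Prop := ∃ (m : ℕ) (C : ℝ), ∀ f : Sch,
  ∫⁻ p, ENNReal.ofReal (‖F p‖ ^ 2) ∂c.nu (x f) ≤ ENNReal.ofReal ((C * sn m f) ^ 2)

/-- row IRN: division by the energy -/
def IRN : Prop := ∀ x y v, TC c x → TC c y →
  x = (2 : ℝ) • act c 2 GF.one x + y ∘L KDa.dS v → Mu c (fun p => ((p o)⁻¹ : ℝ)) x

/-- row CVX: highest weight components -/
def CVX : Prop := ∀ x (α β : ℝ), TC c x → (∀ w, act c 1 (Lg w) x = x) →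
  (∀ r s, 0 < r → 0 < s → act c (Real.sqrt (r * s)) (Lsc r s) x = (r ^ α * s ^ β) • x) →
  -3 / 2 < β → ∃ κ : ℝ, 0 ≤ κ ∧ ∀ f : Sch, c.nu (x f) = (volume.restrict Fc).withDensity fun p =>
    ENNReal.ofReal (κ * be p ^ (2 * α - 2 * β) * mu p ^ (2 * β + 2) * ‖ft (ev f) p‖ ^ 2)

/-- row MUL -/
def MUL : Prop := ∀ F x, TC c x → Measurable F → Mu c F x →
  ∃ y, TC c y ∧ ∀ f, c.bt.Dom F (x f) ∧ y f = c.bt.Psi F (x f)

/-- the curl -/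
def crl (n : V →ₗ[ℝ] TT D) (v v' : V) : TT D := n v ∘L KDa.dS v' - n v' ∘L KDa.dS v

/-- the divergence of the curl -/
def dcr (n : V →ₗ[ℝ] TT D) (v : V) : TT D := n v ∘L bx - dvg (fun v => n v) ∘L KDa.dS v

/-- `m` is the potential of `n` -/
structure Pot (n : V →ₗ[ℝ] TT D) (m : TT D) : Prop where
  tc : TC c m
  pos : ∀ f, c.bt.P {p | mu p ≠ 0} (m (bx f)) = c.bt.P {p | mu p ≠ 0} (dvg (fun v => n v) f)
  nul : ∀ v f, c.bt.P {p | mu p = 0} (m (KDa.dS v f)) = c.bt.P {p | mu p = 0} (n v f)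

/-- row POT: existence, uniqueness and locality of the potential -/
structure POT : Prop where
  ex : ∀ n : V →ₗ[ℝ] TT D, (∀ v, TC c (n v)) → (∀ v, Mu c (fun p => ((p o)⁻¹ : ℝ)) (n v)) →
    Mu c (fun p => ((mu p * be p)⁻¹ : ℝ)) (dcr n va) →
    Mu c (fun p => ((mu p * al p)⁻¹ : ℝ)) (dcr n vb) →
    (∀ v v' f, c.bt.P {p | mu p = 0} (crl n v v' f) = 0) → ∃ m, Pot c n m
  uq : ∀ n m m', Pot c n m → Pot c n m' → m = m'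
  loc : ∀ n m K, (∀ v, TC c (n v)) → (∀ v, Loc c (-1) K (n v)) → Pot c n m → Loc c 1 K m

/-- row CRL: bounds for a covariant curl -/
def CRL : Prop := ∀ n : V →ₗ[ℝ] TT D, (∀ v, TC c (n v)) →
  (∀ s L v v', 0 < s → IsLor L → act c s L (crl n v v') = crl n (sim 1 L 0 v) (sim 1 L 0 v')) →
  Mu c (fun p => ((mu p * be p)⁻¹ : ℝ)) (dcr n va) ∧
  Mu c (fun p => ((mu p * al p)⁻¹ : ℝ)) (dcr n vb) ∧
  ∀ v v' f, c.bt.P {p | mu p = 0} (crl n v v' f) = 0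

/-- row DIV: division by the momentum -/
def DIV : Prop := ∀ (n : V →ₗ[ℝ] Fam D) (cc : EC → EC → TT D), (∀ v η, TC c (n v η)) →
  (∀ v (η : EC), Loc c (-1) (tsupport η.1) (n v η)) → (∀ η η', TC c (cc η η')) →
  (∀ v η η', n v η - n v η' = cc η η' ∘L KDa.dS v) →
  (∀ (s : ℝ) L v, 0 < s → IsLor L → s • ga c s L (n v) = n (sim 1 L 0 v)) →
  ∃ m : Fam D, (∀ η : EC, TC c (m η) ∧ Loc c 1 (tsupport η.1) (m η)) ∧
    (∀ η η', m η - m η' = cc η η') ∧ ∀ (s : ℝ) L, 0 < s → IsLor L → s ^ 2 • ga c s L m = m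

/-- row SC -/
def SC : Prop := ∀ w, Src c w → ∃ m, Dat c w 1 (h0 et) m ∧
  ∀ (s : ℝ) L, 0 < s → IsLor L → s ^ 2 • ga c s L m = m

/-- degree two -/
def A2 : Prop := ∀ w, Src c w → Ext c w 2

/-! ## assembly -/

/-- row PRE -/
def PRE : Prop := ∃ w, Pre c w

/-- row SRC -/
def SRC : Prop := ∀ w, Pre c w → Src c fun I J => Pp c ∘L w I J

/-- row FIN -/
def FIN : Prop := ∀ w, Pre c w → (∀ k, Ext c (fun I J => Pp c ∘L w I J) k) →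
  ∃ wp, TP2 c.Q c.T true wp ∧ LocW c wp

/-- row CMP -/
def CMP : Prop := ∀ wp, TP2 c.Q c.T true wp → LocW c wp →
  ∃ wm, TP2 c.Q c.T false wm ∧ Cmp c wp wm

/-- row T3P -/
def T3P : Prop := ∀ wp wm, TP2 c.Q c.T true wp → TP2 c.Q c.T false wm → Cmp c wp wm →
  ∃ t, TP c.Q c.T wp wm t

/-- all rows -/
structure Rows : Prop where
  ten : TEN
  exp : EXP
  per : PER
  span : TEN → SPAN
  eq1 : TEN → EQ1
  eq2 : TEN → EQ2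
  polyn : POLYN
  nodes : NODES
  ba : T3 c → TEN → BA c
  bp : T3 c → TEN → BA c → ∀ w, Src c w → BP c w
  rho : B0 c → RHO c
  irq : B0 c → IRQ c
  irg : B0 c → IRG c
  ani : B0 c → RHO c → IRQ c → IRG c → ANI c
  kill : B0 c → ANI c → KILL c
  lim : B0 c → ANI c → LIM c
  gk : B0 c → GK c
  shf : B0 c → GK c → SHF c
  wl : B0 c → PER → SHF c → KILL c → WL c
  eu : B0 c → EU c
  a3 : B0 c → SPAN → LIM c → WL c → EU c → A3 c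
  a1 : B0 c → EQ1 → A1 c
  phi : B0 c → LIM c → WL c → PHI c
  five : B0 c → WL c → FIVE c
  tl : B0 c → POLYN → NODES → PHI c → FIVE c → TL c
  hmu : B0 c → HMU c
  dl0 : B0 c → DL0 c
  irn : B0 c → RHO c → IRN c
  cvx : B0 c → CVX c
  mul : B0 c → MUL c
  pot : B0 c → MUL c → HMU c → DL0 c → POT c
  crl : B0 c → CVX c → CRL c
  div : B0 c → IRN c → POT c → CRL c → DIV c
  sc : B0 c → A1 c → TL c → DIV c → SC c
  a2 : B0 c → EQ2 → A3 c → TL c → SC c → A2 c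
  pre : B0 c → PRE c
  src : B0 c → SRC c
  fin : B0 c → SRC c → FIN c
  cmp : B0 c → CMP c
  t3p : B0 c → T3P c

/-- **The time ordered products exist.** -/
theorem Rows.tpd {c : Ctx D} (R : Rows c) (t : T3 c) : ∃ wp wm t, TP c.Q c.T wp wm t := by
  have ba := R.ba t R.ten
  have b : B0 c := ⟨t, R.ten, R.exp, ba, R.bp t R.ten ba⟩
  have rho := R.rho b
  have ani := R.ani b rho (R.irq b) (R.irg b)
  have lim := R.lim b ani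
  have wl := R.wl b R.per (R.shf b (R.gk b)) (R.kill b ani)
  have a3 := R.a3 b (R.span R.ten) lim wl (R.eu b)
  have a1 := R.a1 b (R.eq1 R.ten)
  have tl := R.tl b R.polyn R.nodes (R.phi b lim wl) (R.five b wl)
  have div := R.div b (R.irn b rho) (R.pot b (R.mul b) (R.hmu b) (R.dl0 b)) (R.crl b (R.cvx b))
  have a2 := R.a2 b (R.eq2 R.ten) a3 tl (R.sc b a1 tl div)
  obtain ⟨w, hw⟩ := R.pre b
  have hs := R.src b w hw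
  obtain ⟨wp, tp, hl⟩ := R.fin b (R.src b) w hw fun k => by
    rcases lt_trichotomy k 2 with h | rfl | h
    exacts [a1 _ hs k h, a2 _ hs, a3 _ hs k h]
  obtain ⟨wm, tm, hc⟩ := R.cmp b wp tp hl
  exact ⟨wp, wm, R.t3p b wp wm tp tm hc⟩

end

end Vale.Agent.P352X.TPD
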