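import Vale.Agent.P352X.TPD.Spec

/-!
# P352X, block TPD: the big tool rows in parts (see notes/P352/tpd.md)
-/

set_option linter.all false

open MeasureTheory Filter Topology
open scoped SchwartzMap ComplexConjugate ENNReal ContDiff

namespace Vale.Agent.P352X.TPD

open Vale.Agent.P352 Vale.Agent.P352.GF Vale.Agent.P352.BW Vale.Agent.P352.H246
open Vale.Agent.P352.H496 Vale.Agent.P352.H755 Vale.Agent.P352.H15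
open UniformSpace (Completion)
open Complex (I)

noncomputable section

/-- tensor algebra -/
structure TEN1 : Prop where
  one : ∀ (ι : Type) [Fintype ι] [DecidableEq ι] (h : Tn ι), pb GF.one h = h
  mul : ∀ (ι : Type) [Fintype ι] [DecidableEq ι] L L' (h : Tn ι),
    pb L' (pb L h) = pb (T.cm L' L) h
  perm : ∀ (ι κ : Type) [Fintype ι] [DecidableEq ι] [Fintype κ] [DecidableEq κ] (e : ι ≃ κ) L
    (h : Tn ι), pb L (fun ν : κ → Ix => h (ν ∘ e)) = fun ν => pb L h (ν ∘ e)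
  adj : ∀ (ι : Type) [Fintype ι] [DecidableEq ι] (L : Ix → V) (h h' : Tn ι),
    ∑ ν, pb L h ν * h' ν = ∑ ν, h ν * pb (fun m n => L n m) h' ν
  pure : ∀ (ι : Type) [Fintype ι] [DecidableEq ι] (L : Ix → V) (v : ι → V),
    pb L (fun ν => ∏ i, v i (ν i)) = fun ν => ∏ i, ∑ m, L (ν i) m * v i m
  four : ∀ (L : Ix → V) (t : Tn (Fin 4)) (K M : I2), (pb L t ![K.1, K.2, M.1, M.2] : ℂ) =
    ∑ I : I2, ∑ J : I2, L2 L K I * L2 L M J * (t ![I.1, I.2, J.1, J.2] : ℝ)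
  pol : ∀ (κ : Type) [Fintype κ] [DecidableEq κ] (k : ℕ) (s : ℝ) L (h : Tn (κ ⊕ Fin k)),
    pf s L (pol h) = s ^ k • pol (pb L h)
  add : ∀ (κ : Type) (k : ℕ) (a : ℝ) (h h' : Tn (κ ⊕ Fin k)),
    TPD.pol (h + h') = TPD.pol h + TPD.pol h' ∧ TPD.pol (a • h) = a • TPD.pol h
  smooth : ∀ (κ : Type) [Fintype κ] [DecidableEq κ] (k : ℕ) (h : Tn (κ ⊕ Fin k)),
    ContDiff ℝ ∞ (TPD.pol h) ∧ ∀ u, TPD.pol h (-u) = (-1 : ℝ) ^ k • TPD.pol h u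
  pfm : ∀ (ι : Type) [Fintype ι] [DecidableEq ι] (s s' : ℝ) L L' (S : V → Tn ι),
    pf s' L' (pf s L S) = pf (s * s') (T.cm L' L) S
  pfs : ∀ (ι : Type) [Fintype ι] [DecidableEq ι] (s : ℝ) L (S : V → Tn ι), ContDiff ℝ ∞ S →
    ContDiff ℝ ∞ (pf s L S)
  h0 : ∀ (s : ℝ) L k, IsLor L → pf s L (h0 k) = s ^ 2 • h0 (pb L k)
  h0s : ∀ k, ContDiff ℝ ∞ (TPD.h0 k) ∧ (∀ u, TPD.h0 k (-u) = TPD.h0 k u) ∧
    ∀ k' (a : ℝ), TPD.h0 (k + k') = TPD.h0 k + TPD.h0 k' ∧ TPD.h0 (a • k) = a • TPD.h0 k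
  et : ∀ L, IsLor L → pb L et = et
  sq : ∀ L n, IsLor L → pb L (sq (sim 1 L 0 n)) = sq n
  tl : ∀ L k, IsLor L → trc (pb L k) = trc k ∧ tl (pb L k) = pb L (tl k)
  sy : ∀ L t, sy (pb L t) = pb L (sy t)

/-- tensor fields and cutoffs -/
structure TEN2 : Prop where
  d1 : ∀ (s : ℝ) L X, ContDiff ℝ ∞ X → d1 (pf s L X) = s • pf s L (d1 X) ∧
    d3 (pf s L X) = s • pf s L (d3 X)
  b1 : ∀ (s : ℝ) L (χ : V → ℝ) X, ContDiff ℝ ∞ χ →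
    b1 (fun u => χ (sim s L 0 u)) (pf s L X) = s • pf s L (b1 χ X) ∧
    b3 (fun u => χ (sim s L 0 u)) (pf s L X) = s • pf s L (b3 χ X)
  i3 : ∀ (s : ℝ) L Y t, pf s L (i3 t Y) = ∑ r, L r t • i3 r (pf s L Y)
  okc : ∀ (χ : V → ℝ) S, Tst χ → (0 : V) ∉ tsupport χ → ContDiff ℝ ∞ S →
    Ok (cs χ S) ∧ tsupport (cs χ S) ⊆ tsupport χ
  okb : ∀ (χ : V → ℝ) X, Tst χ → (∀ᶠ u in 𝓝 (0 : V), χ u = χ 0) → ContDiff ℝ ∞ X →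
    Ok (TPD.b1 χ X) ∧ tsupport (TPD.b1 χ X) ⊆ tsupport χ ∧
    Ok (b3 χ X) ∧ tsupport (b3 χ X) ⊆ tsupport χ
  okp : ∀ (s : ℝ) L φ, 0 < s → IsLor L → Ok φ → Ok (pf s L φ)
  ec : ∀ η η' : EC, Tst (η.1 - η'.1) ∧ (0 : V) ∉ tsupport (η.1 - η'.1)
  small : ∀ ε : ℝ, 0 < ε → ∃ η : EC, tsupport η.1 ⊆ Metric.ball 0 ε
  pull : ∀ (η : EC) (s s' : ℝ) L L', 0 < s → 0 < s' → IsLor L → IsLor L' →
    (η.pull s L).pull s' L' = η.pull (s * s') (T.cm L' L) ∧ η.pull 1 GF.one = η ∧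
    sim s L 0 '' tsupport (η.pull s L).1 = tsupport η.1

/-- matrices -/
structure TEN3 : Prop where
  lcm : ∀ L L', IsLor L → IsLor L' → IsLor (T.cm L' L) ∧
    ∀ s s' z, sim (s * s') (T.cm L' L) 0 z = sim s L 0 (sim s' L' 0 z)
  inv : ∀ L, IsLor L → ∃ L', IsLor L' ∧ T.cm L L' = GF.one ∧ T.cm L' L = GF.one
  tra : ∀ L, IsLor L → IsLor fun m n => L n m
  r1 : IsLor r1 ∧ ∀ z, sim 1 r1 0 z = -jr z
  cyc : IsLor cyc ∧ ∀ z, sim 1 cyc 0 z = ![z 0, z 3, z 1, z 2]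
  sw : IsLor sw ∧ ∀ α β x, sim 1 sw 0 (pt α β x) = pt β α ![-x 0, x 1]
  lsc : ∀ r s, 0 < r → 0 < s → IsLor (Lsc r s) ∧
    (∀ z, sim (Real.sqrt (r * s)) (Lsc r s) 0 z = scp r s z) ∧ Lsc r r = GF.one
  lb : ∀ t, IsLor (Lb t) ∧ (∀ z, sim 1 (Lb t) 0 z = scp (Real.exp t) (Real.exp (-t)) z) ∧
    (∀ t', T.cm (Lb t') (Lb t) = Lb (t + t')) ∧
    ∀ w, T.cm (Lg w) (Lb t) = T.cm (Lb t) (Lg (Real.exp t • w))
  lb0 : Lb 0 = GF.one ∧ Continuous Lb ∧ ∀ r s, 0 < r → 0 < s → Lsc r s = Lb (Real.log (r / s) / 2)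
  lg : ∀ w, IsLor (Lg w) ∧ (∀ z, sim 1 (Lg w) 0 z = gap w z) ∧
    ∀ w', T.cm (Lg w') (Lg w) = Lg (w + w')
  lg0 : Lg 0 = GF.one ∧ Continuous Lg

theorem TEN.of (h1 : TEN1) (h2 : TEN2) (h3 : TEN3) : TEN :=
  ⟨h1.one, h1.mul, h1.perm, h1.adj, h1.pure, h1.four, h1.pol, h1.add, h1.smooth, h1.pfm, h1.pfs,
    h1.h0, h1.h0s, h1.et, h1.sq, h1.tl, h1.sy, h2.d1, h2.b1, h2.i3, h2.okc, h2.okb, h2.okp, h2.ec,
    h2.small, h2.pull, h3.lcm, h3.inv, h3.tra, h3.r1, h3.cyc, h3.sw, h3.lsc, h3.lb, h3.lb0, h3.lg,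
    h3.lg0⟩

variable {D : Type*} [NormedAddCommGroup D] [InnerProductSpace ℂ D] (c : Ctx D)

/-- `Th`, `Pp`, `act` -/
structure BA1 : Prop where
  th_ug : ∀ s L a z, 0 < s → IsLor L → Th c (Ug c.Q s L a z) = Ug c.Q s L (-a) (Th c z)
  th_om : Th c c.Om = c.Om
  th_th : ∀ z, Th c (Th c z) = z
  j_th : ∀ z, c.J (Th c z) = Ug c.Q 1 r1 0 z
  th_inner : ∀ v w, inner ℂ (Th c v) (Th c w) = inner ℂ w v
  th_phi : ∀ F z, SN.Bd F → Th c (c.bt.Phi F z) = c.bt.Phi (fun p => conj (F p)) (Th c z)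
  th_two : ∀ (K M : I2) (f g : Sch),
    Th c (c.T K.1 K.2 (ev f) (c.T M.1 M.2 (ev g) c.Q.vac) : D) =
      (c.T K.1 K.2 (bar (ev (ng f))) (c.T M.1 M.2 (bar (ev (ng g))) c.Q.vac) : D)
  pp : ∀ z, inner ℂ c.Om (Pp c z) = 0 ∧ Th c (Pp c z) = Pp c (Th c z) ∧
    (∃ κ : ℂ, z = Pp c z + κ • c.Om) ∧ (inner ℂ c.Om z = 0 → Pp c z = z) ∧
    ∀ s L a, Ug c.Q s L a (Pp c z) = Pp c (Ug c.Q s L a z)
  pp_pr : ∀ O ψ ψ', Pr (c.N O) c.Om ψ ψ' → Pr (c.N O) c.Om (Pp c ψ) (Pp c ψ')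
  mul : ∀ s s' L L' x, 0 < s → 0 < s' → IsLor L → IsLor L' →
    act c s L (act c s' L' x) = act c (s * s') (T.cm L' L) x
  one : ∀ x, act c 1 GF.one x = x
  gmul : ∀ s s' L L' x, 0 < s → 0 < s' → IsLor L → IsLor L' →
    ga c s L (ga c s' L' x) = ga c (s * s') (T.cm L' L) x
  gone : ∀ x, ga c 1 GF.one x = x
  nrm : ∀ s L x f, ‖act c s L x f‖ = ‖x (pS s L f)‖
  der : ∀ (s : ℝ) L x v, 0 < s → IsLor L →
    act c s L (x ∘L KDa.dS v) = s • (act c s L x ∘L KDa.dS (sim 1 L 0 v))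
  cont : ∀ (ι : Type) (l : Filter ι) (L : ι → Ix → V) L0 x f, (∀ i, IsLor (L i)) → IsLor L0 →
    Tendsto L l (𝓝 L0) → Tendsto (fun i => act c 1 (L i) x f) l (𝓝 (act c 1 L0 x f))
  gro : ∀ x : TT D, ∃ N : ℕ, ∀ f, ∃ C : ℝ, ∀ t, ‖act c 1 (Lb t) x f‖ ≤ C * Real.exp (N * |t|)

/-- `TC`, `Loc`, `Hom` -/
structure BA2 : Prop where
  tc0 : TC c 0
  tc_add : ∀ x y, TC c x → TC c y → TC c (x + y)
  tc_smul : ∀ (a : ℝ) x, TC c x → TC c (a • x)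
  tc_act : ∀ s L x, 0 < s → IsLor L → TC c x → TC c (act c s L x)
  tc_der : ∀ v x, TC c x → TC c (x ∘L KDa.dS v)
  tc_gn : ∀ v x f, TC c x → Gn (fun t => Ut c.Q (t • v)) (x f) (I • x (KDa.dS v f))
  tc_psi : ∀ v x f, TC c x → c.bt.Dom (fun p => (mdot p v : ℝ)) (x f) ∧
    x (KDa.dS v f) = -I • c.bt.Psi (fun p => (mdot p v : ℝ)) (x f)
  tc_rel : ∀ x f g, TC c x → c.bt.Phi (ft (ev g)) (x f) = c.bt.Phi (ft (ev f)) (x g)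
  loc0 : ∀ σ K, Loc c σ K 0
  loc_add : ∀ σ K x y, Loc c σ K x → Loc c σ K y → Loc c σ K (x + y)
  loc_smul : ∀ σ K (a : ℝ) x, Loc c σ K x → Loc c σ K (a • x)
  loc_mono : ∀ σ K K' x, K ⊆ K' → Loc c σ K x → Loc c σ K' x
  loc_act : ∀ σ K s L x, 0 < s → IsLor L → Loc c σ K x →
    Loc c σ (sim s L 0 '' K) (act c s L x)
  loc_der : ∀ σ K v x, Loc c σ K x → Loc c (-σ) K (x ∘L KDa.dS v)
  loc_small : ∀ σ K x, (∀ ε : ℝ, 0 < ε → Loc c σ (K ∪ Metric.ball 0 ε) x) → Loc c σ K x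
  loc_lim : ∀ σ K (x : ℕ → TT D) y, (∀ f, Tendsto (fun n => x n f) atTop (𝓝 (y f))) →
    (∀ ε : ℝ, 0 < ε → ∀ᶠ n in atTop, Loc c σ (K ∪ Metric.ball 0 ε) (x n)) → Loc c σ K y
  hom0 : ∀ σ k, Hom c σ k 0
  hom_add : ∀ σ k x y, Hom c σ k x → Hom c σ k y → Hom c σ k (x + y)
  hom_smul : ∀ σ k (a : ℝ) x, Hom c σ k x → Hom c σ k (a • x)
  hom_act : ∀ σ k L x, IsLor L → Hom c σ k x → Hom c σ k (act c 1 L x)

theorem BA.of {c : Ctx D} (h1 : BA1 c) (h2 : BA2 c) : BA c :=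
  ⟨h1.th_ug, h1.th_om, h1.th_th, h1.j_th, h1.th_inner, h1.th_phi, h1.th_two, h1.pp, h1.pp_pr,
    h1.mul, h1.one, h1.gmul, h1.gone, h1.nrm, h1.der, h1.cont, h1.gro, h2.tc0, h2.tc_add,
    h2.tc_smul, h2.tc_act, h2.tc_der, h2.tc_gn, h2.tc_psi, h2.tc_rel, h2.loc0, h2.loc_add,
    h2.loc_smul, h2.loc_mono, h2.loc_act, h2.loc_der, h2.loc_small, h2.loc_lim, h2.hom0, h2.hom_add,
    h2.hom_smul, h2.hom_act⟩

/-- `psi` -/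
structure BP1 (w : WW D) : Prop where
  add : ∀ φ φ', Ok φ → Ok φ' → psi w (φ + φ') = psi w φ + psi w φ'
  smul : ∀ (a : ℝ) φ, Ok φ → psi w (a • φ) = a • psi w φ
  tc : ∀ φ, Ok φ → TC c (psi w φ)
  loc : ∀ σ φ, σ * σ = 1 → Ok φ → (∀ u, φ (-u) = σ • φ u) → Loc c σ (tsupport φ) (psi w φ)
  cov : ∀ s L φ, 0 < s → IsLor L → Ok φ → act c s L (psi w (pf s L φ)) = psi w φ
  sy : ∀ φ φ', Ok φ → Ok φ' → (∀ u, sy (φ u) = sy (φ' u)) → psi w φ = psi w φ'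
  c1 : ∀ χ X, Tst χ → (0 : V) ∉ tsupport χ → ContDiff ℝ ∞ X →
    psi w (b1 χ X) + psi w (cs χ (d1 X)) = 0
  c3 : ∀ χ Y, Tst χ → (0 : V) ∉ tsupport χ → ContDiff ℝ ∞ Y →
    psi w (b3 χ Y) + psi w (cs χ (d3 Y)) = ∑ r, psi w (cs χ (i3 r Y)) ∘L KDa.dS (bas r 1)

/-- `Dat` -/
structure BP2 (w : WW D) : Prop where
  dzero : ∀ σ, Dat c w σ 0 0
  dadd : ∀ σ S S' x x', ContDiff ℝ ∞ S → ContDiff ℝ ∞ S' → Dat c w σ S x → Dat c w σ S' x' →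
    Dat c w σ (S + S') (x + x')
  dsmul : ∀ σ (a : ℝ) S x, ContDiff ℝ ∞ S → Dat c w σ S x → Dat c w σ (a • S) (a • x)
  dsy : ∀ σ S S' x, ContDiff ℝ ∞ S → ContDiff ℝ ∞ S' → (∀ u, TPD.sy (S u) = TPD.sy (S' u)) →
    Dat c w σ S x → Dat c w σ S' x
  dact : ∀ σ s L S x, 0 < s → IsLor L → ContDiff ℝ ∞ S → Dat c w σ (pf s L S) x →
    Dat c w σ S (ga c s L x)
  dhom : ∀ σ (k : ℕ) x, Dat c w σ 0 x → (∀ s : ℝ, 0 < s → s ^ k • ga c s GF.one x = x) →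
    ∃ y, Hom c σ k y ∧ ∀ η, x η = y
  dcont : ∀ σ S x (ι : Type) (l : Filter ι) (L : ι → Ix → V) L0 η f, ContDiff ℝ ∞ S →
    Dat c w σ S x → (∀ i, IsLor (L i)) → IsLor L0 → Tendsto L l (𝓝 L0) →
    Tendsto (fun i => ga c 1 (L i) x η f) l (𝓝 (ga c 1 L0 x η f))
  g1 : ∀ σ X, σ * σ = 1 → ContDiff ℝ ∞ X → (∀ u, X (-u) = -σ • X u) →
    Dat c w σ (d1 X) (g1 w X) ∧
    (∀ s L, 0 < s → IsLor L → ga c s L (g1 w (pf s L X)) = s • g1 w X) ∧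
    ∀ X' (a : ℝ), ContDiff ℝ ∞ X' → g1 w (X + X') = g1 w X + g1 w X' ∧ g1 w (a • X) = a • g1 w X
  g3 : ∀ σ Y, σ * σ = 1 → ContDiff ℝ ∞ Y → (∀ u, Y (-u) = -σ • Y u) →
    (∀ η : EC, TC c (psi w (b3 η.1 Y)) ∧ Loc c σ (tsupport η.1) (psi w (b3 η.1 Y))) ∧
    (∀ η η' : EC, psi w (b3 η.1 Y) - psi w (b3 η'.1 Y) + psi w (cs (η.1 - η'.1) (d3 Y)) =
      ∑ r, psi w (cs (η.1 - η'.1) (i3 r Y)) ∘L KDa.dS (bas r 1)) ∧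
    (∀ s L, 0 < s → IsLor L → ga c s L (fun η => psi w (b3 η.1 (pf s L Y))) =
      s • fun η : EC => psi w (b3 η.1 Y)) ∧
    ∀ Y' (a : ℝ) (η : EC), ContDiff ℝ ∞ Y' →
      psi w (b3 η.1 (Y + Y')) = psi w (b3 η.1 Y) + psi w (b3 η.1 Y') ∧
      psi w (b3 η.1 (a • Y)) = a • psi w (b3 η.1 Y)

theorem BP.of {c : Ctx D} {w : WW D} (h1 : BP1 c w) (h2 : BP2 c w) : BP c w :=
  ⟨h1.add, h1.smul, h1.tc, h1.loc, h1.cov, h1.sy, h1.c1, h1.c3, h2.dzero, h2.dadd, h2.dsmul,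
    h2.dsy, h2.dact, h2.dhom, h2.dcont, h2.g1, h2.g3⟩

/-- the parts of the tool rows -/
structure Rows2 : Prop where
  ten1 : TEN1
  ten2 : TEN2
  ten3 : TEN3
  ba1 : T3 c → TEN → BA1 c
  ba2 : T3 c → TEN → BA1 c → BA2 c
  bp1 : T3 c → TEN → BA c → ∀ w, Src c w → BP1 c w
  bp2 : T3 c → TEN → BA c → ∀ w, Src c w → BP1 c w → BP2 c w

end

end Vale.Agent.P352X.TPD
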