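import Vale.Agent.P352X.TPD.Spec2

/-!
# P352X, block TPD, row ten1: tensor algebra
-/

set_option linter.all false

open MeasureTheory Filter Topology
open scoped SchwartzMap ComplexConjugate ENNReal ContDiff

namespace Vale.Agent.P352X.TPD

open Vale.Agent.P352 Vale.Agent.P352.GF Vale.Agent.P352.BW Vale.Agent.P352.H246
open Vale.Agent.P352.H496 Vale.Agent.P352.H755 Vale.Agent.P352.H15

noncomputable section

namespace Tn1

section

variable {ι : Type} [Fintype ι] [DecidableEq ι]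

lemma pb_apply (L : Ix → V) (h : Tn ι) (ν : ι → Ix) :
    pb L h ν = ∑ μ : ι → Ix, (∏ i, L (ν i) (μ i)) * h μ := rfl

lemma cm_apply (L L' : Ix → V) (n k : Ix) : T.cm L L' n k = ∑ m, L n m * L' m k := by
  simp [T.cm, sim]

lemma pb_one (h : Tn ι) : pb GF.one h = h := by
  funext ν
  rw [pb_apply, Finset.sum_eq_single ν]
  · simp [GF.one, bas]
  · intro μ _ hμ
    obtain ⟨i, hi⟩ := Function.ne_iff.1 hμ
    rw [Finset.prod_eq_zero (Finset.mem_univ i) (by simp [GF.one, bas, hi]), zero_mul]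
  · exact fun h => absurd (Finset.mem_univ _) h

lemma pb_mul (L L' : Ix → V) (h : Tn ι) : pb L' (pb L h) = pb (T.cm L' L) h := by
  funext ν
  simp only [pb_apply, cm_apply, Finset.mul_sum, Fintype.prod_sum, Finset.sum_mul,
    Finset.prod_mul_distrib]
  rw [Finset.sum_comm]
  simp only [mul_assoc]

lemma pb_perm {κ : Type} [Fintype κ] [DecidableEq κ] (e : ι ≃ κ) (L : Ix → V) (h : Tn ι) :
    pb L (fun ν : κ → Ix => h (ν ∘ e)) = fun ν => pb L h (ν ∘ e) := by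
  funext ν
  simp only [pb_apply]
  refine Fintype.sum_equiv (Equiv.arrowCongr e.symm (Equiv.refl Ix)) _ _ fun μ => ?_
  rw [← e.prod_comp]
  rfl

lemma pb_adj (L : Ix → V) (h h' : Tn ι) :
    ∑ ν, pb L h ν * h' ν = ∑ ν, h ν * pb (fun m n => L n m) h' ν := by
  simp only [pb_apply, Finset.mul_sum, Finset.sum_mul]
  rw [Finset.sum_comm]
  refine Finset.sum_congr rfl fun _ _ => Finset.sum_congr rfl fun _ _ => by ring

lemma pb_pure (L : Ix → V) (v : ι → V) :
    pb L (fun ν => ∏ i, v i (ν i)) = fun ν => ∏ i, ∑ m, L (ν i) m * v i m := by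
  funext ν
  simp only [pb_apply, Fintype.prod_sum, Finset.prod_mul_distrib]

lemma cd_sim (s : ℝ) (L : Ix → V) : ContDiff ℝ ∞ (sim s L 0) := by
  unfold sim
  fun_prop

lemma sim_cm (s s' : ℝ) (L L' : Ix → V) (z : V) :
    sim (s * s') (T.cm L' L) 0 z = sim s L 0 (sim s' L' 0 z) := by
  funext n
  simp only [sim, T.cm, Pi.zero_apply, zero_add, one_mul, Fin.sum_univ_four]
  ring

lemma pf_mul (s s' : ℝ) (L L' : Ix → V) (S : V → Tn ι) :
    pf s' L' (pf s L S) = pf (s * s') (T.cm L' L) S := by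
  funext u
  simp only [pf, pb_mul, sim_cm]

lemma pf_smooth (s : ℝ) (L : Ix → V) {S : V → Tn ι} (h : ContDiff ℝ ∞ S) :
    ContDiff ℝ ∞ (pf s L S) :=
  (LinearMap.toContinuousLinearMap (pb (ι := ι) L)).contDiff.comp (h.comp (cd_sim s L))

lemma pf_pol {k : ℕ} (s : ℝ) (L : Ix → V) (h : Tn (ι ⊕ Fin k)) :
    pf s L (pol h) = s ^ k • pol (pb L h) := by
  funext u ν
  have e : ∀ f : (ι ⊕ Fin k → Ix) → ℝ, ∑ ρ, f ρ = ∑ μ, ∑ γ, f (Sum.elim μ γ) := fun f => by
    rw [← Fintype.sum_prod_type', ← (Equiv.sumArrowEquivProdArrow ι (Fin k) Ix).symm.sum_comp]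
    rfl
  simp only [pf, pb_apply, pol, sim, Pi.zero_apply, zero_add, Pi.smul_apply, smul_eq_mul, e,
    Fintype.prod_sum_type, Sum.elim_inl, Sum.elim_inr, Finset.prod_mul_distrib, Finset.prod_const,
    Finset.card_univ, Fintype.card_fin, Fintype.prod_sum, Finset.mul_sum, Finset.sum_mul]
  rw [Finset.sum_comm (γ := Fin k → Ix) (α := ι → Ix)]
  refine Finset.sum_congr rfl fun μ _ => ?_
  rw [Finset.sum_comm]
  exact Finset.sum_congr rfl fun _ _ => Finset.sum_congr rfl fun _ _ => by ring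

end

lemma sum_succ {n : ℕ} (f : (Fin (n + 1) → Ix) → ℝ) :
    ∑ μ, f μ = ∑ a, ∑ μ, f (Matrix.vecCons a μ) := by
  rw [← Fintype.sum_prod_type', ← (Fin.consEquiv fun _ => Ix).sum_comp]
  rfl

lemma sum_nil (f : (Fin 0 → Ix) → ℝ) : ∑ μ, f μ = f ![] := Fintype.sum_unique f ▸
  congrArg f (Subsingleton.elim _ _)

lemma pb2 (L : Ix → V) (k : Tn (Fin 2)) (ν : Fin 2 → Ix) :
    pb L k ν = ∑ a, ∑ b, L (ν 0) a * L (ν 1) b * k ![a, b] := by
  simp [pb_apply, sum_succ, Fin.prod_univ_two, Matrix.empty_eq]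

lemma pb3 (L : Ix → V) (k : Tn (Fin 3)) (ν : Fin 3 → Ix) :
    pb L k ν = ∑ a, ∑ b, ∑ c, L (ν 0) a * L (ν 1) b * L (ν 2) c * k ![a, b, c] := by
  simp [pb_apply, sum_succ, Fin.prod_univ_three, Matrix.empty_eq]

lemma pb4 (L : Ix → V) (t : Tn (Fin 4)) (ν : Fin 4 → Ix) : pb L t ν =
    ∑ a, ∑ b, ∑ c, ∑ d, L (ν 0) a * L (ν 1) b * L (ν 2) c * L (ν 3) d * t ![a, b, c, d] := by
  simp [pb_apply, sum_succ, Fin.prod_univ_four, Matrix.empty_eq]

lemma pb_et {L : Ix → V} (h : IsLor L) : pb L et = et := by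
  funext ν
  rw [pb2, et, ← h.1]
  simp [et, bas, GF.mdot, mul_comm, mul_left_comm, mul_assoc]

lemma pb_sq {L : Ix → V} (h : IsLor L) (n : V) : pb L (sq (sim 1 L 0 n)) = sq n := by
  funext ν
  rw [pb2, sq, ← md_L h, ← md_L h, GF.mdot, GF.mdot, Finset.sum_mul_sum]
  exact Finset.sum_congr rfl fun _ _ => Finset.sum_congr rfl fun _ _ => by simp [sq]; ring

lemma trc_pb {L : Ix → V} (h : IsLor L) (k : Tn (Fin 2)) : trc (pb L k) = trc k := by
  have e : trc (pb L k) = ∑ a, ∑ b, (∑ m, eta m * L m a * L m b) * k ![a, b] := by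
    simp only [trc, pb2, Fin.sum_univ_four, Matrix.cons_val_zero, Matrix.cons_val_one]
    ring
  rw [e]
  simp [lor_transpose h, bas, trc]

lemma pb_sw2 (L : Ix → V) (k : Tn (Fin 2)) (ν : Fin 2 → Ix) :
    pb L (fun ν => k ![ν 1, ν 0]) ν = pb L k ![ν 1, ν 0] := by
  simp only [pb2, Matrix.cons_val_zero, Matrix.cons_val_one]
  rw [Finset.sum_comm]
  exact Finset.sum_congr rfl fun _ _ => Finset.sum_congr rfl fun _ _ => by ring

lemma tl_pb {L : Ix → V} (h : IsLor L) (k : Tn (Fin 2)) : tl (pb L k) = pb L (tl k) := by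
  have e : tl k = (1 / 2 : ℝ) • (k + fun ν => k ![ν 1, ν 0]) - (trc k / 4) • et := by
    funext ν; simp [tl]; ring
  rw [e, map_sub, map_smul, map_smul, map_add, pb_et h]
  funext ν
  simp [tl, trc_pb h, pb_sw2]
  ring

lemma sy_pb (L : Ix → V) (t : Tn (Fin 4)) : sy (pb L t) = pb L (sy t) := by
  have e : ∀ (t : Tn (Fin 4)), sy t = t + (fun ν => t (ν ∘ Equiv.swap 0 1)) +
      (fun ν => t (ν ∘ Equiv.swap 2 3)) + fun ν => t (ν ∘ (Equiv.swap 0 1).trans (Equiv.swap 2 3)) :=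
    fun t => by
      funext ν
      have a : ![ν 1, ν 0, ν 2, ν 3] = ν ∘ Equiv.swap 0 1 := by funext i; fin_cases i <;> rfl
      have b : ![ν 0, ν 1, ν 3, ν 2] = ν ∘ Equiv.swap 2 3 := by funext i; fin_cases i <;> rfl
      have c : ![ν 1, ν 0, ν 3, ν 2] = ν ∘ (Equiv.swap 0 1).trans (Equiv.swap 2 3) := by
        funext i; fin_cases i <;> rfl
      simp only [sy, Pi.add_apply, a, b, c]
  rw [e, e, map_add, map_add, map_add, pb_perm, pb_perm, pb_perm]

lemma mu_sim {L : Ix → V} (h : IsLor L) (s : ℝ) (u : V) : mu (sim s L 0 u) = s ^ 2 * mu u := by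
  rw [mu, mu, ← md_LL h u u]
  simp only [GF.mdot, sim, Pi.zero_apply, zero_add, one_mul, Finset.mul_sum (a := s ^ 2)]
  exact Finset.sum_congr rfl fun _ _ => by ring

lemma sum_mul2 (A B : Ix → Ix → ℝ) :
    (∑ a, ∑ b, A a b) * ∑ c, ∑ d, B c d = ∑ a, ∑ b, ∑ c, ∑ d, A a b * B c d := by
  simp only [Finset.sum_mul]
  simp only [Finset.mul_sum]

lemma pf_h0 {L : Ix → V} (h : IsLor L) (s : ℝ) (k : Tn (Fin 2)) :
    pf s L (h0 k) = s ^ 2 • h0 (pb L k) := by
  funext u ν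
  simp only [pf, pb4, h0, mu_sim h, Pi.smul_apply, smul_eq_mul]
  conv_rhs => rw [← pb_et h]
  simp only [pb2, Matrix.cons_val_zero, Matrix.cons_val_one, Matrix.cons_val, mul_assoc (mu u)]
  rw [sum_mul2]
  simp only [Finset.mul_sum]
  refine Finset.sum_congr rfl fun _ _ => Finset.sum_congr rfl fun _ _ =>
    Finset.sum_congr rfl fun _ _ => Finset.sum_congr rfl fun _ _ => ?_
  ring

end Tn1

open Tn1 in
theorem ten1_row : TEN1 where
  one _ _ _ := pb_one
  mul _ _ _ := pb_mul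
  perm _ _ _ _ _ _ := pb_perm
  adj _ _ _ := pb_adj
  pure _ _ _ := pb_pure
  four L t K M := by
    simp [pb4, L2, Fintype.sum_prod_type, mul_assoc]
  pol _ _ _ _ := pf_pol
  add κ k a h h' := ⟨by funext u ν; simp [pol, add_mul, Finset.sum_add_distrib],
    by funext u ν; simp [pol, Finset.mul_sum, mul_assoc]⟩
  smooth κ _ _ k h := ⟨by unfold pol; fun_prop, fun u => by
    funext ν
    simp [pol, Finset.prod_neg, Finset.mul_sum, mul_left_comm]⟩
  pfm _ _ _ := pf_mul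
  pfs _ _ _ s L _ := pf_smooth s L
  h0 s L k h := pf_h0 h s k
  h0s k := ⟨by unfold h0 mu GF.mdot; fun_prop, fun u => by funext ν; simp [h0, mu, GF.mdot],
    fun k' a => ⟨by funext u ν; simp [h0, mul_add], by funext u ν; simp [h0, mul_left_comm]⟩⟩
  et _ := pb_et
  sq _ n h := pb_sq h n
  tl _ k h := ⟨trc_pb h k, tl_pb h k⟩
  sy := sy_pb

end

end Vale.Agent.P352X.TPD
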