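import Vale.Agent.P352X.TPD.Ten1
import Vale.Agent.P352X.Api2b

/-!
# P352X, block TPD, row ten2: tensor fields and cutoffs
-/

set_option linter.all false

open MeasureTheory Filter Topology
open scoped SchwartzMap ComplexConjugate ENNReal ContDiff

namespace Vale.Agent.P352X.TPD

open Vale.Agent.P352 Vale.Agent.P352.GF Vale.Agent.P352.BW Vale.Agent.P352.H246
open Vale.Agent.P352.H496 Vale.Agent.P352.H755 Vale.Agent.P352.H15

noncomputable section

namespace Tn2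

open Tn1

/-- the linear map `sim s L 0` -/
def sL (s : ℝ) (L : Ix → V) : V →L[ℝ] V := LinearMap.toContinuousLinearMap
  { toFun := sim s L 0
    map_add' := fun x y => by rw [sim_s, sim_s s L x, sim_s s L y, simL_add, smul_add]
    map_smul' := fun c x => by rw [sim_s, sim_s s L x, simL_smul, smul_comm, RingHom.id_apply] }

lemma sL_apply (s : ℝ) (L : Ix → V) (x : V) : sL s L x = sim s L 0 x := rfl

lemma dr_sim {f : V → ℝ} (hf : ContDiff ℝ ∞ f) (s : ℝ) (L : Ix → V) (m : Ix) (u : V) :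
    dr m (fun v => f (sim s L 0 v)) u = s * ∑ r, L m r * dr r f (sim s L 0 u) := by
  have d := hf.differentiable (by simp)
  have h := ((d (sL s L u)).hasFDerivAt.comp u (sL s L).hasFDerivAt)
  have e : sim s L 0 (bas m 1) = s • ∑ r, L m r • bas r 1 := by
    rw [Ap.sum_bas]; funext n; simp [sim, bas]
  rw [Ap.dr_eq (f := fun v => f (sim s L 0 v)) h.differentiableAt,
    show fderiv ℝ (fun v => f (sim s L 0 v)) u = _ from h.fderiv, ContinuousLinearMap.comp_apply,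
    sL_apply, sL_apply, e, map_smul, map_sum]
  simp only [Ap.dr_eq (d _), map_smul, smul_eq_mul]

lemma dr_sum {ι : Type*} [Fintype ι] {f : ι → V → ℝ} (hf : ∀ i, ContDiff ℝ ∞ (f i)) (a : ι → ℝ)
    (m : Ix) (u : V) : dr m (fun v => ∑ i, a i * f i v) u = ∑ i, a i * dr m (f i) u := by
  have d := fun i => ((hf i).differentiable (by simp) u).hasFDerivAt
  have h := HasFDerivAt.fun_sum (u := Finset.univ) fun i _ => (d i).const_mul (a i)
  rw [Ap.dr_eq h.differentiableAt, h.fderiv]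
  simp [Ap.dr_eq (d _).differentiableAt]

lemma dr_pf {X : V → Tn (Fin 3)} (h : ContDiff ℝ ∞ X) (s : ℝ) (L : Ix → V) (m : Ix)
    (ν : Fin 3 → Ix) (u : V) : dr m (fun v => pf s L X v ν) u = s * ∑ r, ∑ a, ∑ b, ∑ c,
      L m r * L (ν 0) a * L (ν 1) b * L (ν 2) c * dr r (fun v => X v ![a, b, c]) (sim s L 0 u) := by
  have c : ∀ μ, ContDiff ℝ ∞ fun v => X v μ := contDiff_pi.1 h
  simp only [pf, pb_apply]
  rw [dr_sum (f := fun μ v => X (sim s L 0 v) μ) fun μ => (c μ).comp (cd_sim s L)]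
  simp only [dr_sim (c _), Finset.mul_sum]
  rw [Finset.sum_comm]
  refine Finset.sum_congr rfl fun r _ => ?_
  simp [sum_succ, Fin.prod_univ_three, Matrix.empty_eq, mul_comm, mul_left_comm, mul_assoc]

lemma rot3 (f : Ix → Ix → Ix → Ix → ℝ) :
    ∑ r, ∑ a, ∑ b, ∑ c, f a b r c = ∑ a, ∑ b, ∑ r, ∑ c, f a b r c := by
  rw [Finset.sum_comm]
  exact Finset.sum_congr rfl fun _ _ => Finset.sum_comm

lemma d1_pf {X : V → Tn (Fin 3)} (h : ContDiff ℝ ∞ X) (s : ℝ) (L : Ix → V) :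
    d1 (pf s L X) = s • pf s L (d1 X) := by
  funext u ν
  rw [d1, dr_pf h]
  simp [pf, pb4, d1]

lemma d3_pf {X : V → Tn (Fin 3)} (h : ContDiff ℝ ∞ X) (s : ℝ) (L : Ix → V) :
    d3 (pf s L X) = s • pf s L (d3 X) := by
  funext u ν
  rw [d3, dr_pf h, rot3]
  simp [pf, pb4, d3, mul_comm, mul_left_comm, mul_assoc]

lemma b1_pf {χ : V → ℝ} (h : ContDiff ℝ ∞ χ) (X : V → Tn (Fin 3)) (s : ℝ) (L : Ix → V) :
    b1 (fun u => χ (sim s L 0 u)) (pf s L X) = s • pf s L (b1 χ X) := by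
  funext u ν
  rw [b1, dr_sim h, mul_assoc, Finset.sum_mul]
  simp [pf, pb4, pb3, b1, Finset.mul_sum, mul_comm, mul_left_comm, mul_assoc]

lemma b3_pf {χ : V → ℝ} (h : ContDiff ℝ ∞ χ) (X : V → Tn (Fin 3)) (s : ℝ) (L : Ix → V) :
    b3 (fun u => χ (sim s L 0 u)) (pf s L X) = s • pf s L (b3 χ X) := by
  funext u ν
  rw [b3, dr_sim h, mul_assoc, Finset.sum_mul]
  simp only [pf, pb4, pb3, b3, Finset.mul_sum, Pi.smul_apply, smul_eq_mul]
  rw [rot3]
  simp [mul_comm, mul_left_comm, mul_assoc]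

lemma i3_pf (s : ℝ) (L : Ix → V) (Y : V → Tn (Fin 3)) (t : Ix) :
    pf s L (i3 t Y) = ∑ r, L r t • i3 r (pf s L Y) := by
  funext u ν
  have e : (∑ r, L r t • i3 r (pf s L Y)) u ν = L (ν 2) t * pf s L Y u ![ν 0, ν 1, ν 3] := by
    simp [Finset.sum_apply, i3, bas]
  rw [e]
  simp only [pf, pb4]
  rw [← rot3, Finset.sum_eq_single t (fun r _ hr => by simp [i3, bas, hr]) (by simp)]
  simp [pb3, i3, bas, Finset.mul_sum, mul_comm, mul_left_comm, mul_assoc]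

lemma ok_of {χ : V → ℝ} {φ : V → Tn (Fin 4)} (h : Tst χ) (h0 : ∀ᶠ u in 𝓝 (0 : V), φ u = 0)
    (hs : ContDiff ℝ ∞ φ) (hz : ∀ u, (∀ᶠ v in 𝓝 u, χ v = 0) → φ u = 0) :
    Ok φ ∧ tsupport φ ⊆ tsupport χ := by
  have e : tsupport φ ⊆ tsupport χ := closure_minimal (fun u hu => by_contra fun k =>
    hu (hz u (notMem_tsupport_iff_eventuallyEq.1 k))) isClosed_closure
  exact ⟨⟨hs, h.2.of_isClosed_subset isClosed_closure e, notMem_tsupport_iff_eventuallyEq.2 h0⟩, e⟩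

lemma dr_zero {χ : V → ℝ} {u : V} {a : ℝ} (h : ∀ᶠ v in 𝓝 u, χ v = a) (m : Ix) : dr m χ u = 0 := by
  have e : χ =ᶠ[𝓝 u] fun _ => a := h
  rw [Ap.dr_eq (e.differentiableAt_iff.2 (differentiableAt_const a)), e.fderiv_eq]
  simp

lemma ok_cs {χ : V → ℝ} {S : V → Tn (Fin 4)} (h : Tst χ) (h0 : (0 : V) ∉ tsupport χ)
    (hS : ContDiff ℝ ∞ S) : Ok (cs χ S) ∧ tsupport (cs χ S) ⊆ tsupport χ :=
  ok_of h ((notMem_tsupport_iff_eventuallyEq.1 h0).mono fun u hu => by simp [cs, hu])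
    (h.1.smul hS) fun u hu => by simp [cs, hu.self_of_nhds]

lemma ok_b1 {χ : V → ℝ} {X : V → Tn (Fin 3)} (h : Tst χ) (h0 : ∀ᶠ u in 𝓝 (0 : V), χ u = χ 0)
    (hX : ContDiff ℝ ∞ X) : Ok (b1 χ X) ∧ tsupport (b1 χ X) ⊆ tsupport χ :=
  ok_of h (h0.eventually_nhds.mono fun u hu => funext fun ν => by simp [b1, dr_zero hu])
    (contDiff_pi.2 fun ν => (Ap.smooth_dr h.1 _).mul (contDiff_pi.1 hX _))
    fun u hu => funext fun ν => by simp [b1, dr_zero hu]

lemma ok_b3 {χ : V → ℝ} {X : V → Tn (Fin 3)} (h : Tst χ) (h0 : ∀ᶠ u in 𝓝 (0 : V), χ u = χ 0)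
    (hX : ContDiff ℝ ∞ X) : Ok (b3 χ X) ∧ tsupport (b3 χ X) ⊆ tsupport χ :=
  ok_of h (h0.eventually_nhds.mono fun u hu => funext fun ν => by simp [b3, dr_zero hu])
    (contDiff_pi.2 fun ν => (Ap.smooth_dr h.1 _).mul (contDiff_pi.1 hX _))
    fun u hu => funext fun ν => by simp [b3, dr_zero hu]

lemma ok_pf {s : ℝ} {L : Ix → V} {φ : V → Tn (Fin 4)} (hs : 0 < s) (hL : IsLor L) (h : Ok φ) :
    Ok (pf s L φ) := by
  let e := (H755.simE s L hs hL).toContinuousLinearEquiv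
  have he : pf s L φ = pb L ∘ φ ∘ e := funext fun u => by
    rw [pf, ← H755.simE_apply hs hL u]; rfl
  refine ⟨pf_smooth s L h.1, ?_, notMem_tsupport_iff_eventuallyEq.2 ?_⟩
  · rw [he]
    exact (h.2.1.comp_homeomorph e.toHomeomorph).comp_left (map_zero _)
  · rw [he]
    filter_upwards [(e.continuous.tendsto' 0 0 (map_zero e)).eventually
      (notMem_tsupport_iff_eventuallyEq.1 h.2.2)] with u hu
    simp [hu]

lemma ec_sub (η η' : EC) : Tst (η.1 - η'.1) ∧ (0 : V) ∉ tsupport (η.1 - η'.1) :=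
  ⟨⟨η.2.1.1.1.sub η'.2.1.1.1, η.2.1.1.2.sub η'.2.1.1.2⟩, notMem_tsupport_iff_eventuallyEq.2 (by
    filter_upwards [η.2.1.2, η'.2.1.2] with u h h'
    simp [h, h'])⟩

lemma ec_small {ε : ℝ} (h : 0 < ε) : ∃ η : EC, tsupport η.1 ⊆ Metric.ball 0 ε := by
  let b : ContDiffBump (0 : V) := ⟨ε / 4, ε / 2, by positivity, by linarith⟩
  refine ⟨⟨b, ⟨⟨b.contDiff, b.hasCompactSupport⟩, b.eventuallyEq_one⟩, b.neg⟩, ?_⟩
  rw [b.tsupport_eq]
  exact Metric.closedBall_subset_ball (half_lt_self h)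

lemma lor_cm {L L' : Ix → V} (h : IsLor L) (h' : IsLor L') : IsLor (T.cm L' L) := ue_lor h h'

lemma ec_pull (η : EC) {s s' : ℝ} {L L' : Ix → V} (hs : 0 < s) (hs' : 0 < s') (h : IsLor L)
    (h' : IsLor L') : (η.pull s L).pull s' L' = η.pull (s * s') (T.cm L' L) ∧
      η.pull 1 GF.one = η ∧ sim s L 0 '' tsupport (η.pull s L).1 = tsupport η.1 := by
  refine ⟨Subtype.ext (funext fun u => ?_), Subtype.ext (funext fun u => ?_), ?_⟩
  · rw [EC.pull_apply _ hs' h', EC.pull_apply _ hs h, EC.pull_apply _ (mul_pos hs hs') (lor_cm h h'),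
      Tn1.sim_cm]
  · rw [EC.pull_apply _ one_pos H496.isLor_one]
    exact congrArg η.1 (funext fun n => by simp [sim, GF.one, bas])
  · let e := (H755.simE s L hs h).toContinuousLinearEquiv.toHomeomorph
    have he : sim s L 0 = e := funext fun u => (H755.simE_apply hs h u).symm
    have : (η.pull s L).1 = η.1 ∘ e := funext fun u => by rw [EC.pull_apply _ hs h, he]; rfl
    rw [this, he, tsupport_comp_eq_preimage, e.image_preimage]

end Tn2

open Tn2 in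
theorem ten2_row : TEN2 where
  d1 s L _ h := ⟨d1_pf h s L, d3_pf h s L⟩
  b1 s L _ X h := ⟨b1_pf h X s L, b3_pf h X s L⟩
  i3 := i3_pf
  okc _ _ := ok_cs
  okb _ _ h h0 hX := ⟨(ok_b1 h h0 hX).1, (ok_b1 h h0 hX).2, ok_b3 h h0 hX⟩
  okp _ _ _ := ok_pf
  ec := ec_sub
  small _ := ec_small
  pull η _ _ _ _ := ec_pull η

end

end Vale.Agent.P352X.TPD
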