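import Vale.Agent.P352X.TPD.Spec
import Vale.Agent.P352X.Api3a

/-!
# P352X, block TPD: small common lemmas
-/

set_option linter.all false

open MeasureTheory Filter Topology
open scoped SchwartzMap ComplexConjugate ENNReal ContDiff

namespace Vale.Agent.P352X.TPD

open Vale.Agent.P352 Vale.Agent.P352.GF Vale.Agent.P352.BW Vale.Agent.P352.H246
open Vale.Agent.P352.H496 Vale.Agent.P352.H755 Vale.Agent.P352.H15
open UniformSpace (Completion)
open Complex (I)

noncomputable section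

lemma sim_id (z : V) : sim 1 GF.one 0 z = z := by rw [sim_one', add_zero]

lemma cm_one (L : Ix → V) : T.cm L GF.one = L := T.mat_ext fun x => by rw [T.sim_cm, sim_id]

lemma one_cm (L : Ix → V) : T.cm GF.one L = L := T.mat_ext fun x => by rw [T.sim_cm, sim_id]

lemma lor_one (t : TEN) : IsLor GF.one := t.lb0.1 ▸ (t.lb 0).1

lemma sq_smul (t : ℝ) (n : V) : sq (t • n) = t ^ 2 • sq n := by
  funext ν
  simp only [sq, Pi.smul_apply, smul_eq_mul]
  ring

lemma ec0 (t : TEN) : Nonempty EC := let ⟨η, _⟩ := t.small 1 one_pos; ⟨η⟩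

variable {D : Type*} [NormedAddCommGroup D] [InnerProductSpace ℂ D] {c : Ctx D} {w : WW D}

/-- dilations commute with everything -/
lemma ga_dil (b : B0 c) {s : ℝ} {L : Ix → V} (hs : 0 < s) (hL : IsLor L) (x : Fam D) :
    ga c s L x = ga c 1 L (ga c s GF.one x) ∧ ga c s L x = ga c s GF.one (ga c 1 L x) := by
  rw [b.ba.gmul _ _ _ _ _ one_pos hs hL (lor_one b.ten), b.ba.gmul _ _ _ _ _ hs one_pos
    (lor_one b.ten) hL, one_mul, mul_one, cm_one, one_cm]
  exact ⟨rfl, rfl⟩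

lemma act_dil (b : B0 c) {s : ℝ} {L : Ix → V} (hs : 0 < s) (hL : IsLor L) (x : TT D) :
    act c s L x = act c 1 L (act c s GF.one x) ∧ act c s L x = act c s GF.one (act c 1 L x) := by
  rw [b.ba.mul _ _ _ _ _ one_pos hs hL (lor_one b.ten), b.ba.mul _ _ _ _ _ hs one_pos
    (lor_one b.ten) hL, one_mul, mul_one, cm_one, one_cm]
  exact ⟨rfl, rfl⟩

lemma ga_cm (b : B0 c) {L L' : Ix → V} (hL : IsLor L) (hL' : IsLor L') (x : Fam D) :
    ga c 1 L (ga c 1 L' x) = ga c 1 (T.cm L' L) x := by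
  rw [b.ba.gmul _ _ _ _ _ one_pos one_pos hL hL', one_mul]

/-- differences of data -/
lemma BP.dsub (P : BP c w) {σ : ℝ} {S : V → Tn (Fin 4)} {x x' : Fam D} (hS : ContDiff ℝ ∞ S)
    (h : Dat c w σ S x) (h' : Dat c w σ S x') : Dat c w σ 0 (x - x') := by
  have := P.dadd σ _ _ _ _ hS (hS.const_smul (-1 : ℝ)) h (P.dsmul σ (-1) S x' hS h')
  rwa [show (S + fun u => (-1 : ℝ) • S u) = 0 from funext fun u => by simp, neg_one_smul,
    ← sub_eq_add_neg] at this

/-- linear combinations of data for `h0` -/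
lemma BP.dsum (P : BP c w) (t : TEN) {ι : Type*} (s : Finset ι) (a : ι → ℝ) (k : ι → Tn (Fin 2))
    (x : ι → Fam D) (h : ∀ i ∈ s, Dat c w 1 (h0 (k i)) (x i)) :
    Dat c w 1 (h0 (∑ i ∈ s, a i • k i)) (∑ i ∈ s, a i • x i) := by
  classical
  induction s using Finset.induction_on with
  | empty =>
    have := ((t.h0s 0).2.2 0 0).2
    rw [zero_smul, zero_smul] at this
    simpa only [Finset.sum_empty, this] using P.dzero 1
  | insert i s hi ih =>
    rw [Finset.sum_insert hi, Finset.sum_insert hi, ((t.h0s _).2.2 _ 0).1]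
    refine P.dadd 1 _ _ _ _ (t.h0s _).1 (t.h0s _).1 ?_ (ih fun j hj => h j (by simp [hj]))
    rw [((t.h0s _).2.2 0 _).2]
    exact P.dsmul 1 _ _ _ (t.h0s _).1 (h i (by simp))

lemma tt_ext {x y : TT D} (h : ∀ ξ f, inner ℂ ξ (x f) = inner ℂ ξ (y f)) : x = y :=
  ContinuousLinearMap.ext fun f => ext_inner_left ℂ fun ξ => h ξ f

/-- the lowest weight is seen in the limit -/
lemma wt_lim (b : B0 c) {s : Finset ℤ} {z : ℤ → TT D} {y : TT D} {m : ℤ}
    (hz : ∀ n t, act c 1 (Lb t) (z n) = Real.exp (n * t) • z n)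
    (h : ∀ f, Tendsto (fun t : ℝ => Real.exp (-(m * t)) • act c 1 (Lb t) (∑ n ∈ s, z n) f) atBot
      (𝓝 (y f))) : (∀ n ∈ s, n < m → z n = 0) ∧ (m ∈ s → z m = y) ∧ (m ∉ s → y = 0) := by
  have k := fun ξ f => b.exp.lim s (fun n => inner ℂ ξ (z n f)) (inner ℂ ξ (y f)) m
    ((tendsto_const_nhds.inner (h f)).congr fun t => by
      simp only [map_sum, hz, ContinuousLinearMap.sum_apply, ContinuousLinearMap.smul_apply,
        Finset.smul_sum, smul_smul, inner_sum, ← Real.exp_add]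
      refine Finset.sum_congr rfl fun n _ => ?_
      rw [← Complex.coe_smul, inner_smul_right, Complex.real_smul]
      congr 3
      ring)
  exact ⟨fun n hn h1 => tt_ext fun ξ f => by simpa using (k ξ f).1 n hn h1,
    fun h1 => tt_ext fun ξ f => (k ξ f).2.1 h1, fun h1 => tt_ext fun ξ f => by
      simpa using (k ξ f).2.2 h1⟩

end

end Vale.Agent.P352X.TPD
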